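import Mathlib

/-!
Walsh characters on `ι → Bool` with the uniform product measure: Parseval's identity.
-/

set_option autoImplicit false

namespace Crest.Agent.R191

open MeasureTheory ProbabilityTheory

/-- The fair coin. -/
noncomputable def bernCoin : Measure Bool := (PMF.uniformOfFintype Bool).toMeasure

instance bernCoin_prob : IsProbabilityMeasure bernCoin := by
  unfold bernCoin; infer_instance

/-- The sign of a bit. -/
def bernSgn (b : Bool) : ℝ := if b then 1 else -1

lemma bernSgn_mul_self (b : Bool) : bernSgn b * bernSgn b = 1 := by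
  cases b <;> simp [bernSgn]

lemma bernSgn_abs (b : Bool) : |bernSgn b| = 1 := by
  cases b <;> simp [bernSgn]

lemma bern_integral_sgn : ∫ b, bernSgn b ∂bernCoin = 0 := by
  unfold bernCoin
  rw [PMF.integral_eq_sum]
  simp [bernSgn]

/-- The uniform product measure. -/
noncomputable def bernMeas (ι : Type) : Measure (ι → Bool) :=
  Measure.infinitePi (fun _ : ι => bernCoin)

instance bernMeas_prob (ι : Type) : IsProbabilityMeasure (bernMeas ι) := by
  unfold bernMeas; infer_instance

/-- Walsh characters. -/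
def bernChi {ι : Type} (S : Finset ι) (ω : ι → Bool) : ℝ := ∏ i ∈ S, bernSgn (ω i)

lemma bernChi_measurable {ι : Type} (S : Finset ι) : Measurable (bernChi S) := by
  unfold bernChi
  refine Finset.measurable_prod _ fun i _ => ?_
  exact (measurable_from_top (f := bernSgn)).comp (measurable_pi_apply i)

lemma bernChi_abs {ι : Type} (S : Finset ι) (ω : ι → Bool) : |bernChi S ω| = 1 := by
  unfold bernChi
  rw [Finset.abs_prod]
  exact Finset.prod_eq_one fun i _ => bernSgn_abs _

lemma bernChi_mul_self {ι : Type} (S : Finset ι) (ω : ι → Bool) :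
    bernChi S ω * bernChi S ω = 1 := by
  rw [← abs_mul_abs_self, bernChi_abs, one_mul]

lemma bernChi_memLp {ι : Type} (S : Finset ι) : MemLp (bernChi S) 2 (bernMeas ι) :=
  MemLp.of_bound (bernChi_measurable S).aestronglyMeasurable 1
    (Filter.Eventually.of_forall fun ω => by rw [Real.norm_eq_abs, bernChi_abs])

lemma bern_integral_prod {ι : Type} (s : Finset ι) (ρ : ι → Bool → ℝ) :
    ∫ ω, ∏ i ∈ s, ρ i (ω i) ∂(bernMeas ι) = ∏ i ∈ s, ∫ b, ρ i b ∂bernCoin := by
  have h1 := integral_restrict_infinitePi (μ := fun _ : ι => bernCoin) (s := s)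
    (f := fun y : (∀ _ : s, Bool) => ∏ i : s, ρ i (y i))
    (Measurable.aestronglyMeasurable (measurable_of_finite _))
  rw [integral_fintype_prod_eq_prod (fun (i : s) (b : Bool) => ρ i b)] at h1
  rw [← Finset.prod_coe_sort s (fun i => ∫ b, ρ i b ∂bernCoin), ← h1]
  unfold bernMeas
  refine integral_congr_ae (Filter.Eventually.of_forall fun ω => ?_)
  exact (Finset.prod_coe_sort s (fun i => ρ i (ω i))).symm

lemma bern_integral_chi_mul {ι : Type} {S T : Finset ι} (h : S ≠ T) :
    ∫ ω, bernChi S ω * bernChi T ω ∂(bernMeas ι) = 0 := by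
  classical
  have key : ∀ ω : ι → Bool, bernChi S ω * bernChi T ω =
      ∏ i ∈ S ∪ T, ((if i ∈ S then bernSgn (ω i) else 1) * (if i ∈ T then bernSgn (ω i) else 1)) := by
    intro ω
    rw [Finset.prod_mul_distrib, Finset.prod_ite_mem, Finset.prod_ite_mem]
    simp [bernChi]
  simp_rw [key]
  rw [bern_integral_prod (S ∪ T)
    (fun i b => (if i ∈ S then bernSgn b else 1) * (if i ∈ T then bernSgn b else 1))]
  by_cases h1 : S ⊆ T
  · have h2 : ¬ T ⊆ S := fun h2 => h (Finset.Subset.antisymm h1 h2)
    obtain ⟨i, hiT, hiS⟩ := Finset.not_subset.mp h2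
    refine Finset.prod_eq_zero (Finset.mem_union_right _ hiT) ?_
    simp [hiT, hiS, bern_integral_sgn]
  · obtain ⟨i, hiS, hiT⟩ := Finset.not_subset.mp h1
    refine Finset.prod_eq_zero (Finset.mem_union_left _ hiS) ?_
    simp [hiT, hiS, bern_integral_sgn]

/-- Walsh characters in `L²`. -/
noncomputable def bernE {ι : Type} (S : Finset ι) : Lp ℝ 2 (bernMeas ι) :=
  (bernChi_memLp S).toLp _

lemma bern_inner_E {ι : Type} (S : Finset ι) (f : Lp ℝ 2 (bernMeas ι)) :
    inner ℝ (bernE S) f = ∫ ω, bernChi S ω * f ω ∂(bernMeas ι) := by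
  rw [L2.inner_def]
  refine integral_congr_ae ?_
  filter_upwards [(bernChi_memLp S).coeFn_toLp] with ω hω
  simp only [bernE, hω]
  simp [mul_comm]

lemma bern_orthonormal {ι : Type} : Orthonormal ℝ (bernE (ι := ι)) := by
  classical
  rw [orthonormal_iff_ite]
  intro S T
  rw [bern_inner_E]
  have : ∫ ω, bernChi S ω * bernE T ω ∂(bernMeas ι) =
      ∫ ω, bernChi S ω * bernChi T ω ∂(bernMeas ι) := by
    refine integral_congr_ae ?_
    filter_upwards [(bernChi_memLp T).coeFn_toLp] with ω hω
    simp only [bernE, hω]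
  rw [this]
  split_ifs with h
  · subst h
    simp [bernChi_mul_self]
  · exact bern_integral_chi_mul h

lemma bern_complete {ι : Type} (f : (ι → Bool) → ℝ) (hf : Integrable f (bernMeas ι))
    (h0 : ∀ S : Finset ι, ∫ ω, bernChi S ω * f ω ∂(bernMeas ι) = 0) :
    f =ᵐ[bernMeas ι] 0 := by
  classical
  have hint : ∀ S : Finset ι, Integrable (fun ω => bernChi S ω * f ω) (bernMeas ι) := fun S =>
    hf.bdd_mul (c := 1) (bernChi_measurable S).aestronglyMeasurable
      (Filter.Eventually.of_forall fun ω => by rw [Real.norm_eq_abs, bernChi_abs])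
  have htot : ∫ ω, f ω ∂(bernMeas ι) = 0 := by simpa [bernChi] using h0 ∅
  have main : ∀ A : Set (ι → Bool), MeasurableSet A → ∫ ω in A, f ω ∂(bernMeas ι) = 0 := by
    refine MeasurableSpace.induction_on_inter generateFrom_squareCylinders.symm
      (isPiSystem_squareCylinders (fun _ ↦ MeasurableSpace.isPiSystem_measurableSet) (by simp))
      (by simp) ?_ ?_ ?_
    · rintro - ⟨s, t, -, rfl⟩
      have hm : MeasurableSet ((s : Set ι).pi t) :=
        MeasurableSet.pi s.countable_toSet fun i _ => MeasurableSet.of_discrete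
      rw [← integral_indicator hm]
      set a : ι → ℝ := fun i => ((t i).indicator 1 true - (t i).indicator 1 false) / 2 with ha
      set c : ι → ℝ := fun i => ((t i).indicator 1 true + (t i).indicator 1 false) / 2 with hc
      have key : ∀ ω : ι → Bool, ((s : Set ι).pi t).indicator f ω =
          ∑ u ∈ s.powerset, ((∏ i ∈ u, a i) * ∏ i ∈ s \ u, c i) * (bernChi u ω * f ω) := by
        intro ω
        have e1 : ((s : Set ι).pi t).indicator f ω =
            (∏ i ∈ s, (t i).indicator (1 : Bool → ℝ) (ω i)) * f ω := by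
          by_cases hω : ω ∈ (s : Set ι).pi t
          · rw [Set.indicator_of_mem hω, Finset.prod_eq_one, one_mul]
            intro i hi
            rw [Set.indicator_of_mem (hω i hi)]
            rfl
          · rw [Set.indicator_of_notMem hω]
            simp only [Set.mem_pi, not_forall] at hω
            obtain ⟨i, hi, hi'⟩ := hω
            rw [Finset.prod_eq_zero (i := i) hi (Set.indicator_of_notMem hi' _), zero_mul]
        have e2 : ∀ i, (t i).indicator (1 : Bool → ℝ) (ω i) = a i * bernSgn (ω i) + c i := by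
          intro i
          simp only [ha, hc]
          cases ω i <;> simp [bernSgn] <;> ring
        rw [e1]
        simp_rw [e2]
        rw [Finset.prod_add, Finset.sum_mul]
        refine Finset.sum_congr rfl fun u _ => ?_
        rw [Finset.prod_mul_distrib]
        simp only [bernChi]
        ring
      simp_rw [key]
      rw [integral_finsetSum _ (fun u _ => (hint u).const_mul _)]
      refine Finset.sum_eq_zero fun u _ => ?_
      rw [integral_const_mul, h0, mul_zero]
    · intro A hA h
      have := integral_add_compl hA hf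
      linarith
    · intro A hd hA h
      rw [integral_iUnion hA hd hf.integrableOn]
      simp [h]
  exact hf.ae_eq_zero_of_forall_setIntegral_eq_zero fun s hs _ => main s hs

/-- The Walsh basis of `L²`. -/
noncomputable def bernBasis (ι : Type) : HilbertBasis (Finset ι) ℝ (Lp ℝ 2 (bernMeas ι)) :=
  HilbertBasis.mkOfOrthogonalEqBot bern_orthonormal (by
    rw [Submodule.eq_bot_iff]
    intro f hf
    have h0 : ∀ S : Finset ι, ∫ ω, bernChi S ω * f ω ∂(bernMeas ι) = 0 := by
      intro S
      rw [← bern_inner_E]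
      exact (Submodule.mem_orthogonal _ _).mp hf _ (Submodule.subset_span ⟨S, rfl⟩)
    have := bern_complete f ((Lp.memLp f).integrable (by norm_num)) h0
    exact Lp.eq_zero_iff_ae_eq_zero.mpr this)

/-- Parseval's identity. -/
theorem bern_parseval {ι : Type} (f : (ι → Bool) → ℝ) (hf : MemLp f 2 (bernMeas ι)) :
    HasSum (fun S : Finset ι => (∫ ω, bernChi S ω * f ω ∂(bernMeas ι)) ^ 2)
      (∫ ω, f ω ^ 2 ∂(bernMeas ι)) := by
  have h := (bernBasis ι).hasSum_inner_mul_inner (hf.toLp f) (hf.toLp f)
  have hb : ∀ S, bernBasis ι S = bernE S := fun S =>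
    congrFun (HilbertBasis.coe_mkOfOrthogonalEqBot _ _) S
  have h1 : ∀ S : Finset ι, inner ℝ (bernE S) (hf.toLp f) =
      ∫ ω, bernChi S ω * f ω ∂(bernMeas ι) := by
    intro S
    rw [bern_inner_E]
    refine integral_congr_ae ?_
    filter_upwards [hf.coeFn_toLp] with ω hω
    rw [hω]
  have h2 : inner ℝ (hf.toLp f) (hf.toLp f) = ∫ ω, f ω ^ 2 ∂(bernMeas ι) := by
    rw [L2.inner_def]
    refine integral_congr_ae ?_
    filter_upwards [hf.coeFn_toLp] with ω hω
    simp [hω]
  rw [h2] at h
  have h3 : (fun S : Finset ι => (∫ ω, bernChi S ω * f ω ∂(bernMeas ι)) ^ 2) =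
      fun i => inner ℝ (hf.toLp f) (bernBasis ι i) * inner ℝ (bernBasis ι i) (hf.toLp f) := by
    funext S
    rw [hb, real_inner_comm, h1, sq]
  rw [h3]
  exact h

/-- The paradoxical-decomposition inequality. -/
theorem bern_half {Ω : Type} (α : Ω ≃ Ω) (N P P' : Set Ω) (c : Ω → ℝ)
    (hc : Summable fun T => c T ^ 2) {η : ℝ} (hη : HasSum (fun T => (c (α T) - c T) ^ 2) η)
    (hP : ∀ T ∈ N, T ∉ P' → α T ∈ P) :
    ∑' T, N.indicator (fun T => c T ^ 2) T ≤
      3 / 2 * (∑' T, P.indicator (fun T => c T ^ 2) T + ∑' T, P'.indicator (fun T => c T ^ 2) T) +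
        3 * η := by
  have s1 := (hc.indicator N).hasSum
  have s2 := (hc.indicator P').hasSum
  have s3 : HasSum (fun T => P.indicator (fun T => c T ^ 2) (α T))
      (∑' T, P.indicator (fun T => c T ^ 2) T) :=
    (α.hasSum_iff (f := P.indicator (fun T => c T ^ 2))).mpr (hc.indicator P).hasSum
  refine hasSum_le ?_ s1 (((s3.add s2).mul_left (3 / 2)).add (hη.mul_left 3))
  intro T
  have n1 : 0 ≤ P.indicator (fun T => c T ^ 2) (α T) :=
    Set.indicator_nonneg (fun _ _ => sq_nonneg _) _
  have n2 : 0 ≤ P'.indicator (fun T => c T ^ 2) T :=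
    Set.indicator_nonneg (fun _ _ => sq_nonneg _) _
  have n3 : 0 ≤ (c (α T) - c T) ^ 2 := sq_nonneg _
  by_cases hN : T ∈ N
  · rw [Set.indicator_of_mem hN]
    by_cases hT : T ∈ P'
    · rw [Set.indicator_of_mem hT]
      nlinarith [sq_nonneg (c T)]
    · rw [Set.indicator_of_mem (hP T hN hT)]
      nlinarith [sq_nonneg (3 * (c (α T) - c T) - c (α T) * (-1) - 2 * c (α T)),
        sq_nonneg (c (α T) - 2 * (c (α T) - c T)), sq_nonneg (c (α T) + 2 * (c (α T) - c T))]
  · rw [Set.indicator_of_notMem hN]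
    positivity

theorem bern_comb {Ω : Type} [MulAction (FreeGroup (Fin 2)) Ω] (N : Set Ω)
    (hN : ∀ (w : FreeGroup (Fin 2)), ∀ T ∈ N, w • T ∈ N)
    (hfree : ∀ (w : FreeGroup (Fin 2)), ∀ T ∈ N, w • T = T → w = 1) (c : Ω → ℝ)
    (hc : Summable fun T => c T ^ 2) {η₀ η₁ : ℝ}
    (h₀ : HasSum (fun T => (c ((FreeGroup.of 0 : FreeGroup (Fin 2)) • T) - c T) ^ 2) η₀)
    (h₁ : HasSum (fun T => (c ((FreeGroup.of 1 : FreeGroup (Fin 2)) • T) - c T) ^ 2) η₁) :
    ∑' T, N.indicator (fun T => c T ^ 2) T ≤ 6 * (η₀ + η₁) := by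
  classical
  -- an equivariant map to the free group
  have hrep : ∀ T : Ω, ∃ w : FreeGroup (Fin 2),
      w • (Quotient.mk (MulAction.orbitRel (FreeGroup (Fin 2)) Ω) T).out = T := by
    intro T
    have := Quotient.exact
      (Quotient.out_eq (Quotient.mk (MulAction.orbitRel (FreeGroup (Fin 2)) Ω) T)).symm
    exact this
  choose π hπ using hrep
  have heq : ∀ (w : FreeGroup (Fin 2)), ∀ T ∈ N, π (w • T) = w * π T := by
    intro w T hT
    have e : Quotient.mk (MulAction.orbitRel (FreeGroup (Fin 2)) Ω) (w • T) =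
        Quotient.mk (MulAction.orbitRel (FreeGroup (Fin 2)) Ω) T :=
      Quotient.sound ⟨w, rfl⟩
    have h1 := hπ (w • T)
    rw [e] at h1
    have h2 := hπ T
    have h3 : (w⁻¹ * π (w • T) * (π T)⁻¹) • T = T := by
      have h4 : (π T)⁻¹ • T =
          (Quotient.mk (MulAction.orbitRel (FreeGroup (Fin 2)) Ω) T).out := by
        rw [inv_smul_eq_iff]; exact h2.symm
      rw [mul_smul, mul_smul, h4, h1, inv_smul_smul]
    have h5 := hfree _ T hT h3
    rw [mul_inv_eq_one, inv_mul_eq_iff_eq_mul] at h5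
    exact h5
  let P : Fin 2 × Bool → Set Ω := fun l => {T | T ∈ N ∧ π T ∈ FreeGroup.startsWith l}
  have hP : ∀ i : Fin 2, ∀ T ∈ N, T ∉ P (i, false) →
      (MulAction.toPerm (FreeGroup.of i : FreeGroup (Fin 2))) T ∈ P (i, true) := by
    intro i T hT hT'
    refine ⟨hN _ T hT, ?_⟩
    have : π T ∉ FreeGroup.startsWith (i, false) := fun h => hT' ⟨hT, h⟩
    rw [MulAction.toPerm_apply, heq _ T hT]
    exact FreeGroup.startsWith_mk_mul (w := (i, true)) (π T) this
  have b0 := bern_half (MulAction.toPerm (FreeGroup.of 0 : FreeGroup (Fin 2))) N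
    (P (0, true)) (P (0, false)) c hc h₀ (hP 0)
  have b1 := bern_half (MulAction.toPerm (FreeGroup.of 1 : FreeGroup (Fin 2))) N
    (P (1, true)) (P (1, false)) c hc h₁ (hP 1)
  have hsum : ∑' T, (P (0, true)).indicator (fun T => c T ^ 2) T +
      ∑' T, (P (0, false)).indicator (fun T => c T ^ 2) T +
      (∑' T, (P (1, true)).indicator (fun T => c T ^ 2) T +
      ∑' T, (P (1, false)).indicator (fun T => c T ^ 2) T) ≤
      ∑' T, N.indicator (fun T => c T ^ 2) T := by
    refine hasSum_le ?_ (((hc.indicator _).hasSum.add (hc.indicator _).hasSum).add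
      ((hc.indicator _).hasSum.add (hc.indicator _).hasSum)) (hc.indicator N).hasSum
    intro T
    have hu : ∀ l l', T ∈ P l → T ∈ P l' → l = l' := by
      intro l l' h h'
      by_contra hne
      exact Set.disjoint_left.mp (FreeGroup.startsWith.disjoint_iff_ne.mpr hne) h.2 h'.2
    have hsq := sq_nonneg (c T)
    by_cases hT : T ∈ N
    · rw [Set.indicator_of_mem hT]
      simp only [Set.indicator]
      split_ifs with a1 a2 a3 a4 a5 a6 a7 a8 a9 a10 a11 a12 a13 a14 a15 <;>
        first
          | linarith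
          | (exfalso
             first
              | exact absurd (hu _ _ ‹T ∈ P (0, true)› ‹T ∈ P (0, false)›) (by decide)
              | exact absurd (hu _ _ ‹T ∈ P (0, true)› ‹T ∈ P (1, true)›) (by decide)
              | exact absurd (hu _ _ ‹T ∈ P (0, true)› ‹T ∈ P (1, false)›) (by decide)
              | exact absurd (hu _ _ ‹T ∈ P (0, false)› ‹T ∈ P (1, true)›) (by decide)
              | exact absurd (hu _ _ ‹T ∈ P (0, false)› ‹T ∈ P (1, false)›) (by decide)
              | exact absurd (hu _ _ ‹T ∈ P (1, true)› ‹T ∈ P (1, false)›) (by decide))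
    · have hn : ∀ l, T ∉ P l := fun l h => hT h.1
      simp [Set.indicator_of_notMem hT, Set.indicator_of_notMem (hn _)]
  linarith

end Crest.Agent.R191
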