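import Crest.Agent.R191.Defs
import Crest.Agent.R191.BernAux

/-!
The free part of the Bernoulli shift and its spectral gap.
-/

set_option autoImplicit false

namespace Crest.Agent.R191

open MeasureTheory

section Shift

open scoped Pointwise

variable {Γ : Type} [Group Γ]

/-- The Bernoulli shift. -/
def bernShift (g : Γ) (ω : Γ → Bool) : Γ → Bool := fun h => ω (g⁻¹ * h)

lemma bernShift_one (ω : Γ → Bool) : bernShift 1 ω = ω := by
  funext h; simp [bernShift]

lemma bernShift_mul (g g' : Γ) (ω : Γ → Bool) :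
    bernShift (g * g') ω = bernShift g (bernShift g' ω) := by
  funext h; simp [bernShift, mul_assoc]

lemma bernShift_measurable (g : Γ) : Measurable (bernShift g) :=
  measurable_pi_lambda _ fun _ => measurable_pi_apply _

lemma bernShift_mp (g : Γ) : MeasurePreserving (bernShift g) (bernMeas Γ) (bernMeas Γ) :=
  ⟨bernShift_measurable g,
    Measure.map_infinitePi_infinitePi_of_inj (P := fun _ : Γ => bernCoin)
      (f := fun h : Γ => g⁻¹ * h) (mul_right_injective _)⟩

lemma bernChi_shift [DecidableEq Γ] (g : Γ) (S : Finset Γ) (ω : Γ → Bool) :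
    bernChi (g • S) (bernShift g ω) = bernChi S ω := by
  unfold bernChi
  rw [Finset.smul_finset_def, Finset.prod_image (fun a _ b _ h => by simpa using h)]
  simp [bernShift]

lemma bern_coeff_shift [DecidableEq Γ] (g : Γ) (S : Finset Γ) (f : (Γ → Bool) → ℝ)
    (hf : Measurable f) :
    ∫ ω, bernChi S ω * f (bernShift g ω) ∂(bernMeas Γ) =
      ∫ ω, bernChi (g • S) ω * f ω ∂(bernMeas Γ) := by
  have h := integral_map (μ := bernMeas Γ) (bernShift_measurable g).aemeasurable
    (f := fun ω => bernChi (g • S) ω * f ω)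
    ((bernChi_measurable _).mul hf).aestronglyMeasurable
  rw [(bernShift_mp g).map_eq] at h
  rw [h]
  simp only [bernChi_shift]

lemma bern_fix_measurable [Countable Γ] (g : Γ) :
    MeasurableSet {ω : Γ → Bool | bernShift g ω = ω} :=
  measurableSet_eq_fun (bernShift_measurable g) measurable_id

lemma bern_indicator_memLp {ι : Type} {A : Set (ι → Bool)} (hA : MeasurableSet A) :
    MemLp (A.indicator (1 : (ι → Bool) → ℝ)) 2 (bernMeas ι) :=
  (memLp_const (1 : ℝ)).indicator hA

lemma bern_fix_null [Countable Γ] [Infinite Γ] {g : Γ} (hg : g ≠ 1) :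
    bernMeas Γ {ω | bernShift g ω = ω} = 0 := by
  classical
  set A := {ω : Γ → Bool | bernShift g ω = ω} with hA
  have hm : MeasurableSet A := bern_fix_measurable g
  have hs := (bern_parseval _ (bern_indicator_memLp hm)).summable
  have hc : ∀ h : Γ, ∫ ω, bernChi {h, g⁻¹ * h} ω * A.indicator 1 ω ∂(bernMeas Γ) =
      (bernMeas Γ).real A := by
    intro h
    rw [← integral_indicator_one hm]
    refine integral_congr_ae (Filter.Eventually.of_forall fun ω => ?_)
    by_cases hω : ω ∈ A
    · have hne : h ≠ g⁻¹ * h := by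
        intro e
        apply hg
        have : g⁻¹ = 1 := by simpa using e.symm
        exact inv_eq_one.mp this
      have e : ω (g⁻¹ * h) = ω h := congrFun hω h
      simp only [bernChi, Finset.prod_pair hne, e, bernSgn_mul_self, one_mul]
    · simp [Set.indicator_of_notMem hω]
  by_contra hne
  have hpos : 0 < (bernMeas Γ).real A ^ 2 := by
    have : 0 < (bernMeas Γ).real A :=
      ENNReal.toReal_pos hne (measure_ne_top _ _)
    positivity
  have hfin := Filter.eventually_cofinite.mp
    (hs.tendsto_cofinite_zero.eventually (gt_mem_nhds hpos))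
  have hfin2 : (⋃ S ∈ {S : Finset Γ | ¬ (∫ ω, bernChi S ω * A.indicator 1 ω ∂(bernMeas Γ)) ^ 2 <
      (bernMeas Γ).real A ^ 2}, (S : Set Γ)).Finite :=
    hfin.biUnion fun S _ => S.finite_toSet
  refine Set.infinite_univ (α := Γ) (hfin2.subset fun h _ => ?_)
  refine Set.mem_biUnion (x := ({h, g⁻¹ * h} : Finset Γ)) ?_ (by simp)
  simp only [Set.mem_ofPred_eq, hc h, lt_irrefl, not_false_eq_true]

lemma bern_energy [DecidableEq Γ] (g : Γ) {B : Set (Γ → Bool)} (hB : MeasurableSet B) :
    HasSum (fun S : Finset Γ => ((∫ ω, bernChi (g • S) ω * B.indicator 1 ω ∂(bernMeas Γ)) -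
      ∫ ω, bernChi S ω * B.indicator 1 ω ∂(bernMeas Γ)) ^ 2)
      (2 * (bernMeas Γ).real B - 2 * (bernMeas Γ).real (B ∩ bernShift g ⁻¹' B)) := by
  have hB' : MeasurableSet (bernShift g ⁻¹' B) := bernShift_measurable g hB
  have m1 := bern_indicator_memLp hB
  have m2 := bern_indicator_memLp hB'
  have h := bern_parseval _ (m2.sub m1)
  have hint : ∀ (S : Finset Γ) (A : Set (Γ → Bool)), MeasurableSet A →
      Integrable (fun ω => bernChi S ω * A.indicator 1 ω) (bernMeas Γ) := fun S A hA =>
    ((bern_indicator_memLp hA).integrable (by norm_num)).bdd_mul (c := 1)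
      (bernChi_measurable S).aestronglyMeasurable
      (Filter.Eventually.of_forall fun ω => by rw [Real.norm_eq_abs, bernChi_abs])
  have e1 : ∀ S : Finset Γ, ∫ ω, bernChi S ω *
      ((bernShift g ⁻¹' B).indicator 1 - B.indicator 1 : (Γ → Bool) → ℝ) ω ∂(bernMeas Γ) =
      (∫ ω, bernChi (g • S) ω * B.indicator 1 ω ∂(bernMeas Γ)) -
      ∫ ω, bernChi S ω * B.indicator 1 ω ∂(bernMeas Γ) := by
    intro S
    rw [← bern_coeff_shift g S _ (measurable_one.indicator hB)]
    simp only [Pi.sub_apply, mul_sub]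
    rw [integral_sub (hint S _ hB') (hint S _ hB)]
    rfl
  have e2 : ∫ ω, ((bernShift g ⁻¹' B).indicator 1 - B.indicator 1 : (Γ → Bool) → ℝ) ω ^ 2
      ∂(bernMeas Γ) =
      2 * (bernMeas Γ).real B - 2 * (bernMeas Γ).real (B ∩ bernShift g ⁻¹' B) := by
    have e3 : ∀ ω, ((bernShift g ⁻¹' B).indicator 1 - B.indicator 1 : (Γ → Bool) → ℝ) ω ^ 2 =
        (bernShift g ⁻¹' B).indicator 1 ω + B.indicator 1 ω -
          2 * (B ∩ bernShift g ⁻¹' B).indicator 1 ω := by
      intro ω
      by_cases h1 : ω ∈ B <;> by_cases h2 : ω ∈ bernShift g ⁻¹' B <;>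
        simp [Set.indicator, h1, h2] <;> norm_num
    simp_rw [e3]
    have i1 := m1.integrable (by norm_num)
    have i2 := m2.integrable (by norm_num)
    have i3 := (bern_indicator_memLp (hB.inter hB')).integrable (by norm_num)
    have i4 : Integrable (fun ω => (bernShift g ⁻¹' B).indicator (1 : (Γ → Bool) → ℝ) ω +
        B.indicator 1 ω) (bernMeas Γ) := i2.add i1
    rw [integral_sub i4 (i3.const_mul 2), integral_add i2 i1, integral_const_mul,
      integral_indicator_one hB, integral_indicator_one hB', integral_indicator_one (hB.inter hB'),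
      (bernShift_mp g).measureReal_preimage hB.nullMeasurableSet]
    ring
  simp_rw [e1, e2] at h
  exact h

lemma bern_expands {u v : Γ}
    (hinj : Function.Injective (FreeGroup.lift ![u, v] : FreeGroup (Fin 2) →* Γ))
    {B : Set (Γ → Bool)} (hB : MeasurableSet B) :
    (bernMeas Γ).real {c | c ∈ B ∧ bernShift u c ∈ B ∧ bernShift v c ∈ B} ≤
      (bernMeas Γ).real B - (bernMeas Γ).real B * (1 - (bernMeas Γ).real B) / 1000 := by
  classical
  set φ : FreeGroup (Fin 2) →* Γ := FreeGroup.lift ![u, v] with hφ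
  let _ : MulAction (FreeGroup (Fin 2)) (Finset Γ) := MulAction.compHom (Finset Γ) φ
  have hsm : ∀ (w : FreeGroup (Fin 2)) (T : Finset Γ), w • T = φ w • T := fun _ _ => rfl
  set c : Finset Γ → ℝ := fun S => ∫ ω, bernChi S ω * B.indicator 1 ω ∂(bernMeas Γ) with hc
  have hpar : HasSum (fun S => c S ^ 2) ((bernMeas Γ).real B) := by
    have h := bern_parseval _ (bern_indicator_memLp hB)
    have e : ∫ ω, (B.indicator 1 ω : ℝ) ^ 2 ∂(bernMeas Γ) = (bernMeas Γ).real B := by
      rw [← integral_indicator_one hB]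
      refine integral_congr_ae (Filter.Eventually.of_forall fun ω => ?_)
      by_cases h1 : ω ∈ B <;> simp [h1]
    rw [e] at h
    exact h
  have hc0 : c ∅ = (bernMeas Γ).real B := by
    simp only [hc, bernChi, Finset.prod_empty, one_mul]
    exact integral_indicator_one hB
  have hN : ∀ (w : FreeGroup (Fin 2)), ∀ T ∈ ({∅}ᶜ : Set (Finset Γ)),
      w • T ∈ ({∅}ᶜ : Set (Finset Γ)) := by
    intro w T hT
    rw [hsm]
    simpa using hT
  have hfree : ∀ (w : FreeGroup (Fin 2)), ∀ T ∈ ({∅}ᶜ : Set (Finset Γ)), w • T = T → w = 1 := by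
    intro w T hT hw
    rw [hsm] at hw
    obtain ⟨t, ht⟩ : T.Nonempty := Finset.nonempty_iff_ne_empty.mpr hT
    have hmem : ∀ n : ℕ, φ w ^ n * t ∈ T := by
      intro n
      induction n with
      | zero => simpa using ht
      | succ n ih =>
        rw [← hw, pow_succ', mul_assoc]
        exact Finset.smul_mem_smul_finset (a := φ w) ih
    by_contra hne
    have hinj2 : Function.Injective fun n : ℕ => φ w ^ n * t := by
      intro n m hnm
      have h1 : φ (w ^ n) = φ (w ^ m) := by simpa using hnm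
      have h2 : w ^ n = w ^ m := hinj h1
      exact (injective_pow_iff_not_isOfFinOrder.mpr (not_isOfFinOrder_of_isMulTorsionFree hne)) h2
    exact Set.infinite_of_injective_forall_mem hinj2 hmem T.finite_toSet
  have hu : φ (FreeGroup.of 0) = u := by simp [hφ]
  have hv : φ (FreeGroup.of 1) = v := by simp [hφ]
  have key := bern_comb ({∅}ᶜ : Set (Finset Γ)) hN hfree c hpar.summable
    (η₀ := 2 * (bernMeas Γ).real B - 2 * (bernMeas Γ).real (B ∩ bernShift u ⁻¹' B))
    (η₁ := 2 * (bernMeas Γ).real B - 2 * (bernMeas Γ).real (B ∩ bernShift v ⁻¹' B))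
    (by simp only [hsm, hu]; exact bern_energy u hB)
    (by simp only [hsm, hv]; exact bern_energy v hB)
  have hrest : ∑' T, ({∅}ᶜ : Set (Finset Γ)).indicator (fun T => c T ^ 2) T =
      (bernMeas Γ).real B - (bernMeas Γ).real B ^ 2 := by
    have h1 := hpar.summable.tsum_eq_add_tsum_ite ∅
    rw [hpar.tsum_eq, hc0] at h1
    have h2 : ∀ T, ({∅}ᶜ : Set (Finset Γ)).indicator (fun T => c T ^ 2) T =
        if T = ∅ then 0 else c T ^ 2 := by
      intro T
      by_cases hT : T = ∅ <;> simp [hT]
    simp_rw [h2]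
    linarith
  have a1 : (bernMeas Γ).real {c | c ∈ B ∧ bernShift u c ∈ B ∧ bernShift v c ∈ B} ≤
      (bernMeas Γ).real (B ∩ bernShift u ⁻¹' B) :=
    measureReal_mono fun ω hω => ⟨hω.1, hω.2.1⟩
  have a2 : (bernMeas Γ).real {c | c ∈ B ∧ bernShift u c ∈ B ∧ bernShift v c ∈ B} ≤
      (bernMeas Γ).real (B ∩ bernShift v ⁻¹' B) :=
    measureReal_mono fun ω hω => ⟨hω.1, hω.2.2⟩
  have a3 : (bernMeas Γ).real {c | c ∈ B ∧ bernShift u c ∈ B ∧ bernShift v c ∈ B} ≤
      (bernMeas Γ).real B :=
    measureReal_mono fun ω hω => hω.1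
  rw [hrest] at key
  nlinarith

/-- The free part of the shift. -/
def bernFree (Γ : Type) [Group Γ] : Set (Γ → Bool) := {ω | ∀ g : Γ, bernShift g ω = ω → g = 1}

lemma bernFree_compl : (bernFree Γ)ᶜ = ⋃ g : {g : Γ // g ≠ 1}, {ω | bernShift g.1 ω = ω} := by
  ext ω
  simp [bernFree, and_comm]

lemma bernFree_measurable [Countable Γ] : MeasurableSet (bernFree Γ) := by
  rw [← MeasurableSet.compl_iff, bernFree_compl]
  exact MeasurableSet.iUnion fun g => bern_fix_measurable _

lemma bernFree_null [Countable Γ] [Infinite Γ] : bernMeas Γ (bernFree Γ)ᶜ = 0 := by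
  rw [bernFree_compl]
  exact measure_iUnion_null fun g => bern_fix_null g.2

lemma bernFree_shift (g : Γ) {ω : Γ → Bool} (hω : ω ∈ bernFree Γ) :
    bernShift g ω ∈ bernFree Γ := by
  intro h hh
  have h1 : bernShift (g⁻¹ * h * g) ω = ω := by
    rw [bernShift_mul, bernShift_mul, hh, ← bernShift_mul, inv_mul_cancel, bernShift_one]
  have h2 := hω _ h1
  have : h = g * (g⁻¹ * h * g) * g⁻¹ := by group
  rw [this, h2]
  simp

/-- The action on the free part. -/
@[reducible] def bernAction (Γ : Type) [Group Γ] : MulAction Γ (bernFree Γ) where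
  smul g ω := ⟨bernShift g ω.1, bernFree_shift g ω.2⟩
  one_smul ω := Subtype.ext (bernShift_one ω.1)
  mul_smul g g' ω := Subtype.ext (bernShift_mul g g' ω.1)

end Shift

theorem exists_bernoulli (Γ : Type) [Group Γ] [Countable Γ] [Infinite Γ] :
    ∃ (X : Type) (_ : MeasurableSpace X) (_ : StandardBorelSpace X) (μ : Measure X)
      (_ : IsProbabilityMeasure μ) (_ : MulAction Γ X), FreePMP Γ X μ ∧
      ∀ u v : Γ, Function.Injective (FreeGroup.lift ![u, v] : FreeGroup (Fin 2) →* Γ) →
        Expands μ u v := by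
  have hm : MeasurableSet (bernFree Γ) := bernFree_measurable
  have hemb : MeasurableEmbedding (Subtype.val : bernFree Γ → (Γ → Bool)) :=
    MeasurableEmbedding.subtype_coe hm
  have hae : ∀ᵐ ω ∂(bernMeas Γ), ω ∈ bernFree Γ := bernFree_null
  let _ := bernAction Γ
  have hsm : ∀ (g : Γ) (p : bernFree Γ), (g • p).1 = bernShift g p.1 := fun _ _ => rfl
  have hmap : ((bernMeas Γ).comap (Subtype.val : bernFree Γ → (Γ → Bool))).map Subtype.val =
      bernMeas Γ := by
    rw [hemb.map_comap, Subtype.range_coe, Measure.restrict_eq_self_of_ae_mem hae]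
  have hprob : IsProbabilityMeasure
      ((bernMeas Γ).comap (Subtype.val : bernFree Γ → (Γ → Bool))) := by
    constructor
    have h1 := hemb.map_apply ((bernMeas Γ).comap (Subtype.val : bernFree Γ → (Γ → Bool)))
      Set.univ
    rw [hmap, measure_univ] at h1
    exact h1.symm
  refine ⟨bernFree Γ, inferInstance, hm.standardBorel, (bernMeas Γ).comap Subtype.val, hprob,
    bernAction Γ, ⟨fun g => ?_, fun g p h => p.2 g (congrArg Subtype.val h)⟩, fun u v huv B hB => ?_⟩
  · have hmeas : Measurable (fun p : bernFree Γ => g • p) :=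
      ((bernShift_measurable g).comp measurable_subtype_coe).subtype_mk
    refine ⟨hmeas, hemb.map_injective ?_⟩
    rw [Measure.map_map measurable_subtype_coe hmeas, hmap]
    have : (Subtype.val ∘ fun p : bernFree Γ => g • p) = bernShift g ∘ Subtype.val := rfl
    rw [this, ← Measure.map_map (bernShift_measurable g) measurable_subtype_coe, hmap,
      (bernShift_mp g).map_eq]
  · have h := bern_expands huv (hemb.measurableSet_image.mpr hB)
    have e : ∀ s : Set (bernFree Γ),
        ((bernMeas Γ).comap (Subtype.val : bernFree Γ → (Γ → Bool))).real s =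
          (bernMeas Γ).real (Subtype.val '' s) := by
      intro s
      simp only [Measure.real, hemb.comap_apply]
    rw [e, e]
    refine le_trans (measureReal_mono ?_) h
    rintro _ ⟨p, ⟨h1, h2, h3⟩, rfl⟩
    exact ⟨⟨p, h1, rfl⟩, ⟨u • p, h2, rfl⟩, ⟨v • p, h3, rfl⟩⟩

end Crest.Agent.R191
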