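import Crest.Agent.R191.BuildA

/-!
The finite-type complexes built from word homotopies.
-/

set_option autoImplicit false

namespace Crest.Agent.R191

open MeasureTheory Relation

variable {Γ : Type} [Group Γ]

/-- The `m`-th letter of a word. -/
def ltr (W : Word Γ) (m : ℕ) : Γ × Bool := W.getD m (1, true)

/-- The sign of the `m`-th letter. -/
def sg (W : Word Γ) (m : ℕ) : ℝ := if (ltr W m).2 then 1 else -1

theorem ltr_append_left {W W' : Word Γ} {m : ℕ} (h : m < W.length) :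
    ltr (W ++ W') m = ltr W m := by
  simp [ltr, List.getD_eq_getElem?_getD, List.getElem?_append_left h]

theorem ltr_append_right (W W' : Word Γ) (m : ℕ) :
    ltr (W ++ W') (W.length + m) = ltr W' m := by
  simp [ltr, List.getD_eq_getElem?_getD, List.getElem?_append_right]

theorem ltr_shiftW (k : Γ) {W : Word Γ} {m : ℕ} (h : m < W.length) :
    ltr (shiftW k W) m = ((ltr W m).1 * k, (ltr W m).2) := by
  simp [ltr, shiftW, List.getD_eq_getElem?_getD, List.getElem?_eq_getElem h]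

/-- The finite data of a family of certificates. -/
structure FD (G : GData Γ) (aw : Γ → Word Γ) (𝒞 : List (List (StepD Γ))) where
  ws : Finset (Word Γ)
  N : ℕ
  JA : Finset Γ
  rng : Finset Γ
  len : ∀ W ∈ ws, W.length ≤ N
  long : ∀ c ∈ 𝒞, ∀ σ ∈ c, σ.long G aw ∈ ws
  short : ∀ c ∈ 𝒞, ∀ σ ∈ c, σ.short ∈ ws
  arc : ∀ c ∈ 𝒞, ∀ σ ∈ c, ∀ k h : Γ, σ.2 = Sum.inr (Sum.inr (k, h)) → k ∈ JA ∧ h ∈ rng
  aw_mem : ∀ k ∈ JA, aw k ∈ ws
  one_mem : 1 ∈ rng

theorem FD.nonempty (G : GData Γ) (aw : Γ → Word Γ) (𝒞 : List (List (StepD Γ))) :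
    Nonempty (FD G aw 𝒞) := by
  classical
  set st : Finset (StepD Γ) := 𝒞.flatten.toFinset with hst
  have hmem : ∀ c ∈ 𝒞, ∀ σ ∈ c, σ ∈ st := fun c hc σ hσ => by
    rw [hst, List.mem_toFinset]
    exact List.mem_flatten.mpr ⟨c, hc, hσ⟩
  set ka : StepD Γ → Γ × Γ := fun σ => σ.2.elim (fun _ => (1, 1)) (Sum.elim (fun _ => (1, 1)) id)
    with hka
  set JA : Finset Γ := st.image fun σ => (ka σ).1 with hJA
  set ws : Finset (Word Γ) := st.image (StepD.long G aw) ∪ st.image StepD.short ∪ JA.image aw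
    with hws
  refine ⟨⟨ws, ws.sup List.length, JA, insert 1 (st.image fun σ => (ka σ).2),
    fun W hW => Finset.le_sup (f := List.length) hW, ?_, ?_, ?_, ?_, Finset.mem_insert_self _ _⟩⟩
  · intro c hc σ hσ
    exact Finset.mem_union_left _ (Finset.mem_union_left _
      (Finset.mem_image_of_mem _ (hmem c hc σ hσ)))
  · intro c hc σ hσ
    exact Finset.mem_union_left _ (Finset.mem_union_right _
      (Finset.mem_image_of_mem _ (hmem c hc σ hσ)))
  · intro c hc σ hσ k h hk
    refine ⟨Finset.mem_image.mpr ⟨σ, hmem c hc σ hσ, by simp [hka, hk]⟩,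
      Finset.mem_insert_of_mem (Finset.mem_image.mpr ⟨σ, hmem c hc σ hσ, by simp [hka, hk]⟩)⟩
  · intro k hk
    exact Finset.mem_union_right _ (Finset.mem_image_of_mem _ hk)

namespace FD

variable {G : GData Γ} {aw : Γ → Word Γ} {𝒞 : List (List (StepD Γ))} (d : FD G aw 𝒞)

/-- Edge types. -/
def sE : Finset (Word Γ × ℕ) := d.ws ×ˢ Finset.range d.N

/-- Pre-vertex types. -/
def sV : Finset (Word Γ × ℕ) := d.ws ×ˢ Finset.range (d.N + 1)

theorem mem_sE {W : Word Γ} {m : ℕ} : (W, m) ∈ d.sE ↔ W ∈ d.ws ∧ m < d.N := by simp [sE]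

theorem mem_sV {W : Word Γ} {m : ℕ} : (W, m) ∈ d.sV ↔ W ∈ d.ws ∧ m ≤ d.N := by
  simp [sV]

open Classical in
/-- The shape. -/
noncomputable def shape : Shape Γ d.sE d.sV d.JA where
  pos e := (ltr e.1.1 e.1.2).1
  out e := ⟨(e.1.1, if (ltr e.1.1 e.1.2).2 then e.1.2 else e.1.2 + 1), by
    have : e.1.1 ∈ d.ws ∧ e.1.2 < d.N := d.mem_sE.mp e.2
    refine d.mem_sV.mpr ⟨this.1, ?_⟩
    split_ifs <;> omega⟩
  inn e := ⟨(e.1.1, if (ltr e.1.1 e.1.2).2 then e.1.2 + 1 else e.1.2), by
    have : e.1.1 ∈ d.ws ∧ e.1.2 < d.N := d.mem_sE.mp e.2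
    refine d.mem_sV.mpr ⟨this.1, ?_⟩
    split_ifs <;> omega⟩
  big v := v.1.2 = 0 ∨ v.1.2 = v.1.1.length
  rng := d.rng
  φc v e := if e.1.1 = v.1.1 ∧ e.1.2 < v.1.2 then sg e.1.1 e.1.2 else 0
  Λc k e := if e.1.1 = aw k ∧ e.1.2 < (aw k).length then sg e.1.1 e.1.2 else 0

variable {X : Type} [MulAction Γ X] (D : Γ → Set X) (U : Set X)

/-- The certificate `c` is switched on at `p`. -/
def actC (c : List (StepD Γ)) (p : X) : Prop :=
  p ∈ U ∧ ∀ σ ∈ c, σ.Avail (fun k => D k ∩ U) p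

/-- The word `W` is switched on at `p`. -/
def actW (W : Word Γ) (p : X) : Prop :=
  (∃ c ∈ 𝒞, actC D U c p ∧ ∃ σ ∈ c, W = σ.long G aw ∨ W = σ.short) ∨
    ∃ k ∈ d.JA, W = aw k ∧ p ∈ D k ∩ U

/-- The gaps glued by a step. -/
def glue (σ : StepD Γ) (v v' : Word Γ × ℕ) (h : Γ) : Prop :=
  v.1 = σ.long G aw ∧ v.2 ≤ v.1.length ∧
    ((h = 1 ∧ v'.1 = σ.short ∧ ((v.2 ≤ σ.pre.length ∧ v'.2 = v.2) ∨
      (σ.pre.length + (σ.blk G aw).length ≤ v.2 ∧ v'.2 + (σ.blk G aw).length = v.2))) ∨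
    ∃ k : Γ, σ.2 = Sum.inr (Sum.inr (k, h)) ∧ v'.1 = aw k ∧ v'.2 = v.2 ∧ v.2 ≤ (aw k).length)

/-- The configuration switched on along `U`. -/
def cfg : Cfg d.shape X where
  act e p := e.1.2 < e.1.1.length ∧ d.actW D U e.1.1 p
  mrg v v' h p := ∃ c ∈ 𝒞, actC D U c p ∧ ∃ σ ∈ c, glue (G := G) (aw := aw) σ v.1 v'.1 h
  actA k p := p ∈ D k ∩ U
  mrg_rng := by
    rintro v v' h p ⟨c, hc, -, σ, hσ, -, -, ⟨rfl, -⟩ | ⟨k, hk, -⟩⟩
    · exact d.one_mem
    · exact (d.arc c hc σ hσ k h hk).2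

open Classical in
/-- A cochain as a function of a word and a position. -/
noncomputable def Lw (L : X × d.sE → ℝ) (p : X) (W : Word Γ) (m : ℕ) : ℝ :=
  if h : (W, m) ∈ d.sE then L (p, ⟨(W, m), h⟩) else 0

/-- Partial sums along a word. -/
noncomputable def part (L : X × d.sE → ℝ) (p : X) (W : Word Γ) (m : ℕ) : ℝ :=
  ∑ i ∈ Finset.range m, sg W i * d.Lw L p W i

omit [MulAction Γ X] in
open Classical in
theorem sum_eq_part (L : X × d.sE → ℝ) (p : X) {W : Word Γ} {m : ℕ} (hW : W ∈ d.ws)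
    (hm : m ≤ d.N) :
    ∑ e : d.sE, (if e.1.1 = W ∧ e.1.2 < m then sg e.1.1 e.1.2 else 0) * L (p, e) =
      d.part L p W m := by
  have h1 : ∀ e : d.sE, (if e.1.1 = W ∧ e.1.2 < m then sg e.1.1 e.1.2 else 0) * L (p, e) =
      (fun z : Word Γ × ℕ => if z.1 = W ∧ z.2 < m then sg z.1 z.2 * d.Lw L p z.1 z.2 else 0)
        e.1 := by
    intro e
    have : d.Lw L p e.1.1 e.1.2 = L (p, e) := by
      unfold Lw
      rw [dif_pos e.2]
    simp only [this]
    split_ifs <;> simp
  simp only [h1]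
  rw [Finset.sum_coe_sort d.sE (fun z : Word Γ × ℕ =>
    if z.1 = W ∧ z.2 < m then sg z.1 z.2 * d.Lw L p z.1 z.2 else 0), sE, Finset.sum_product,
    Finset.sum_eq_single W (fun W' _ hne => by simp [hne]) (fun h => absurd hW h)]
  simp only [true_and]
  rw [← Finset.sum_filter]
  unfold part
  congr 1
  ext i
  simp only [Finset.mem_filter, Finset.mem_range]
  omega

omit [MulAction Γ X] in
theorem pot_eq (L : X × d.sE → ℝ) (p : X) (v : d.sV) :
    d.shape.pot L (p, v) = d.part L p v.1.1 v.1.2 :=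
  d.sum_eq_part L p (d.mem_sV.mp v.2).1 (d.mem_sV.mp v.2).2

omit [MulAction Γ X] in
theorem tot_eq (L : X × d.sE → ℝ) (p : X) (k : d.JA) :
    d.shape.tot L p k = d.part L p (aw k) (aw k).length :=
  d.sum_eq_part L p (d.aw_mem _ k.2) (d.len _ (d.aw_mem _ k.2))

theorem actW_mem {W : Word Γ} {p : X} (h : d.actW D U W p) : W ∈ d.ws := by
  rcases h with ⟨c, hc, -, σ, hσ, rfl | rfl⟩ | ⟨k, hk, rfl, -⟩
  exacts [d.long c hc σ hσ, d.short c hc σ hσ, d.aw_mem k hk]

/-- Two gaps lie in the same vertex. -/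
def rr (p : X) (W : Word Γ) (m : ℕ) (p' : X) (W' : Word Γ) (m' : ℕ) : Prop :=
  ∀ v v' : d.sV, v.1 = (W, m) → v'.1 = (W', m') → (d.cfg D U).r1 (p, v) (p', v')

theorem rr_refl (p : X) (W : Word Γ) (m : ℕ) : d.rr D U p W m p W m := by
  intro v v' h h'
  rw [Subtype.ext (h.trans h'.symm)]
  exact EqvGen.refl _

variable {d D U}

theorem rr.symm {p p' : X} {W W' : Word Γ} {m m' : ℕ} (h : d.rr D U p W m p' W' m') :
    d.rr D U p' W' m' p W m := fun v v' h1 h2 => EqvGen.symm _ _ (h v' v h2 h1)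

theorem rr.trans {p p' p'' : X} {W W' W'' : Word Γ} {m m' m'' : ℕ} (h : d.rr D U p W m p' W' m')
    (h' : d.rr D U p' W' m' p'' W'' m'') (hm : (W', m') ∈ d.sV) : d.rr D U p W m p'' W'' m'' :=
  fun v v'' h1 h2 => EqvGen.trans _ _ _ (h v ⟨_, hm⟩ h1 rfl) (h' ⟨_, hm⟩ v'' rfl h2)

theorem rr_of_glue {c : List (StepD Γ)} (hc : c ∈ 𝒞) {p : X} (hp : actC D U c p) {σ : StepD Γ}
    (hσ : σ ∈ c) {W W' : Word Γ} {m m' : ℕ} {h : Γ}
    (hg : glue (G := G) (aw := aw) σ (W, m) (W', m') h) : d.rr D U p W m (h • p) W' m' := by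
  intro v v' h1 h2
  refine EqvGen.rel _ _ ⟨h, rfl, c, hc, hp, σ, hσ, ?_⟩
  simp only [h1, h2]
  exact hg

theorem Lw_eq {L : X × d.sE → ℝ} (hL : (d.cfg D U).P1 L) {p p' : X} {W W' : Word Γ} {i i' : ℕ}
    (hW : d.actW D U W p) (hW' : d.actW D U W' p') (hi : i < W.length) (hi' : i' < W'.length)
    (hpos : (ltr W i).1 • p = (ltr W' i').1 • p')
    (ho : d.rr D U p W (if (ltr W i).2 then i else i + 1)
      p' W' (if (ltr W' i').2 then i' else i' + 1))
    (hin : d.rr D U p W (if (ltr W i).2 then i + 1 else i)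
      p' W' (if (ltr W' i').2 then i' + 1 else i')) :
    d.Lw L p W i = d.Lw L p' W' i' := by
  have m1 : (W, i) ∈ d.sE :=
    d.mem_sE.mpr ⟨d.actW_mem D U hW, hi.trans_le (d.len _ (d.actW_mem D U hW))⟩
  have m2 : (W', i') ∈ d.sE :=
    d.mem_sE.mpr ⟨d.actW_mem D U hW', hi'.trans_le (d.len _ (d.actW_mem D U hW'))⟩
  unfold Lw
  rw [dif_pos m1, dif_pos m2]
  exact hL p ⟨_, m1⟩ p' ⟨_, m2⟩ ⟨hi, hW⟩ ⟨hi', hW'⟩ hpos (ho _ _ rfl rfl) (hin _ _ rfl rfl)

theorem term_eq {L : X × d.sE → ℝ} (hL : (d.cfg D U).P1 L) {p p' : X} {W W' : Word Γ} {i i' : ℕ}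
    (hW : d.actW D U W p) (hW' : d.actW D U W' p') (hi : i < W.length) (hi' : i' < W'.length)
    (hpos : (ltr W i).1 • p = (ltr W' i').1 • p') (hs : (ltr W i).2 = (ltr W' i').2)
    (h0 : d.rr D U p W i p' W' i') (h1 : d.rr D U p W (i + 1) p' W' (i' + 1)) :
    sg W i * d.Lw L p W i = sg W' i' * d.Lw L p' W' i' := by
  rw [Lw_eq hL hW hW' hi hi' hpos ?_ ?_, sg, sg, hs]
  · rw [← hs]; split_ifs; exacts [h0, h1]
  · rw [← hs]; split_ifs; exacts [h1, h0]

section Step

variable {L : X × d.sE → ℝ} (hL : (d.cfg D U).P1 L) {c : List (StepD Γ)} (hc : c ∈ 𝒞) {p : X}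
  (hp : actC D U c p) {σ : StepD Γ} (hσ : σ ∈ c)

theorem length_long (σ : StepD Γ) : (σ.long G aw).length =
    σ.pre.length + (σ.blk G aw).length + σ.1.2.length := by
  simp [StepD.long, add_assoc]

omit [Group Γ] in
theorem length_short (σ : StepD Γ) : σ.short.length = σ.pre.length + σ.1.2.length := by
  simp [StepD.short]

include hc hp hσ

theorem actW_long : d.actW D U (σ.long G aw) p := Or.inl ⟨c, hc, hp, σ, hσ, Or.inl rfl⟩

theorem actW_short : d.actW D U σ.short p := Or.inl ⟨c, hc, hp, σ, hσ, Or.inr rfl⟩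

theorem rr_pre {m : ℕ} (hm : m ≤ σ.pre.length) : d.rr D U p (σ.long G aw) m p σ.short m := by
  have := rr_of_glue (d := d) hc hp hσ (W := σ.long G aw) (W' := σ.short) (m := m) (m' := m)
    (h := 1) ⟨rfl, by simp only [length_long]; omega, Or.inl ⟨rfl, rfl, Or.inl ⟨hm, rfl⟩⟩⟩
  rwa [one_smul] at this

theorem rr_post {j : ℕ} (hj : j ≤ σ.1.2.length) :
    d.rr D U p (σ.long G aw) (σ.pre.length + (σ.blk G aw).length + j) p σ.short
      (σ.pre.length + j) := by
  have := rr_of_glue (d := d) hc hp hσ (W := σ.long G aw) (W' := σ.short)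
    (m := σ.pre.length + (σ.blk G aw).length + j) (m' := σ.pre.length + j)
    (h := 1) ⟨rfl, by simp only [length_long]; omega, Or.inl ⟨rfl, rfl, Or.inr
      ⟨by simp only; omega, by simp only; omega⟩⟩⟩
  rwa [one_smul] at this

theorem rr_ends : d.rr D U p (σ.long G aw) σ.pre.length p (σ.long G aw)
    (σ.pre.length + (σ.blk G aw).length) := by
  refine (rr_pre hc hp hσ le_rfl).trans (rr_post hc hp hσ (Nat.zero_le _)).symm ?_
  have h1 := d.short c hc σ hσ
  have h2 := d.len _ h1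
  rw [length_short] at h2
  exact d.mem_sV.mpr ⟨h1, by omega⟩

theorem rr_arc {k h : Γ} (hk : σ.2 = Sum.inr (Sum.inr (k, h))) {m : ℕ}
    (hm : m ≤ (aw k).length) : d.rr D U p (σ.long G aw) m (h • p) (aw k) m := by
  refine rr_of_glue (d := d) hc hp hσ ⟨rfl, ?_, Or.inr ⟨k, hk, rfl, rfl, hm⟩⟩
  simp only [length_long, StepD.blk, hk, shiftW, List.length_map]
  omega

include hL

theorem part_pre {m : ℕ} (hm : m ≤ σ.pre.length) :
    d.part L p (σ.long G aw) m = d.part L p σ.short m := by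
  refine Finset.sum_congr rfl fun i hi => ?_
  have hi' : i < σ.pre.length := (Finset.mem_range.mp hi).trans_le hm
  have e1 : ltr (σ.long G aw) i = ltr σ.short i := by
    rw [StepD.long, StepD.short, List.append_assoc, ltr_append_left hi', ltr_append_left hi']
  exact term_eq hL (actW_long hc hp hσ) (actW_short hc hp hσ)
    (by rw [length_long]; omega) (by rw [length_short]; omega) (by rw [e1]) (by rw [e1])
    (rr_pre hc hp hσ hi'.le) (rr_pre hc hp hσ hi')

theorem part_arc {k h : Γ} (hk : σ.2 = Sum.inr (Sum.inr (k, h))) {m : ℕ}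
    (hm : m ≤ (aw k).length) : d.part L p (σ.long G aw) m = d.part L (h • p) (aw k) m := by
  refine Finset.sum_congr rfl fun i hi => ?_
  have hi' : i < (aw k).length := (Finset.mem_range.mp hi).trans_le hm
  have e0 : σ.long G aw = shiftW h (aw k) ++ σ.1.2 := by
    simp [StepD.long, StepD.pre, StepD.blk, hk]
  have e1 : ltr (σ.long G aw) i = ((ltr (aw k) i).1 * h, (ltr (aw k) i).2) := by
    rw [e0, ltr_append_left (by simpa [shiftW] using hi'), ltr_shiftW h hi']
  refine term_eq hL (actW_long hc hp hσ)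
    (Or.inr ⟨k, (d.arc c hc σ hσ k h hk).1, rfl, hp.2 σ hσ k h hk⟩) ?_ hi'
    (by rw [e1, mul_smul]) (by rw [e1]) (rr_arc hc hp hσ hk hi'.le) (rr_arc hc hp hσ hk hi')
  rw [e0]
  simp only [shiftW, List.length_append, List.length_map]
  omega

theorem part_blk (hL2 : (d.cfg D U).P2 G L)
    (hA : ∀ p j, (d.cfg D U).actA j p → d.shape.tot L p j = 0) :
    d.part L p (σ.long G aw) (σ.pre.length + (σ.blk G aw).length) =
      d.part L p (σ.long G aw) σ.pre.length := by
  have hl : ∀ j, j < (σ.blk G aw).length →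
      ltr (σ.long G aw) (σ.pre.length + j) = ltr (σ.blk G aw) j := fun j hj => by
    rw [StepD.long, List.append_assoc, ltr_append_right, ltr_append_left hj]
  have hends := rr_ends (d := d) hc hp hσ
  have hlen := length_long (G := G) (aw := aw) σ
  have hact := actW_long (d := d) hc hp hσ
  set W := σ.long G aw with hW
  set a := σ.pre.length with ha
  obtain ⟨⟨α, β⟩, ⟨g, ε⟩ | c' | ⟨k, h⟩⟩ := σ
  · have hb : (StepD.blk G aw ((α, β), Sum.inl (g, ε))).length = 2 := rfl
    rw [hb] at hends hlen hl ⊢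
    have l0 : ltr W a = (g, ε) := hl 0 (by norm_num)
    have l1 : ltr W (a + 1) = (g, !ε) := hl 1 (by norm_num)
    have := Lw_eq hL hact hact (i := a) (i' := a + 1) (by omega) (by omega) (by rw [l0, l1])
      (by
        rw [l0, l1]
        cases ε
        · exact d.rr_refl D U _ _ _
        · exact hends)
      (by
        rw [l0, l1]
        cases ε
        · exact hends
        · exact d.rr_refl D U _ _ _)
    simp only [part, Finset.sum_range_succ, sg, l0, l1, this]
    cases ε <;> simp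
  · have hb : (StepD.blk G aw ((α, β), Sum.inr (Sum.inl c'))).length = 3 := rfl
    rw [hb] at hends hlen hl ⊢
    have l0 : ltr W a = (G.g 0 * c', true) := hl 0 (by norm_num)
    have l1 : ltr W (a + 1) = (G.g 1 * c', true) := hl 1 (by norm_num)
    have l2 : ltr W (a + 2) = (G.g 2 * c', true) := hl 2 (by norm_num)
    have hWm := d.actW_mem D U hact
    have hN := d.len _ hWm
    have m0 : (W, a) ∈ d.sE := d.mem_sE.mpr ⟨hWm, by omega⟩
    have m1 : (W, a + 1) ∈ d.sE := d.mem_sE.mpr ⟨hWm, by omega⟩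
    have m2 : (W, a + 2) ∈ d.sE := d.mem_sE.mpr ⟨hWm, by omega⟩
    have := hL2 (c' • p) (fun _ => p) ![⟨_, m0⟩, ⟨_, m1⟩, ⟨_, m2⟩] ?_ ?_ ?_
    · simp only [Fin.sum_univ_three, Matrix.cons_val_zero, Matrix.cons_val_one,
        Matrix.cons_val] at this
      simp only [part, Finset.sum_range_succ, sg, l0, l1, l2, Lw, dif_pos m0, dif_pos m1,
        dif_pos m2, if_true]
      linarith
    · intro i
      fin_cases i
      · exact ⟨by simp only [Fin.zero_eta, Matrix.cons_val_zero]; omega, hact⟩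
      · exact ⟨by simp only [Fin.mk_one, Matrix.cons_val_one, Matrix.cons_val_zero]; omega, hact⟩
      · exact ⟨by simp only [Fin.reduceFinMk, Matrix.cons_val]; omega, hact⟩
    · intro i
      fin_cases i
      · simp [shape, l0, mul_smul]
      · simp [shape, l1, mul_smul]
      · simp [shape, l2, mul_smul]
    · intro i
      fin_cases i
      · exact d.rr_refl D U p W (a + 1) _ _ (by simp [shape, l0]) (by simp [shape, l1])
      · exact d.rr_refl D U p W (a + 2) _ _ (by simp [shape, l1]) (by simp [shape, l2])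
      · exact hends.symm _ _ (by simp [shape, l2]) (by simp [shape, l0])
  · have ha0 : a = 0 := rfl
    have hb : (StepD.blk G aw ((α, β), Sum.inr (Sum.inr (k, h)))).length = (aw k).length := by
      simp [StepD.blk, shiftW]
    rw [hb, ha0, zero_add, hW, part_arc hL hc hp hσ rfl le_rfl]
    have := hA (h • p) ⟨k, (d.arc c hc _ hσ k h rfl).1⟩ (hp.2 _ hσ k h rfl)
    rw [tot_eq] at this
    rw [this]
    simp [part]

theorem part_post (hL2 : (d.cfg D U).P2 G L)
    (hA : ∀ p j, (d.cfg D U).actA j p → d.shape.tot L p j = 0) {j : ℕ} (hj : j ≤ σ.1.2.length) :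
    d.part L p (σ.long G aw) (σ.pre.length + (σ.blk G aw).length + j) =
      d.part L p σ.short (σ.pre.length + j) := by
  induction j with
  | zero => rw [add_zero, add_zero, part_blk hL hc hp hσ hL2 hA, part_pre hL hc hp hσ le_rfl]
  | succ j ih =>
    have e1 : ltr (σ.long G aw) (σ.pre.length + (σ.blk G aw).length + j) =
        ltr σ.short (σ.pre.length + j) := by
      rw [StepD.long, StepD.short, ← List.length_append, ltr_append_right, ltr_append_right]
    have := term_eq hL (actW_long hc hp hσ) (actW_short hc hp hσ)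
      (by rw [length_long]; omega) (by rw [length_short]; omega) (by rw [e1]) (by rw [e1])
      (rr_post hc hp hσ (j := j) (by omega)) (rr_post hc hp hσ (j := j + 1) hj)
    have ih' := ih (by omega)
    unfold part at ih' ⊢
    rw [← add_assoc, ← add_assoc, Finset.sum_range_succ, Finset.sum_range_succ, ih', this]

end Step

variable (d D U)

theorem good (hcert : ∀ c ∈ 𝒞, GoodCert G aw c) : (d.cfg D U).Good G := by
  constructor
  · intro L e p _
    rw [pot_eq, pot_eq]
    have h1 : d.Lw L p e.1.1 e.1.2 = L (p, e) := by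
      unfold Lw
      rw [dif_pos e.2]
    by_cases hs : (ltr e.1.1 e.1.2).2 = true <;>
      simp [shape, hs, part, Finset.sum_range_succ, sg, h1]
  · intro L hL hL2 hA h0
    constructor
    · rintro ⟨p, ⟨W, m⟩, hv⟩ ⟨p', ⟨W', m'⟩, hv'⟩ ⟨h, hp', c, hc, hp, σ, hσ, hW, hm, hg⟩
      simp only at hp' hp hW hm hg
      subst hp' hW
      rw [pot_eq, pot_eq]
      simp only
      rcases hg with ⟨rfl, rfl, ⟨h1, rfl⟩ | ⟨h1, h2⟩⟩ | ⟨k, hk, rfl, rfl, h1⟩
      · rw [one_smul]
        exact part_pre hL hc hp hσ h1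
      · rw [one_smul]
        rw [length_long] at hm
        obtain ⟨j, rfl⟩ := Nat.exists_eq_add_of_le h1
        have : m' = σ.pre.length + j := by omega
        rw [this]
        exact part_post hL hc hp hσ hL2 hA (by omega)
      · exact part_arc hL hc hp hσ hk h1
    · rintro p ⟨⟨W, m⟩, hv⟩ hb
      rw [pot_eq]
      rcases hb with hb | hb
      · simp only at hb
        simp [hb, part]
      simp only at hb ⊢
      subst hb
      by_cases hact : d.actW D U W p
      · rcases hact with ⟨c, hc, hp, σ, hσ, hW⟩ | ⟨k, hk, rfl, hp⟩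
        · have key : ∀ a b, EqvGen (certRel G aw c) a b →
              d.part L p a a.length = d.part L p b b.length := by
            intro a b hab
            induction hab with
            | rel a b h =>
              obtain ⟨σ, hσ, rfl, rfl⟩ := h
              rw [length_long, length_short]
              exact part_post hL hc hp hσ hL2 hA le_rfl
            | refl => rfl
            | symm _ _ _ ih => exact ih.symm
            | trans _ _ _ _ _ ih1 ih2 => exact ih1.trans ih2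
          have h1 := key _ _ ((hcert c hc).1 σ hσ)
          have h2 := key _ _ (EqvGen.rel _ _ ⟨σ, hσ, rfl, rfl⟩)
          have h3 : d.part L p [] ([] : Word Γ).length = 0 := by simp [part]
          rcases hW with rfl | rfl
          · rw [h1, h3]
          · rw [← h2, h1, h3]
        · have := hA p ⟨k, hk⟩ hp
          rwa [tot_eq] at this
      · refine Finset.sum_eq_zero fun i _ => ?_
        have : d.Lw L p W i = 0 := by
          unfold Lw
          split_ifs with hm
          · exact h0 _ _ fun h => hact h.2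
          · rfl
        rw [this, mul_zero]

theorem meas [Countable Γ] [MeasurableSpace X] (hm : ∀ g : Γ, Measurable fun p : X => g • p)
    (hD : ∀ h, MeasurableSet (D h)) (hU : MeasurableSet U) : (d.cfg D U).Meas := by
  have hC : ∀ c, Measurable fun p : X => actC D U c p := fun c =>
    Measurable.and hU.mem (measurableSet_avail hm (fun k => (hD k).inter hU) c)
  refine ⟨fun e => measurableSet_setOfPred.mpr (Measurable.and measurable_const
    (Measurable.or ?_ ?_)), fun v v' h => measurableSet_setOfPred.mpr ?_,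
    fun k => (hD k).inter hU⟩
  · exact Measurable.exists fun c => Measurable.and measurable_const
      (Measurable.and (hC c) measurable_const)
  · exact Measurable.exists fun k => Measurable.and measurable_const
      (Measurable.and measurable_const ((hD k).inter hU).mem)
  · exact Measurable.exists fun c => Measurable.and measurable_const
      (Measurable.and (hC c) measurable_const)

theorem exists_step_of_eqvGen {α : Type} {r : α → α → Prop} {a b : α} (h : EqvGen r a b) :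
    a = b ∨ ((∃ z, r a z ∨ r z a) ∧ ∃ z, r b z ∨ r z b) := by
  induction h with
  | rel a b h => exact Or.inr ⟨⟨b, Or.inl h⟩, ⟨a, Or.inr h⟩⟩
  | refl => exact Or.inl rfl
  | symm _ _ _ ih => exact ih.imp Eq.symm And.symm
  | trans a b c _ _ ih1 ih2 =>
    rcases ih1 with rfl | ih1
    · exact ih2
    · rcases ih2 with rfl | ih2
      · exact Or.inr ih1
      · exact Or.inr ⟨ih1.1, ih2.2⟩

theorem actC_congr {U U' : Set X} {p : X} (h : ∀ g ∈ d.rng, g • p ∈ U ↔ g • p ∈ U')
    {c : List (StepD Γ)} (hc : c ∈ 𝒞) : actC D U c p ↔ actC D U' c p := by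
  have h1 : p ∈ U ↔ p ∈ U' := by simpa using h 1 d.one_mem
  refine and_congr h1 (forall₂_congr fun σ hσ => forall₃_congr fun k g hk => ?_)
  exact and_congr Iff.rfl (h g (d.arc c hc σ hσ k g hk).2)

end FD

theorem exists_family {Γ X : Type} [Group Γ] [Countable Γ] [MulAction Γ X] [MeasurableSpace X]
    {μ : Measure X} [IsProbabilityMeasure μ] (hX : FreePMP Γ X μ) (G : GData Γ) (A : Subgroup Γ)
    (hsc : SimplyConn G A) (hpc : PathConn G A) (D : Γ → Set X) (hD : ∀ h, MeasurableSet (D h))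
    (hconn : ∀ᵐ p ∂μ, EqvGen (ArcStep A D) p (G.x • p)) {δ : ENNReal} (hδ : 0 < δ) :
    ∃ (IE IV IA : Type) (_ : Fintype IE) (_ : Fintype IV) (_ : Fintype IA)
      (S : Shape Γ IE IV IA) (C : Set X → Cfg S X),
      (∀ U, MeasurableSet U → (C U).Meas) ∧ (∀ U, (C U).Good G) ∧
      (∀ U, ∑ j, μ {p | (C U).actA j p} ≤ ∑' h, μ (D h) + δ) ∧
      (∀ e p, ¬ (C ∅).act e p) ∧
      (∀ p, ∃ e, (C Set.univ).act e p ∧ S.pos e = 1 ∧ S.big (S.out e) ∧ S.big (S.inn e)) ∧
      ∃ F : Finset Γ, ∀ (U U' : Set X) (p : X), (∀ h ∈ F, h • p ∈ U ↔ h • p ∈ U') →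
        (∀ e, (C U).act e p ↔ (C U').act e p) ∧
        (∀ v v' h, (C U).mrg v v' h p ↔ (C U').mrg v v' h p) := by
  obtain ⟨aw, D', 𝒞, hD', hcost, hcert, hcov⟩ := exists_certs hX G A hsc hpc D hD hconn hδ
  obtain ⟨d⟩ := FD.nonempty G aw 𝒞
  refine ⟨d.sE, d.sV, d.JA, inferInstance, inferInstance, inferInstance, d.shape, d.cfg D',
    fun U hU => d.meas D' U (fun g => (hX.mp g).measurable) hD' hU,
    fun U => d.good D' U hcert, fun U => ?_, ?_, fun p => ?_, d.rng, fun U U' p h => ⟨?_, ?_⟩⟩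
  · refine le_trans ?_ hcost
    calc ∑ j : d.JA, μ {p | (d.cfg D' U).actA j p} ≤ ∑ j : d.JA, μ (D' j) :=
          Finset.sum_le_sum fun j _ => measure_mono fun p hp => hp.1
      _ = ∑ j ∈ d.JA, μ (D' j) := Finset.sum_coe_sort d.JA fun j => μ (D' j)
      _ ≤ _ := ENNReal.sum_le_tsum _
  · rintro e p ⟨-, ⟨c, -, h, -⟩ | ⟨k, -, -, h⟩⟩
    exacts [h.1, h.2]
  · obtain ⟨c, hc, hp⟩ := hcov p
    have hact : d.actW D' Set.univ [(1, true)] p := by
      refine Or.inl ⟨c, hc, ⟨trivial, fun σ hσ k h hk => ⟨hp σ hσ k h hk, trivial⟩⟩, ?_⟩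
      rcases FD.exists_step_of_eqvGen (hcert c hc).2 with h | ⟨⟨z, h | h⟩, -⟩
      · simp at h
      · obtain ⟨σ, hσ, h1, -⟩ := h
        exact ⟨σ, hσ, Or.inl h1⟩
      · obtain ⟨σ, hσ, -, h1⟩ := h
        exact ⟨σ, hσ, Or.inr h1⟩
    have hW := d.actW_mem D' _ hact
    have hN := d.len _ hW
    refine ⟨⟨([(1, true)], 0), d.mem_sE.mpr ⟨hW, hN⟩⟩, ⟨by simp, hact⟩, ?_, ?_, ?_⟩ <;>
      simp [FD.shape, ltr]
  · intro e
    have h1 : p ∈ U ↔ p ∈ U' := by simpa using h 1 d.one_mem
    refine and_congr Iff.rfl (or_congr (exists_congr fun c => and_congr_right fun hc =>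
      and_congr (d.actC_congr D' h hc) Iff.rfl) (exists_congr fun k => and_congr Iff.rfl
        (and_congr Iff.rfl (and_congr Iff.rfl h1))))
  · intro v v' g
    exact exists_congr fun c => and_congr_right fun hc =>
      and_congr (d.actC_congr D' h hc) Iff.rfl

end Crest.Agent.R191
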