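import Crest.Agent.R191.Defs

/-!
Finite families of homotopy certificates.
-/

set_option autoImplicit false

namespace Crest.Agent.R191

open MeasureTheory Relation Filter Topology

/-- Step descriptors: a pair of context words and a block (backtrack, cell or arc). -/
abbrev StepD (Γ : Type) := (Word Γ × Word Γ) × ((Γ × Bool) ⊕ Γ ⊕ (Γ × Γ))

variable {Γ : Type} [Group Γ]

/-- Right translate of a word. -/
def shiftW (h : Γ) (W : Word Γ) : Word Γ := W.map fun l => (l.1 * h, l.2)

namespace StepD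

/-- The part before the block. -/
def pre (σ : StepD Γ) : Word Γ :=
  match σ.2 with
  | Sum.inl _ => σ.1.1
  | Sum.inr (Sum.inl _) => σ.1.1
  | Sum.inr (Sum.inr _) => []

/-- The block. -/
def blk (G : GData Γ) (aw : Γ → Word Γ) (σ : StepD Γ) : Word Γ :=
  match σ.2 with
  | Sum.inl l => [(l.1, l.2), (l.1, !l.2)]
  | Sum.inr (Sum.inl c) => cellWord G c
  | Sum.inr (Sum.inr k) => shiftW k.2 (aw k.1)

/-- The word with the block. -/
def long (G : GData Γ) (aw : Γ → Word Γ) (σ : StepD Γ) : Word Γ := σ.pre ++ σ.blk G aw ++ σ.1.2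

/-- The word without the block. -/
def short (σ : StepD Γ) : Word Γ := σ.pre ++ σ.1.2

/-- The arc used by the step is available at `p`. -/
def Avail {X : Type} [MulAction Γ X] (D : Γ → Set X) (σ : StepD Γ) (p : X) : Prop :=
  ∀ k h : Γ, σ.2 = Sum.inr (Sum.inr (k, h)) → h • p ∈ D k

end StepD

/-- The steps of a certificate. -/
def certRel (G : GData Γ) (aw : Γ → Word Γ) (c : List (StepD Γ)) (W W' : Word Γ) : Prop :=
  ∃ σ ∈ c, W = σ.long G aw ∧ W' = σ.short

/-- A certificate contracts the `x`-edge at the base point, and all its words. -/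
def GoodCert (G : GData Γ) (aw : Γ → Word Γ) (c : List (StepD Γ)) : Prop :=
  (∀ σ ∈ c, EqvGen (certRel G aw c) (σ.long G aw) []) ∧ EqvGen (certRel G aw c) [(1, true)] []

theorem IsPath.congr_left {A : Subgroup Γ} {x u u' v : Γ} {W : Word Γ} (h : IsPath A x u W v)
    (hu : u' * u⁻¹ ∈ A) : IsPath A x u' W v := by
  cases W with
  | nil =>
    have := A.mul_mem hu h
    simpa [IsPath, mul_assoc] using this
  | cons l W =>
    refine ⟨?_, h.2⟩
    have := A.mul_mem hu h.1
    simpa [mul_assoc] using this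

theorem IsPath.append {A : Subgroup Γ} {x : Γ} {W W' : Word Γ} :
    ∀ {u v w : Γ}, IsPath A x u W v → IsPath A x v W' w → IsPath A x u (W ++ W') w := by
  induction W with
  | nil => intro u v w h h'; exact h'.congr_left h
  | cons l W ih => intro u v w h h'; exact ⟨h.1, ih h.2 h'⟩

theorem IsPath.shift {A : Subgroup Γ} {x : Γ} (k : Γ) {W : Word Γ} :
    ∀ {u v : Γ}, IsPath A x u W v → IsPath A x (u * k) (shiftW k W) (v * k) := by
  induction W with
  | nil =>
    intro u v h
    simpa [IsPath, shiftW, mul_assoc] using h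
  | cons l W ih =>
    intro u v h
    obtain ⟨g, ε⟩ := l
    refine ⟨?_, ?_⟩
    · have := h.1
      cases ε <;> simpa [src, mul_assoc] using this
    · have := ih h.2
      cases ε <;> simpa [tgt, shiftW, mul_assoc] using this

section Point

variable {X : Type} [MulAction Γ X] (G : GData Γ) (aw : Γ → Word Γ) (D : Γ → Set X)

/-- The steps available at the point `p`. -/
def stepAt (p : X) (W W' : Word Γ) : Prop :=
  ∃ σ : StepD Γ, σ.Avail D p ∧ W = σ.long G aw ∧ W' = σ.short

theorem stepAt_of_hom0 (p : X) {W W' : Word Γ} (h : EqvGen (Hom0 G) W W') :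
    EqvGen (stepAt G aw D p) W W' := by
  refine EqvGen.mono ?_ _ _ h
  rintro _ _ (⟨α, β, g, ε⟩ | ⟨α, β, c⟩)
  · exact ⟨((α, β), Sum.inl (g, ε)), fun _ _ h => by simp at h, rfl, rfl⟩
  · exact ⟨((α, β), Sum.inr (Sum.inl c)), fun _ _ h => by simp at h, rfl, rfl⟩

theorem null_of_conn (hfree : ∀ (g : Γ) (p : X), g • p = p → g = 1) (A : Subgroup Γ)
    (hsc : SimplyConn G A) (hpc : PathConn G A) (haw : ∀ h, IsPath A G.x 1 (aw h) h) (p : X)
    (hp : EqvGen (ArcStep A D) p (G.x • p)) : EqvGen (stepAt G aw D p) [(1, true)] [] := by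
  set Gd : X → Prop := fun y => ∀ u : Γ, y = u • p → ∀ W, IsPath A G.x u W G.x →
    EqvGen (stepAt G aw D p) W [] with hGd
  have hE := EqvGen.is_equivalence (stepAt G aw D p)
  have harc : ∀ (u h : Γ) (W : Word Γ), u • p ∈ D h →
      EqvGen (stepAt G aw D p) (shiftW u (aw h) ++ W) W := by
    intro u h W hu
    refine EqvGen.rel _ _ ⟨(([], W), Sum.inr (Sum.inr (h, u))), ?_, rfl, rfl⟩
    intro k h' hk
    simp only [Sum.inr.injEq, Prod.mk.injEq] at hk
    rw [← hk.1, ← hk.2]
    exact hu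
  have hN : ∀ u h : Γ, IsPath A G.x u (shiftW u (aw h)) (h * u) := fun u h => by
    simpa using (haw h).shift u
  have key : ∀ y y', EqvGen (ArcStep A D) y y' → (Gd y ↔ Gd y') := by
    intro y y' h
    induction h with
    | rel y y' h =>
      rcases h with ⟨a, ha, rfl⟩ | ⟨h, hy, rfl⟩
      · constructor
        · intro hy u hu W hW
          refine hy (a⁻¹ * u) (by rw [mul_smul, ← hu, inv_smul_smul]) W (hW.congr_left ?_)
          simpa using ha
        · intro hy u hu W hW
          refine hy (a * u) (by rw [mul_smul, ← hu]) W (hW.congr_left ?_)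
          simpa using ha
      · constructor
        · intro hgy u hu W hW
          have hy' : y = (h⁻¹ * u) • p := by rw [mul_smul, ← hu, inv_smul_smul]
          have h1 := hN (h⁻¹ * u) h
          rw [mul_inv_cancel_left] at h1
          exact hE.trans (hE.symm (harc _ h W (hy' ▸ hy))) (hgy _ hy' _ (h1.append hW))
        · intro hgy u hu W hW
          obtain ⟨W₀, hW₀⟩ := hpc (G.x * (h * u)⁻¹)
          have h1 := hW₀.shift (h * u)
          rw [one_mul, inv_mul_cancel_right] at h1
          have h2 := hgy (h * u) (by rw [mul_smul, ← hu]) _ h1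
          have h3 := stepAt_of_hom0 G aw D p (hsc _ _ _ _ hW ((hN u h).append h1))
          exact hE.trans h3 (hE.trans (harc u h _ (hu ▸ hy)) h2)
    | refl => rfl
    | symm _ _ _ ih => exact ih.symm
    | trans _ _ _ _ _ ih1 ih2 => exact ih1.trans ih2
  have hx : Gd (G.x • p) := by
    intro u hu W hW
    have h1 : G.x⁻¹ * u = 1 := hfree _ p (by rw [mul_smul, ← hu, inv_smul_smul])
    have h2 : u = G.x := (inv_mul_eq_one.mp h1).symm
    subst h2
    exact stepAt_of_hom0 G aw D p (hsc _ _ _ _ hW (by simp [IsPath]))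
  exact (key _ _ hp).mpr hx 1 (one_smul _ _).symm _ (by simp [IsPath, src, tgt])

theorem cert_of_eqvGen (p : X) {W W' : Word Γ} (h : EqvGen (stepAt G aw D p) W W') :
    ∃ c : List (StepD Γ), (∀ σ ∈ c, σ.Avail D p) ∧ EqvGen (certRel G aw c) W W' ∧
      ∀ σ ∈ c, EqvGen (certRel G aw c) (σ.long G aw) W := by
  induction h with
  | rel W W' h =>
    obtain ⟨σ, h1, rfl, rfl⟩ := h
    refine ⟨[σ], by simpa using h1, EqvGen.rel _ _ ⟨σ, by simp, rfl, rfl⟩, ?_⟩
    simpa using EqvGen.refl _
  | refl W => exact ⟨[], by simp, EqvGen.refl _, by simp⟩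
  | symm W W' _ ih =>
    obtain ⟨c, h1, h2, h3⟩ := ih
    exact ⟨c, h1, EqvGen.symm _ _ h2, fun σ hσ => EqvGen.trans _ _ _ (h3 σ hσ) h2⟩
  | trans W W' W'' _ _ ih1 ih2 =>
    obtain ⟨c, h1, h2, h3⟩ := ih1
    obtain ⟨c', h1', h2', h3'⟩ := ih2
    have m1 : ∀ a b, EqvGen (certRel G aw c) a b → EqvGen (certRel G aw (c ++ c')) a b :=
      EqvGen.mono fun _ _ ⟨σ, hσ, h⟩ => ⟨σ, List.mem_append_left _ hσ, h⟩
    have m2 : ∀ a b, EqvGen (certRel G aw c') a b → EqvGen (certRel G aw (c ++ c')) a b :=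
      EqvGen.mono fun _ _ ⟨σ, hσ, h⟩ => ⟨σ, List.mem_append_right _ hσ, h⟩
    refine ⟨c ++ c', ?_, EqvGen.trans _ _ _ (m1 _ _ h2) (m2 _ _ h2'), ?_⟩
    · intro σ hσ
      rcases List.mem_append.mp hσ with h | h
      exacts [h1 σ h, h1' σ h]
    · intro σ hσ
      rcases List.mem_append.mp hσ with h | h
      · exact m1 _ _ (h3 σ h)
      · exact EqvGen.trans _ _ _ (m2 _ _ (h3' σ h)) (EqvGen.symm _ _ (m1 _ _ h2))

end Point

theorem measurableSet_avail {X : Type} [Countable Γ] [MulAction Γ X] [MeasurableSpace X]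
    (hm : ∀ g : Γ, Measurable fun p : X => g • p) {D : Γ → Set X}
    (hD : ∀ h, MeasurableSet (D h)) (c : List (StepD Γ)) :
    Measurable fun p : X => ∀ σ ∈ c, σ.Avail D p :=
  Measurable.forall fun _ => Measurable.imp measurable_const (Measurable.forall fun k =>
    Measurable.forall fun h => Measurable.imp measurable_const ((hD k).mem.comp (hm h)))

theorem exists_certs {X : Type} [Countable Γ] [MulAction Γ X] [MeasurableSpace X]
    {μ : Measure X} [IsProbabilityMeasure μ] (hX : FreePMP Γ X μ) (G : GData Γ) (A : Subgroup Γ)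
    (hsc : SimplyConn G A) (hpc : PathConn G A) (D : Γ → Set X) (hD : ∀ h, MeasurableSet (D h))
    (hconn : ∀ᵐ p ∂μ, EqvGen (ArcStep A D) p (G.x • p)) {δ : ENNReal} (hδ : 0 < δ) :
    ∃ (aw : Γ → Word Γ) (D' : Γ → Set X) (𝒞 : List (List (StepD Γ))),
      (∀ h, MeasurableSet (D' h)) ∧ ∑' h, μ (D' h) ≤ ∑' h, μ (D h) + δ ∧
      (∀ c ∈ 𝒞, GoodCert G aw c) ∧ ∀ p, ∃ c ∈ 𝒞, ∀ σ ∈ c, σ.Avail D' p := by
  classical
  choose aw₀ haw₀ using hpc
  set aw : Γ → Word Γ := fun h => if h = G.x then [(1, true)] else aw₀ h with haw_def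
  have haw : ∀ h, IsPath A G.x 1 (aw h) h := by
    intro h
    by_cases hh : h = G.x
    · simp [haw_def, hh, IsPath, src, tgt]
    · simp only [haw_def, hh, if_false]
      exact haw₀ h
  obtain ⟨en, hen⟩ := exists_surjective_nat (List (StepD Γ))
  set V : ℕ → Set X := fun n => {p | GoodCert G aw (en n) ∧ ∀ σ ∈ en n, σ.Avail D p} with hV
  have hVm : ∀ n, MeasurableSet (V n) := fun n =>
    measurableSet_setOfPred.mpr (Measurable.and measurable_const
      (measurableSet_avail (fun g => (hX.mp g).measurable) hD _))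
  set E : ℕ → Set X := fun n => ⋂ k ∈ Finset.range n, (V k)ᶜ with hE
  have hEm : ∀ n, MeasurableSet (E n) := fun n =>
    Finset.measurableSet_biInter _ fun k _ => (hVm k).compl
  have hanti : Antitone E := by
    intro m n hmn p hp
    simp only [hE, Set.mem_iInter] at hp ⊢
    exact fun k hk => hp k (Finset.range_subset_range.mpr hmn hk)
  have hnull : μ (⋂ n, E n) = 0 := by
    refine measure_mono_null ?_ (ae_iff.mp hconn)
    intro p hp hc
    obtain ⟨c, h1, h2, h3⟩ := cert_of_eqvGen G aw D p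
      (null_of_conn G aw D hX.free A hsc (fun h => ⟨_, haw₀ h⟩) haw p hc)
    obtain ⟨n, rfl⟩ := hen c
    have := Set.mem_iInter.mp hp (n + 1)
    simp only [hE, Set.mem_iInter] at this
    exact this n (by simp) ⟨⟨fun σ hσ => EqvGen.trans _ _ _ (h3 σ hσ) h2, h2⟩, h1⟩
  have hlim := tendsto_measure_iInter_atTop (μ := μ) (fun n => (hEm n).nullMeasurableSet) hanti
    ⟨0, measure_ne_top _ _⟩
  rw [hnull] at hlim
  obtain ⟨n, hn⟩ := (hlim.eventually (gt_mem_nhds hδ)).exists
  set c₀ : List (StepD Γ) := [(([], []), Sum.inr (Sum.inr (G.x, 1)))] with hc₀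
  refine ⟨aw, fun h => D h ∪ (if h = G.x then E n else ∅),
    c₀ :: ((List.range n).map en).filter (fun c => GoodCert G aw c), ?_, ?_, ?_, ?_⟩
  · intro h
    refine (hD h).union ?_
    split_ifs
    exacts [hEm n, MeasurableSet.empty]
  · calc ∑' h, μ (D h ∪ (if h = G.x then E n else ∅))
        ≤ ∑' h, (μ (D h) + if h = G.x then μ (E n) else 0) := by
          refine ENNReal.tsum_le_tsum fun h => (measure_union_le _ _).trans ?_
          split_ifs <;> simp
      _ = ∑' h, μ (D h) + μ (E n) := by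
          rw [ENNReal.tsum_add, tsum_ite_eq]
      _ ≤ _ := add_le_add_right hn.le _
  · intro c hc
    rcases List.mem_cons.mp hc with rfl | hc
    · have h1 : certRel G aw c₀ [(1, true)] [] :=
        ⟨_, List.mem_singleton_self _, by
          simp [StepD.long, StepD.pre, StepD.blk, shiftW, haw_def], rfl⟩
      refine ⟨fun σ hσ => ?_, EqvGen.rel _ _ h1⟩
      rw [List.mem_singleton] at hσ
      exact EqvGen.rel _ _ ⟨σ, by simp [hσ, hc₀], rfl, by rw [hσ]; rfl⟩
    · simpa using (List.mem_filter.mp hc).2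
  · intro p
    by_cases hp : p ∈ E n
    · refine ⟨c₀, List.mem_cons_self, fun σ hσ k h hk => ?_⟩
      rw [List.mem_singleton] at hσ
      rw [hσ] at hk
      simp only [Sum.inr.injEq, Prod.mk.injEq] at hk
      rw [← hk.1, ← hk.2, one_smul]
      exact Or.inr (by simpa using hp)
    · simp only [hE, Set.mem_iInter, not_forall, Set.mem_compl_iff, not_not] at hp
      obtain ⟨k, hk, hpk⟩ := hp
      refine ⟨en k, List.mem_cons_of_mem _ (List.mem_filter.mpr ⟨?_, by simpa using hpk.1⟩),
        fun σ hσ k' h hk' => Or.inl (hpk.2 σ hσ k' h hk')⟩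
      exact List.mem_map.mpr ⟨k, by simpa using hk, rfl⟩

end Crest.Agent.R191
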