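import Crest.Agent.R191.MRel

/-!
Measurability of the objects attached to a configuration, and continuity of `μ (B D)` along a
family of configurations.
-/

set_option autoImplicit false

namespace Crest.Agent.R191

open MeasureTheory Relation Filter Topology

section FilterLemmas

variable {σ α : Type} {l : Filter σ} {R : σ → α → α → Prop} {R₀ : α → α → Prop} {Ω : Set α}
  {N : α → Set α}

/-- A family of relations with fixed finite candidate neighbourhoods, eventually equal to `R₀`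
on `Ω`. -/
structure EvRel (l : Filter σ) (R : σ → α → α → Prop) (R₀ : α → α → Prop) (Ω : Set α)
    (N : α → Set α) : Prop where
  fin : ∀ w, (N w).Finite
  sub : ∀ w ∈ Ω, N w ⊆ Ω
  nbr : ∀ s w w', R s w w' ∨ R s w' w → w' ∈ N w
  nbr₀ : ∀ w w', R₀ w w' ∨ R₀ w' w → w' ∈ N w
  ev : ∀ w ∈ Ω, ∀ w' ∈ Ω, ∀ᶠ s in l, R s w w' ↔ R₀ w w'

theorem EvRel.reach (h : EvRel l R R₀ Ω N) {w w' : α} (hw : w ∈ Ω) (hr : EqvGen R₀ w w') :
    w' ∈ Ω ∧ ∀ᶠ s in l, EqvGen (R s) w w' := by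
  refine (eqvGen_closed (P := fun w' => w' ∈ Ω ∧ ∀ᶠ s in l, EqvGen (R s) w w') ?_ hr).mp
    ⟨hw, Eventually.of_forall fun s => EqvGen.refl _⟩
  rintro b c ⟨hb, hev⟩ hbc
  have hc : c ∈ Ω := h.sub b hb (h.nbr₀ _ _ hbc)
  refine ⟨hc, ?_⟩
  filter_upwards [hev, h.ev b hb c hc, h.ev c hc b hb] with s h1 h2 h3
  rcases hbc with h4 | h4
  · exact EqvGen.trans _ _ _ h1 (EqvGen.rel _ _ (h2.mpr h4))
  · exact EqvGen.trans _ _ _ h1 (EqvGen.symm _ _ (EqvGen.rel _ _ (h3.mpr h4)))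

theorem EvRel.class_eq (h : EvRel l R R₀ Ω N) {w : α} (hw : w ∈ Ω)
    (hfin : {w' | EqvGen R₀ w w'}.Finite) :
    ∀ᶠ s in l, EqvGen (R s) w = EqvGen R₀ w := by
  have h1 : ∀ᶠ s in l, ∀ w' ∈ {w' | EqvGen R₀ w w'}, EqvGen (R s) w w' :=
    (eventually_all_finite hfin).mpr fun w' hw' => (h.reach hw hw').2
  have h2 : ∀ᶠ s in l, ∀ b ∈ {w' | EqvGen R₀ w w'}, ∀ c ∈ N b,
      (R s b c ↔ R₀ b c) ∧ (R s c b ↔ R₀ c b) :=
    (eventually_all_finite hfin).mpr fun b hb => (eventually_all_finite (h.fin b)).mpr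
      fun c hc => (h.ev b (h.reach hw hb).1 c (h.sub b (h.reach hw hb).1 hc)).and
        (h.ev c (h.sub b (h.reach hw hb).1 hc) b (h.reach hw hb).1)
  filter_upwards [h1, h2] with s h1 h2
  funext w'
  refine propext ⟨fun hr => ?_, h1 w'⟩
  refine (eqvGen_closed (P := fun w' => EqvGen R₀ w w') ?_ hr).mp (EqvGen.refl _)
  intro b c hb hbc
  have := h2 b hb c (h.nbr s _ _ hbc)
  rcases hbc with h4 | h4
  · exact EqvGen.trans _ _ _ hb (EqvGen.rel _ _ (this.1.mp h4))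
  · exact EqvGen.trans _ _ _ hb (EqvGen.symm _ _ (EqvGen.rel _ _ (this.2.mp h4)))

theorem EvRel.large (h : EvRel l R R₀ Ω N) {w : α} (hw : w ∈ Ω) {D : ℕ}
    (hD : ¬ {w' | EqvGen R₀ w w'}.encard ≤ D) :
    ∀ᶠ s in l, ¬ {w' | EqvGen (R s) w w'}.encard ≤ D := by
  have h1 : ((D + 1 : ℕ) : ℕ∞) ≤ {w' | EqvGen R₀ w w'}.encard := by
    rw [not_le] at hD
    exact Order.add_one_le_of_lt hD
  obtain ⟨t, ht, htc⟩ := Set.exists_subset_encard_eq h1
  have htf : t.Finite := Set.finite_of_encard_eq_coe htc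
  have h2 : ∀ᶠ s in l, ∀ w' ∈ t, EqvGen (R s) w w' :=
    (eventually_all_finite htf).mpr fun w' hw' => (h.reach hw (ht hw')).2
  filter_upwards [h2] with s hs hle
  have h3 := (Set.encard_le_encard (t := {w' | EqvGen (R s) w w'}) hs).trans hle
  rw [htc] at h3
  norm_cast at h3
  omega

end FilterLemmas

variable {Γ X IE IV IA : Type} [Group Γ] [Countable Γ] [MulAction Γ X] [MeasurableSpace X]
  [Fintype IE] [Fintype IV] {μ : Measure X} {S : Shape Γ IE IV IA}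

omit [Countable Γ] [Fintype IE] [Fintype IV] in
theorem Cfg.mrel_adj1 (hX : FreePMP Γ X μ) {C : Cfg S X} (hC : C.Meas) : MRel Γ C.adj1 := by
  refine ⟨fun w w' ⟨h, h1, _⟩ => ⟨h, h1⟩, fun h i i' => ?_⟩
  have : {p : X | C.adj1 (p, i) (h • p, i')} = {p | C.mrg i i' h p} := by
    ext p
    constructor
    · rintro ⟨k, h1, h2⟩
      have h3 := hX.free (k⁻¹ * h) p (by
        simp only at h1
        rw [mul_smul, h1, inv_smul_smul])
      rw [← inv_mul_eq_one.mp h3]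
      exact h2
    · exact fun h2 => ⟨h, rfl, h2⟩
  rw [this]
  exact hC.mrg _ _ _

omit [Fintype IE] in
theorem Cfg.mrel_r1 (hX : FreePMP Γ X μ) {C : Cfg S X} (hC : C.Meas) : MRel Γ C.r1 :=
  (Cfg.mrel_adj1 hX hC).eqvGen hX

omit [Fintype IE] in
theorem Cfg.measurableSet_light (hX : FreePMP Γ X μ) {C : Cfg S X} (hC : C.Meas) (D : ℕ)
    (v : IV) : MeasurableSet {p : X | C.light D (p, v)} :=
  (Cfg.mrel_r1 hX hC).measurableSet_encard_le hX D v

theorem Cfg.mrel_r2 (hX : FreePMP Γ X μ) {C : Cfg S X} (hC : C.Meas) (D : ℕ) :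
    MRel Γ (C.r2 D) := by
  refine MRel.eqvGen hX ⟨?_, fun h i i' => ?_⟩
  · rintro w w' (⟨h, h1, _⟩ | ⟨e, e', -, -, h1, -⟩)
    · exact ⟨h, h1⟩
    · exact ⟨(S.pos e')⁻¹ * S.pos e, by rw [mul_smul, h1, inv_smul_smul]⟩
  · refine measurableSet_setOfPred.mpr (Measurable.or
      (measurableSet_setOfPred.mp ((Cfg.mrel_adj1 hX hC).2 h i i'))
      (Measurable.exists fun e => Measurable.exists fun e' =>
        (measurableSet_setOfPred.mp (hC.act e)).and
        (((measurableSet_setOfPred.mp (hC.act e')).comp (hX.mp h).measurable).and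
        (Measurable.and ?_ ((measurable_const (a := (i = S.out e))).and
        ((measurable_const (a := (i' = S.out e'))).and
        ((measurableSet_setOfPred.mp (Cfg.measurableSet_light hX hC D (S.inn e))).and
        (measurableSet_setOfPred.mp ((Cfg.mrel_r1 hX hC).2 h (S.inn e) (S.inn e'))))))))))
    have : (fun p : X => S.pos e • p = S.pos e' • h • p) = fun _ => S.pos e = S.pos e' * h := by
      funext p
      refine propext ⟨fun h1 => ?_, fun h1 => by rw [h1, mul_smul]⟩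
      have h3 := hX.free ((S.pos e' * h)⁻¹ * S.pos e) p (by
        rw [mul_smul, h1, ← mul_smul (S.pos e'), inv_smul_smul])
      exact (inv_mul_eq_one.mp h3).symm
    exact this ▸ measurable_const

theorem Cfg.measurableSet_small (hX : FreePMP Γ X μ) {C : Cfg S X} (hC : C.Meas) (D : ℕ)
    (v : IV) : MeasurableSet {p : X | C.small D (p, v)} := by
  have hr := Cfg.mrel_r2 hX hC D
  have : {p : X | C.small D (p, v)} = {p : X | {w' | C.r2 D (p, v) w'}.encard ≤ D ∧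
      ∀ (h : Γ) (v' : IV), C.r2 D (p, v) (h • p, v') → ¬ S.big v'} := by
    ext p
    refine and_congr Iff.rfl ⟨fun h1 h v' h2 => h1 _ h2, ?_⟩
    rintro h1 ⟨q, v'⟩ h2
    obtain ⟨k, hk⟩ := hr.1 _ _ h2
    simp only at hk
    subst hk
    exact h1 k v' h2
  rw [this]
  exact measurableSet_setOfPred.mpr
    ((measurableSet_setOfPred.mp (hr.measurableSet_encard_le hX D v)).and
    (Measurable.forall fun h => Measurable.forall fun v' =>
      (measurableSet_setOfPred.mp (hr.2 h v v')).imp measurable_const))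

omit [Countable Γ] [MeasurableSpace X] [Fintype IE] [Fintype IV] in
theorem Cfg.mem_B_iff {C : Cfg S X} {D : ℕ} {y : X} : y ∈ C.B D ↔ ∃ e : IE,
    C.act e ((S.pos e)⁻¹ • y) ∧ ¬ C.small D ((S.pos e)⁻¹ • y, S.out e) ∧
      ¬ C.small D ((S.pos e)⁻¹ • y, S.inn e) := by
  constructor
  · rintro ⟨e, q, h1, rfl, h2⟩
    exact ⟨e, by rw [inv_smul_smul]; exact ⟨h1, h2⟩⟩
  · rintro ⟨e, h1, h2⟩
    exact ⟨e, _, h1, smul_inv_smul _ _, h2⟩

theorem Cfg.measurableSet_B (hX : FreePMP Γ X μ) {C : Cfg S X} (hC : C.Meas) (D : ℕ) :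
    MeasurableSet (C.B D) := by
  have : C.B D = {y | ∃ e : IE, C.act e ((S.pos e)⁻¹ • y) ∧
      ¬ C.small D ((S.pos e)⁻¹ • y, S.out e) ∧ ¬ C.small D ((S.pos e)⁻¹ • y, S.inn e)} :=
    Set.ext fun y => Cfg.mem_B_iff
  rw [this]
  exact measurableSet_setOfPred.mpr (Measurable.exists fun e =>
    ((measurableSet_setOfPred.mp (hC.act e)).comp (hX.mp _).measurable).and
    ((((measurableSet_setOfPred.mp (Cfg.measurableSet_small hX hC D _)).comp
      (hX.mp _).measurable).not).and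
    (((measurableSet_setOfPred.mp (Cfg.measurableSet_small hX hC D _)).comp
      (hX.mp _).measurable).not)))

omit [Countable Γ] [MeasurableSpace X] in
theorem Cfg.eventually_mem_B {σ : Type} {l : Filter σ} (C : σ → Cfg S X) (C₀ : Cfg S X) (D : ℕ)
    (p : X) (hact : ∀ (g : Γ) e, ∀ᶠ s in l, ((C s).act e (g • p) ↔ C₀.act e (g • p)))
    (hmrg : ∀ (g : Γ) v v' h, ∀ᶠ s in l, ((C s).mrg v v' h (g • p) ↔ C₀.mrg v v' h (g • p))) :
    ∀ᶠ s in l, (p ∈ (C s).B D ↔ p ∈ C₀.B D) := by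
  classical
  set Ω : Set (X × IV) := {w | ∃ g : Γ, w.1 = g • p} with hΩ
  set K : Finset Γ := S.rng ∪ S.rng.image (·⁻¹) ∪
    Finset.univ.image (fun z : IE × IE => (S.pos z.1)⁻¹ * S.pos z.2) with hK
  set N : X × IV → Set (X × IV) := fun w => {w' | ∃ k ∈ K, w'.1 = k • w.1} with hN
  have hfin : ∀ w, (N w).Finite := by
    intro w
    refine ((K.finite_toSet.image (· • w.1)).prod (Set.finite_univ (α := IV))).subset ?_
    rintro w' ⟨k, hk, h⟩
    exact ⟨⟨k, hk, h.symm⟩, trivial⟩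
  have hsub : ∀ w ∈ Ω, N w ⊆ Ω := by
    rintro w ⟨g, hg⟩ w' ⟨k, -, h⟩
    exact ⟨k * g, by rw [h, hg, mul_smul]⟩
  have hn1 : ∀ (C : Cfg S X) w w', C.adj1 w w' ∨ C.adj1 w' w → w' ∈ N w := by
    rintro C w w' (⟨h, h1, h2⟩ | ⟨h, h1, h2⟩)
    · exact ⟨h, by simp [hK, C.mrg_rng _ _ _ _ h2], h1⟩
    · refine ⟨h⁻¹, ?_, by rw [h1, inv_smul_smul]⟩
      exact Finset.mem_union_left _ (Finset.mem_union_right _
        (Finset.mem_image_of_mem _ (C.mrg_rng _ _ _ _ h2)))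
  have hn2 : ∀ (C : Cfg S X) w w', C.adj2 D w w' ∨ C.adj2 D w' w → w' ∈ N w := by
    rintro C w w' ((h | ⟨e, e', -, -, h1, -⟩) | (h | ⟨e, e', -, -, h1, -⟩))
    · exact hn1 C _ _ (Or.inl h)
    · exact ⟨_, Finset.mem_union_right _ (Finset.mem_image_of_mem _ (Finset.mem_univ (e', e))),
        by rw [mul_smul, h1, inv_smul_smul]⟩
    · exact hn1 C _ _ (Or.inr h)
    · exact ⟨_, Finset.mem_union_right _ (Finset.mem_image_of_mem _ (Finset.mem_univ (e, e'))),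
        by rw [mul_smul, ← h1, inv_smul_smul]⟩
  have hev1 : ∀ w ∈ Ω, ∀ w' ∈ Ω, ∀ᶠ s in l, (C s).adj1 w w' ↔ C₀.adj1 w w' := by
    rintro w ⟨g, hg⟩ w' -
    have : ∀ᶠ s in l, ∀ h ∈ S.rng, ((C s).mrg w.2 w'.2 h w.1 ↔ C₀.mrg w.2 w'.2 h w.1) := by
      rw [hg]
      exact (eventually_all_finset _).mpr fun h _ => hmrg g _ _ h
    filter_upwards [this] with s hs
    exact ⟨fun ⟨h, h1, h2⟩ => ⟨h, h1, (hs h ((C s).mrg_rng _ _ _ _ h2)).mp h2⟩,
      fun ⟨h, h1, h2⟩ => ⟨h, h1, (hs h (C₀.mrg_rng _ _ _ _ h2)).mpr h2⟩⟩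
  have E1 : EvRel l (fun s => (C s).adj1) C₀.adj1 Ω N :=
    ⟨hfin, hsub, fun s => hn1 (C s), hn1 C₀, hev1⟩
  have hlight : ∀ w ∈ Ω, ∀ w', ∀ᶠ s in l,
      ((C s).light D w ∧ (C s).r1 w w' ↔ C₀.light D w ∧ C₀.r1 w w') := by
    intro w hw w'
    by_cases h : C₀.light D w
    · filter_upwards [E1.class_eq hw (Set.finite_of_encard_le_coe h)] with s hs
      have hs' : (C s).r1 w = C₀.r1 w := hs
      unfold Cfg.light
      rw [hs']
    · filter_upwards [E1.large hw h] with s hs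
      exact ⟨fun h1 => absurd h1.1 hs, fun h1 => absurd h1.1 h⟩
  have hev2 : ∀ w ∈ Ω, ∀ w' ∈ Ω, ∀ᶠ s in l, (C s).adj2 D w w' ↔ C₀.adj2 D w w' := by
    rintro w hw w' hw'
    obtain ⟨g, hg⟩ := id hw
    obtain ⟨g', hg'⟩ := id hw'
    have a1 : ∀ᶠ s in l, ∀ e, (C s).act e w.1 ↔ C₀.act e w.1 := by
      rw [hg]; exact eventually_all.mpr fun e => hact g e
    have a2 : ∀ᶠ s in l, ∀ e, (C s).act e w'.1 ↔ C₀.act e w'.1 := by
      rw [hg']; exact eventually_all.mpr fun e => hact g' e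
    have a3 : ∀ᶠ s in l, ∀ e e', ((C s).light D (w.1, S.inn e) ∧
        (C s).r1 (w.1, S.inn e) (w'.1, S.inn e') ↔
        C₀.light D (w.1, S.inn e) ∧ C₀.r1 (w.1, S.inn e) (w'.1, S.inn e')) :=
      eventually_all.mpr fun e => eventually_all.mpr fun e' =>
        hlight (w.1, S.inn e) ⟨g, hg⟩ _
    filter_upwards [hev1 w hw w' hw', a1, a2, a3] with s h1 h2 h3 h4
    exact or_congr h1 (exists_congr fun e => exists_congr fun e' => and_congr (h2 e)
      (and_congr (h3 e') (and_congr Iff.rfl (and_congr Iff.rfl (and_congr Iff.rfl (h4 e e'))))))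
  have E2 : EvRel l (fun s => (C s).adj2 D) (C₀.adj2 D) Ω N :=
    ⟨hfin, hsub, fun s => hn2 (C s), hn2 C₀, hev2⟩
  have hsmall : ∀ w ∈ Ω, ∀ᶠ s in l, ((C s).small D w ↔ C₀.small D w) := by
    intro w hw
    by_cases h : {w' | C₀.r2 D w w'}.encard ≤ D
    · filter_upwards [E2.class_eq hw (Set.finite_of_encard_le_coe h)] with s hs
      have hs' : (C s).r2 D w = C₀.r2 D w := hs
      unfold Cfg.small
      rw [hs']
    · filter_upwards [E2.large hw h] with s hs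
      exact ⟨fun h1 => absurd h1.1 hs, fun h1 => absurd h1.1 h⟩
  have b1 : ∀ᶠ s in l, ∀ e, ((C s).act e ((S.pos e)⁻¹ • p) ↔ C₀.act e ((S.pos e)⁻¹ • p)) ∧
      ((C s).small D ((S.pos e)⁻¹ • p, S.out e) ↔ C₀.small D ((S.pos e)⁻¹ • p, S.out e)) ∧
      ((C s).small D ((S.pos e)⁻¹ • p, S.inn e) ↔ C₀.small D ((S.pos e)⁻¹ • p, S.inn e)) :=
    eventually_all.mpr fun e => (hact _ e).and ((hsmall (_, S.out e) ⟨_, rfl⟩).and
      (hsmall (_, S.inn e) ⟨_, rfl⟩))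
  filter_upwards [b1] with s hs
  rw [Cfg.mem_B_iff, Cfg.mem_B_iff]
  exact exists_congr fun e => and_congr (hs e).1 (and_congr (hs e).2.1.not (hs e).2.2.not)

/-- Continuity of the measure of `B` along a family whose data are, at almost every point,
eventually constant. -/
theorem Cfg.continuousAt_measure_B [IsProbabilityMeasure μ] (hX : FreePMP Γ X μ)
    (C : ℝ → Cfg S X) (hC : ∀ s, (C s).Meas) (D : ℕ) (s₀ : ℝ)
    (hact : ∀ᵐ p ∂μ, ∀ e, ∀ᶠ s in 𝓝 s₀, ((C s).act e p ↔ (C s₀).act e p))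
    (hmrg : ∀ᵐ p ∂μ, ∀ v v' h, ∀ᶠ s in 𝓝 s₀, ((C s).mrg v v' h p ↔ (C s₀).mrg v v' h p)) :
    ContinuousAt (fun s => μ.real ((C s).B D)) s₀ := by
  have h1 := ae_all_iff.mpr fun g : Γ => (hX.mp g).quasiMeasurePreserving.ae hact
  have h2 := ae_all_iff.mpr fun g : Γ => (hX.mp g).quasiMeasurePreserving.ae hmrg
  have h3 : ∀ᵐ p ∂μ, ∀ᶠ s in 𝓝 s₀, (p ∈ (C s).B D ↔ p ∈ (C s₀).B D) := by
    filter_upwards [h1, h2] with p hp1 hp2
    exact Cfg.eventually_mem_B C (C s₀) D p hp1 hp2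
  have h4 := tendsto_measure_of_ae_tendsto_indicator_of_isFiniteMeasure (𝓝 s₀)
    (Cfg.measurableSet_B hX (hC s₀) D) (fun s => Cfg.measurableSet_B hX (hC s) D) h3
  exact (ENNReal.tendsto_toReal (measure_ne_top _ _)).comp h4

end Crest.Agent.R191
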