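import Crest.Agent.R191.Section

/-!
The cheap actions `X × ZMod M`.
-/

set_option autoImplicit false

namespace Crest.Agent.R191

open MeasureTheory

lemma Cheap_gen {Γ : Type} [Group Γ] (G : GData Γ) (t : Γ)
    (χ : Γ →* Multiplicative ℤ) (hg0 : G.g 0 = 1)
    (hcomm : ∀ i, Commute t (G.a i))
    (hχg : ∀ i : Fin 3, χ (G.g i) = Multiplicative.ofAdd ((i : ℕ) : ℤ))
    (hgen : Subgroup.closure (insert G.x (insert t (Set.range G.a))) = ⊤)
    {Y : Type} [MulAction Γ Y] {M : ℕ} [NeZero M] (cl : Y → ZMod M)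
    (hcl : ∀ (g : Γ) y, cl (g • y) = ((χ g).toAdd : ZMod M) + cl y)
    {R : Y → Y → Prop} (hR : Equivalence R) (ht : ∀ y, R y (t • y))
    (ha : ∀ y, ∃ n : ℤ, ∀ i, R (t ^ n • y) (G.a i • t ^ n • y))
    (hx : ∀ y, cl y = 0 ∨ cl y = 1 → R y (G.x • y)) (y : Y) (g : Γ) : R y (g • y) := by
  have hsub : ∀ S : Set Γ, (∀ s ∈ S, ∀ y, R y (s • y)) → ∀ g ∈ Subgroup.closure S, ∀ y,
      R y (g • y) := by
    intro S hS g hg
    induction hg using Subgroup.closure_induction with
    | mem s hs => exact hS s hs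
    | one => intro y; rw [one_smul]; exact hR.refl y
    | mul b c _ _ hb hc => intro y; rw [mul_smul]; exact hR.trans (hc y) (hb _)
    | inv b _ hb => intro y; simpa using hR.symm (hb (b⁻¹ • y))
  have htn : ∀ (n : ℤ) y, R y (t ^ n • y) := fun n =>
    hsub {t} (by simpa using ht) _ (Subgroup.zpow_mem _ (Subgroup.subset_closure (Set.mem_singleton t)) n)
  have hai : ∀ i y, R y (G.a i • y) := fun i y => by
    obtain ⟨n, hn⟩ := ha y
    have h := hR.trans (htn n y) (hn i)
    rw [← mul_smul, ← ((hcomm i).zpow_left n).eq, mul_smul] at h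
    exact hR.trans h (hR.symm (htn n _))
  have hxk : ∀ (k : ℕ) y, cl y = k → R y (G.x • y) := by
    intro k
    induction k using Nat.twoStepInduction with
    | zero => intro y h; exact hx y (Or.inl (by simpa using h))
    | one => intro y h; exact hx y (Or.inr (by simpa using h))
    | more k ih1 ih2 =>
      intro y h
      obtain ⟨c, rfl⟩ : ∃ c, y = G.g 2 • c := ⟨(G.g 2)⁻¹ • y, by simp⟩
      have hc : cl c = k := by
        rw [hcl, hχg] at h
        simp only [Fin.val_two, toAdd_ofAdd] at h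
        push_cast at h
        linear_combination h
      have hc1 : cl (G.g 1 • c) = (k + 1 : ℕ) := by
        rw [hcl, hχg, hc]; simp [add_comm]
      have e1 : G.g 1 = G.a 1 * G.x := by simpa [hg0] using G.hg 0
      have e2 : G.g 2 = G.a 2 * G.x * G.g 1 := G.hg 1
      have e0 : G.a 0 * G.x * G.g 2 = 1 := (G.hg 2).symm.trans hg0
      have r1 : R (G.x • G.g 2 • c) c := by
        have := hai 0 (G.x • G.g 2 • c)
        rwa [← mul_smul (G.a 0), ← mul_smul (G.a 0 * G.x), e0, one_smul] at this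
      have r2 : R c (G.g 1 • c) := by
        rw [e1, mul_smul]; exact hR.trans (ih1 c hc) (hai 1 _)
      have r3 : R (G.g 1 • c) (G.g 2 • c) := by
        rw [e2, mul_smul, mul_smul]; exact hR.trans (ih2 _ hc1) (hai 2 _)
      exact hR.symm (hR.trans r1 (hR.trans r2 r3))
  refine hsub _ ?_ g (hgen ▸ Subgroup.mem_top g) y
  rintro s (rfl | rfl | ⟨i, rfl⟩) y
  · exact hxk (cl y).val y (by simp)
  · exact ht y
  · exact hai i y

theorem exists_cheap {Γ : Type} [Group Γ] [Countable Γ] (G : GData Γ) (t : Γ)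
    (χ : Γ →* Multiplicative ℤ) (hg0 : G.g 0 = 1) (ht : ¬ IsOfFinOrder t)
    (hcomm : ∀ i, Commute t (G.a i)) (hχx : χ G.x = 1) (hχt : χ t = 1)
    (hχg : ∀ i : Fin 3, χ (G.g i) = Multiplicative.ofAdd ((i : ℕ) : ℤ))
    (hgen : Subgroup.closure (insert G.x (insert t (Set.range G.a))) = ⊤)
    {X : Type} [MeasurableSpace X] [StandardBorelSpace X] [MulAction Γ X] {μ : Measure X}
    [IsProbabilityMeasure μ] (hX : FreePMP Γ X μ) (M : ℕ) (hM : 100 < M) :
    ∃ (Y : Type) (_ : MeasurableSpace Y) (_ : StandardBorelSpace Y) (ν : Measure Y)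
      (_ : IsProbabilityMeasure ν) (_ : MulAction Γ Y),
      Crest.Dynamics.IsFreePMPAction Γ Y ν ∧
      Crest.Dynamics.actionCost Γ Y ν ≤ 1 + 99 / (M : ENNReal) := by
  have : NeZero M := ⟨by omega⟩
  let _ : MulAction Γ (ZMod M) :=
    { smul := fun g j => ((χ g).toAdd : ZMod M) + j
      one_smul := fun j => show (((χ 1).toAdd : ℤ) : ZMod M) + j = j by simp
      mul_smul := fun g h j => show (((χ (g * h)).toAdd : ℤ) : ZMod M) + j =
        ((χ g).toAdd : ZMod M) + (((χ h).toAdd : ZMod M) + j) by simp [add_assoc] }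
  have hM0 : (M : ENNReal) ≠ 0 := by simpa using NeZero.ne M
  let ρ : Measure (ZMod M) := (M : ENNReal)⁻¹ • Measure.count
  have : IsProbabilityMeasure ρ := ⟨by
    simp [ρ, ENNReal.inv_mul_cancel hM0 (ENNReal.natCast_ne_top M)]⟩
  obtain ⟨T, hT, hμT, hTs⟩ := hX.exists_small_section ht (δ := (M : ENNReal)⁻¹) (by simp)
  refine ⟨X × ZMod M, inferInstance, inferInstance, μ.prod ρ, inferInstance, inferInstance,
    ⟨fun g => ?_, fun g hg => ?_⟩, ?_⟩
  · exact (hX.mp g).prod (measurePreserving_add_left ρ _)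
  · convert measure_empty (μ := μ.prod ρ)
    ext p
    simp only [Set.mem_ofPred_eq, Set.mem_empty_iff_false, iff_false]
    exact fun h => hg (hX.free g p.1 (congr_arg Prod.fst h))
  · let Φ : ℕ → Γ × Set (X × ZMod M) := fun n => match n with
      | 0 => (t, Set.univ)
      | 1 => (G.a 0, T ×ˢ Set.univ)
      | 2 => (G.a 1, T ×ˢ Set.univ)
      | 3 => (G.a 2, T ×ˢ Set.univ)
      | 4 => (G.x, Set.univ ×ˢ {0})
      | 5 => (G.x, Set.univ ×ˢ {1})
      | _ + 6 => (1, ∅)
    refine le_trans (sInf_le ⟨Φ, ⟨fun i => ?_, ∅, measure_empty, fun y _ g => ?_⟩, rfl⟩) ?_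
    · match i with
      | 0 => exact MeasurableSet.univ
      | 1 | 2 | 3 => exact hT.prod MeasurableSet.univ
      | 4 | 5 => exact MeasurableSet.univ.prod (measurableSet_singleton _)
      | _ + 6 => exact MeasurableSet.empty
    · refine Cheap_gen G t χ hg0 hcomm hχg hgen Prod.snd (fun _ _ => rfl)
        (Relation.EqvGen.is_equivalence _) (fun y => .rel _ _ ⟨0, trivial, rfl⟩) (fun y => ?_)
        (fun y hy => ?_) y g
      · obtain ⟨n, hn⟩ := hTs y.1
        refine ⟨n, fun i => .rel _ _ ?_⟩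
        fin_cases i
        · exact ⟨1, ⟨hn, trivial⟩, rfl⟩
        · exact ⟨2, ⟨hn, trivial⟩, rfl⟩
        · exact ⟨3, ⟨hn, trivial⟩, rfl⟩
      · rcases hy with h | h
        · exact .rel _ _ ⟨4, ⟨trivial, h⟩, rfl⟩
        · exact .rel _ _ ⟨5, ⟨trivial, h⟩, rfl⟩
    · unfold Crest.Dynamics.graphingCost
      rw [tsum_eq_sum (s := Finset.range 6) (fun n hn => by
        obtain ⟨k, rfl⟩ : ∃ k, n = k + 6 := ⟨n - 6, by simp at hn; omega⟩
        exact measure_empty)]
      have h1 : ∀ j : ZMod M, ρ {j} = (M : ENNReal)⁻¹ := fun j => by simp [ρ]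
      simp only [Finset.sum_range_succ, Finset.sum_range_zero, Φ, Measure.prod_prod, measure_univ,
        h1, mul_one, one_mul, zero_add]
      calc _ ≤ 1 + (M : ENNReal)⁻¹ + (M : ENNReal)⁻¹ + (M : ENNReal)⁻¹ + (M : ENNReal)⁻¹ +
          (M : ENNReal)⁻¹ := by gcongr
        _ = 1 + 5 * (M : ENNReal)⁻¹ := by ring
        _ ≤ _ := by rw [div_eq_mul_inv]; gcongr; norm_num

end Crest.Agent.R191
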