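import Crest.Agent.R191.Defs

/-!
Potentials on free orbits, and the extension of a cocycle over a configuration.
-/

set_option autoImplicit false

namespace Crest.Agent.R191

open Relation

/-- The free group on three letters. -/
abbrev F3 := FreeGroup (Fin 3)

/-- The permutation computing the Fox derivative. -/
noncomputable def foxPerm (i : Fin 3) : Equiv.Perm (F3 × (F3 × Fin 3 →₀ ℝ)) where
  toFun z := (FreeGroup.of i * z.1, z.2 + Finsupp.single (z.1, i) 1)
  invFun z := ((FreeGroup.of i)⁻¹ * z.1, z.2 - Finsupp.single ((FreeGroup.of i)⁻¹ * z.1, i) 1)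
  left_inv z := by simp
  right_inv z := by simp

theorem fox_fst (h : F3) : ∀ z : F3 × (F3 × Fin 3 →₀ ℝ),
    (FreeGroup.lift foxPerm h z).1 = h * z.1 := by
  induction h using FreeGroup.induction_on with
  | C1 => intro z; simp
  | of i => intro z; simp [foxPerm]
  | inv_of i _ => intro z; simp [foxPerm]
  | mul a b ha hb => intro z; simp [ha, hb, mul_assoc]

/-- The Fox derivative. -/
noncomputable def fox (h : F3) : F3 × Fin 3 →₀ ℝ := (FreeGroup.lift foxPerm h (1, 0)).2

theorem fox_of_mul (i : Fin 3) (h : F3) :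
    fox (FreeGroup.of i * h) = fox h + Finsupp.single (h, i) 1 := by
  have := fox_fst h (1, 0)
  simp only [mul_one] at this
  simp [fox, foxPerm] at this ⊢
  simp [this]

variable {Γ X : Type} [Group Γ] [MulAction Γ X]

/-- The embedding of the free group. -/
def GData.ι (G : GData Γ) : F3 →* Γ := FreeGroup.lift G.a

@[simp] theorem GData.ι_of (G : GData Γ) (i : Fin 3) : G.ι (FreeGroup.of i) = G.a i := by
  simp [GData.ι]

theorem GData.ι_inj (G : GData Γ) : Function.Injective G.ι := G.inj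

/-- The sum of `δ` along the path from `y₀` to `ι h • y₀`. -/
noncomputable def pathSum (G : GData Γ) (δ : X → Fin 3 → ℝ) (h : F3) (y₀ : X) : ℝ :=
  ∑ z ∈ (fox h).support, fox h z * δ (G.ι z.1 • y₀) z.2

theorem pathSum_of_mul (G : GData Γ) (δ : X → Fin 3 → ℝ) (i : Fin 3) (h : F3) (y₀ : X) :
    pathSum G δ (FreeGroup.of i * h) y₀ = pathSum G δ h y₀ + δ (G.ι h • y₀) i := by
  have key : ∀ d : F3 × Fin 3 →₀ ℝ, ∑ z ∈ d.support, d z * δ (G.ι z.1 • y₀) z.2 =
      d.sum (fun z c => c * δ (G.ι z.1 • y₀) z.2) := fun d => rfl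
  unfold pathSum
  rw [key, key, fox_of_mul, Finsupp.sum_add_index' (by simp) (by intros; ring),
    Finsupp.sum_single_index (by simp)]
  simp

namespace Cfg

variable {IE IV IA : Type} {S : Shape Γ IE IV IA} (C : Cfg S X) (G : GData Γ) (D : ℕ)
  (ℓ : X → ℝ)

/-- Positions of the edge ends present at the vertex `z`. -/
def Pts (z : X × IV) : Set X :=
  {y | ∃ e, (C.act e ((S.pos e)⁻¹ • y) ∧ C.r1 z ((S.pos e)⁻¹ • y, S.out e)) ∨
    (C.act e ((G.x * S.pos e)⁻¹ • y) ∧ C.r1 z ((G.x * S.pos e)⁻¹ • y, S.inn e))}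

/-- The root of a free orbit among the positions present at `z`. -/
def IsRoot (z : X × IV) (y₀ : X) : Prop :=
  y₀ ∈ C.Pts G z ∧ ∀ h : F3, G.ι h • y₀ ∈ C.Pts G z → ℓ y₀ ≤ ℓ (G.ι h • y₀)

/-- `j` is the first side of the cell `c` outside `B`. -/
def sel (c : X) (j : Fin 3) : Prop :=
  G.g j • c ∉ C.B D ∧ ∀ j', j' < j → G.g j' • c ∈ C.B D

/-- The edge `y` has a lift ending at `z` whose starting point is not small. -/
def bigStart (z : X × IV) (y : X) : Prop :=
  ∃ e, C.act e ((S.pos e)⁻¹ • y) ∧ C.r1 z ((S.pos e)⁻¹ • y, S.inn e) ∧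
    ¬ C.small D ((S.pos e)⁻¹ • y, S.out e)

end Cfg

/-- The sum of `f` over the sides of the cell `c`. -/
def dsum (G : GData Γ) (f : X → ℝ) (c : X) : ℝ := ∑ i, f (G.g i • c)

/-- The cell containing the corner `(q, i)`. -/
def cellOf (G : GData Γ) (q : X) (i : Fin 3) : X := (G.x * G.g (i - 1))⁻¹ • q

namespace Cfg

variable {IE IV IA : Type} {S : Shape Γ IE IV IA} (C : Cfg S X) (G : GData Γ) (D : ℕ)
  (ℓ : X → ℝ)

open Classical in
/-- Which share of the defect of its cell the corner `(q, i)` at `z` carries. -/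
noncomputable def coef (z : X × IV) (q : X) (i : Fin 3) : ℝ :=
  (if C.sel G D (cellOf G q i) i then 1 else 0) +
    (if C.sel G D (cellOf G q i) (i - 1) ∧ C.bigStart D z (G.g (i - 1) • cellOf G q i)
      then 1 else 0)

/-- The prescribed value at a corner. -/
noncomputable def dcor (f : X → ℝ) (z : X × IV) (q : X) (i : Fin 3) : ℝ :=
  -C.coef G D z q i * dsum G f (cellOf G q i)

open Classical in
/-- The potential at the vertex `z`. -/
noncomputable def psi (f : X → ℝ) (z : X × IV) (y : X) : ℝ :=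
  ∑ᶠ h : F3, if C.IsRoot G ℓ z ((G.ι h)⁻¹ • y) then
    pathSum G (C.dcor G D f z) h ((G.ι h)⁻¹ • y) else 0

open Classical in
/-- The extension of `f` to a cochain on the complex. -/
noncomputable def ext (f : X → ℝ) (w : X × IE) : ℝ :=
  if C.act w.2 w.1 then
    f (S.pos w.2 • w.1) +
      (if C.small D (w.1, S.out w.2) then C.psi G D ℓ f (w.1, S.out w.2) (S.pos w.2 • w.1)
        else 0) -
      (if C.small D (w.1, S.inn w.2) then
        C.psi G D ℓ f (w.1, S.inn w.2) ((G.x * S.pos w.2) • w.1) else 0)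
  else 0

variable {C D}

theorem r1_equiv : Equivalence C.r1 := EqvGen.is_equivalence _

theorem r2_equiv : Equivalence (C.r2 D) := EqvGen.is_equivalence _

theorem r2_of_r1 {w w' : X × IV} (h : C.r1 w w') : C.r2 D w w' :=
  EqvGen.mono (fun _ _ h => Or.inl h) _ _ h

theorem r1_class {w w' : X × IV} (h : C.r1 w w') : C.r1 w = C.r1 w' := by
  funext z
  exact propext ⟨fun h' => r1_equiv.trans (r1_equiv.symm h) h', fun h' => r1_equiv.trans h h'⟩

theorem r2_class {w w' : X × IV} (h : C.r2 D w w') : C.r2 D w = C.r2 D w' := by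
  funext z
  exact propext ⟨fun h' => r2_equiv.trans (r2_equiv.symm h) h', fun h' => r2_equiv.trans h h'⟩

theorem small_congr {w w' : X × IV} (h : C.r2 D w w') : C.small D w ↔ C.small D w' := by
  unfold small
  rw [r2_class h]

theorem light_of_small {w : X × IV} (h : C.small D w) : C.light D w :=
  le_trans (Set.encard_le_encard fun _ h' => r2_of_r1 h') h.1

theorem psi_congr {z z' : X × IV} (h : C.r1 z z') (f : X → ℝ) :
    C.psi G D ℓ f z = C.psi G D ℓ f z' := by
  have h1 : C.Pts G z = C.Pts G z' := by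
    unfold Pts; rw [r1_class h]
  have h2 : C.IsRoot G ℓ z = C.IsRoot G ℓ z' := by
    unfold IsRoot; rw [h1]
  have h3 : C.bigStart D z = C.bigStart D z' := by
    unfold bigStart; rw [r1_class h]
  have h4 : C.dcor G D f z = C.dcor G D f z' := by
    unfold dcor coef; rw [h3]
  unfold psi
  rw [h2, h4]

theorem finite_Pts [Finite IE] {z : X × IV} (h : C.light D z) : (C.Pts G z).Finite := by
  have hfin : {w' | C.r1 z w'}.Finite :=
    Set.finite_of_encard_le_coe h
  have h1 : C.Pts G z ⊆ ⋃ e : IE, ((fun w : X × IV => S.pos e • w.1) '' {w' | C.r1 z w'} ∪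
      (fun w : X × IV => (G.x * S.pos e) • w.1) '' {w' | C.r1 z w'}) := by
    rintro y ⟨e, he | he⟩
    · exact Set.mem_iUnion.2 ⟨e, Or.inl ⟨_, he.2, by simp⟩⟩
    · exact Set.mem_iUnion.2 ⟨e, Or.inr ⟨_, he.2, smul_inv_smul _ _⟩⟩
  exact (Set.finite_iUnion fun e => (hfin.image _).union (hfin.image _)).subset h1

theorem exists_root {z : X × IV} (hz : (C.Pts G z).Finite) {y : X} (hy : y ∈ C.Pts G z) :
    ∃ h : F3, C.IsRoot G ℓ z ((G.ι h)⁻¹ • y) := by
  set R : Set X := {y' | y' ∈ C.Pts G z ∧ ∃ h : F3, y' = G.ι h • y} with hR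
  have hRf : R.Finite := hz.subset fun _ h => h.1
  have hRn : R.Nonempty := ⟨y, hy, 1, by simp⟩
  obtain ⟨y₀, ⟨hy₀, h, rfl⟩, hmin⟩ := Set.exists_min_image R ℓ hRf hRn
  refine ⟨h⁻¹, ?_, ?_⟩
  · simpa using hy₀
  · intro h' hh'
    simp only [map_inv, inv_inv] at hh' ⊢
    exact hmin _ ⟨hh', h' * h, by simp [mul_smul]⟩

theorem root_unique (hfree : ∀ (g : Γ) (p : X), g • p = p → g = 1) (hℓ : Function.Injective ℓ)
    {z : X × IV} {y : X} {h h' : F3} (h1 : C.IsRoot G ℓ z ((G.ι h)⁻¹ • y))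
    (h2 : C.IsRoot G ℓ z ((G.ι h')⁻¹ • y)) : h = h' := by
  have e1 : G.ι (h'⁻¹ * h) • (G.ι h)⁻¹ • y = (G.ι h')⁻¹ • y := by
    simp [mul_smul]
  have e2 : G.ι (h⁻¹ * h') • (G.ι h')⁻¹ • y = (G.ι h)⁻¹ • y := by
    simp [mul_smul]
  have l1 := h1.2 (h'⁻¹ * h) (by rw [e1]; exact h2.1)
  have l2 := h2.2 (h⁻¹ * h') (by rw [e2]; exact h1.1)
  rw [e1] at l1
  rw [e2] at l2
  have e3 : (G.ι h)⁻¹ • y = (G.ι h')⁻¹ • y := hℓ (le_antisymm l1 l2)
  rw [← e3] at e1
  have := hfree _ _ e1
  have h3 : h'⁻¹ * h = 1 := G.ι_inj (by rw [this, map_one])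
  exact (inv_mul_eq_one.mp h3).symm

theorem psi_eq (hfree : ∀ (g : Γ) (p : X), g • p = p → g = 1) (hℓ : Function.Injective ℓ)
    (f : X → ℝ) {z : X × IV} {y : X} {h : F3} (h1 : C.IsRoot G ℓ z ((G.ι h)⁻¹ • y)) :
    C.psi G D ℓ f z y = pathSum G (C.dcor G D f z) h ((G.ι h)⁻¹ • y) := by
  unfold psi
  rw [finsum_eq_single _ h]
  · rw [if_pos h1]
  · intro h' hne
    rw [if_neg]
    exact fun h2 => hne (root_unique G ℓ hfree hℓ h2 h1)

theorem psi_step (hfree : ∀ (g : Γ) (p : X), g • p = p → g = 1) (hℓ : Function.Injective ℓ)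
    (f : X → ℝ) {z : X × IV} (hz : (C.Pts G z).Finite) {q : X} (hq : q ∈ C.Pts G z)
    (i : Fin 3) : C.psi G D ℓ f z (G.a i • q) - C.psi G D ℓ f z q = C.dcor G D f z q i := by
  obtain ⟨h, hh⟩ := exists_root G ℓ hz hq
  have e1 : (G.ι (FreeGroup.of i * h))⁻¹ • G.a i • q = (G.ι h)⁻¹ • q := by
    simp [mul_smul]
  have hh' : C.IsRoot G ℓ z ((G.ι (FreeGroup.of i * h))⁻¹ • G.a i • q) := by
    rw [e1]; exact hh
  rw [psi_eq G ℓ hfree hℓ f hh, psi_eq G ℓ hfree hℓ f hh', e1, pathSum_of_mul]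
  simp

theorem ext_P1 (f : X → ℝ) : C.P1 (C.ext G D ℓ f) := by
  intro q e q' e' he he' hpos hout hinn
  have hpos' : (G.x * S.pos e) • q = (G.x * S.pos e') • q' := by
    rw [mul_smul, mul_smul, hpos]
  have s1 : C.small D (q, S.out e) ↔ C.small D (q', S.out e') := small_congr (r2_of_r1 hout)
  have s2 : C.small D (q, S.inn e) ↔ C.small D (q', S.inn e') := small_congr (r2_of_r1 hinn)
  simp only [ext, he, he', if_true, psi_congr G ℓ hout f, psi_congr G ℓ hinn f, hpos, hpos']
  by_cases h1 : C.small D (q, S.out e) <;> by_cases h2 : C.small D (q, S.inn e) <;>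
    simp [h1, h2, s1.symm.trans Iff.rfl, s2.symm.trans Iff.rfl]

theorem mem_Pts_out {z : X × IV} {e : IE} {q : X} (he : C.act e q) (hr : C.r1 z (q, S.out e)) :
    S.pos e • q ∈ C.Pts G z :=
  ⟨e, Or.inl (by rw [inv_smul_smul]; exact ⟨he, hr⟩)⟩

theorem mem_Pts_inn {z : X × IV} {e : IE} {q : X} (he : C.act e q) (hr : C.r1 z (q, S.inn e)) :
    (G.x * S.pos e) • q ∈ C.Pts G z :=
  ⟨e, Or.inr (by rw [inv_smul_smul]; exact ⟨he, hr⟩)⟩

theorem exists_sel {c : X} (hc : ¬ ∀ i, G.g i • c ∈ C.B D) :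
    ∃ j, C.sel G D c j ∧ ∀ i, C.sel G D c i → i = j := by
  classical
  push Not at hc
  have hne : (Finset.univ.filter fun i : Fin 3 => G.g i • c ∉ C.B D).Nonempty := by
    obtain ⟨i, hi⟩ := hc
    exact ⟨i, by simpa using hi⟩
  set j := (Finset.univ.filter fun i : Fin 3 => G.g i • c ∉ C.B D).min' hne with hj
  have hjm : G.g j • c ∉ C.B D := by
    have := Finset.min'_mem _ hne
    simpa using this
  have hjle : ∀ i, G.g i • c ∉ C.B D → j ≤ i := fun i hi =>
    Finset.min'_le _ _ (by simpa using hi)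
  refine ⟨j, ⟨hjm, fun j' hj' => ?_⟩, fun i hi => ?_⟩
  · by_contra h
    exact absurd (hjle j' h) (not_le.mpr hj')
  · rcases (hjle i hi.1).eq_or_lt with h | h
    · exact h.symm
    · exact absurd (hi.2 j h) hjm

theorem ext_P2 [Finite IE] (hfree : ∀ (g : Γ) (p : X), g • p = p → g = 1)
    (hℓ : Function.Injective ℓ) (f : X → ℝ)
    (hf : ∀ c, (∀ i, G.g i • c ∈ C.B D) → dsum G f c = 0) : C.P2 G (C.ext G D ℓ f) := by
  classical
  intro c q e he hpos hr
  -- the vertex before side `i`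
  set z : Fin 3 → X × IV := fun i => (q i, S.out (e i)) with hz
  have hsm : ∀ i, C.small D (q i, S.inn (e i)) ↔ C.small D (z (i + 1)) := fun i =>
    small_congr (r2_of_r1 (hr i))
  have hps : ∀ i, C.psi G D ℓ f (q i, S.inn (e i)) = C.psi G D ℓ f (z (i + 1)) := fun i =>
    psi_congr G ℓ (hr i) f
  have hpos' : ∀ i, (G.x * S.pos (e i)) • q i = (G.x * G.g i) • c := fun i => by
    rw [mul_smul, mul_smul, hpos]
  have hg' : ∀ i, G.g (i + 1) • c = G.a (i + 1) • (G.x * G.g i) • c := fun i => by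
    rw [G.hg, mul_assoc, mul_smul]
  have hcell : ∀ i, cellOf G ((G.x * G.g i) • c) (i + 1) = c := fun i => by
    simp only [cellOf, add_sub_cancel_right, inv_smul_smul]
  -- the contribution of the corner after side `i`
  set κ : Fin 3 → ℝ := fun i => if C.small D (z (i + 1)) then
    C.coef G D (z (i + 1)) ((G.x * G.g i) • c) (i + 1) else 0 with hκ
  have hstep : ∀ i, (if C.small D (z (i + 1)) then C.psi G D ℓ f (z (i + 1)) (G.g (i + 1) • c)
      else 0) - (if C.small D (z (i + 1)) then C.psi G D ℓ f (z (i + 1)) ((G.x * G.g i) • c)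
      else 0) = -κ i * dsum G f c := by
    intro i
    by_cases hs : C.small D (z (i + 1))
    · simp only [hκ, hs, if_true]
      have hq : (G.x * G.g i) • c ∈ C.Pts G (z (i + 1)) := by
        rw [← hpos']
        exact mem_Pts_inn G (he i) (r1_equiv.symm (hr i))
      rw [hg', psi_step G ℓ hfree hℓ f (finite_Pts G (light_of_small hs)) hq, dcor, hcell]
    · simp [hκ, hs]
  have hsum : ∑ i, C.ext G D ℓ f (q i, e i) = dsum G f c * (1 - ∑ i, κ i) := by
    have h1 : ∀ i, C.ext G D ℓ f (q i, e i) = f (G.g i • c) +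
        (if C.small D (z i) then C.psi G D ℓ f (z i) (G.g i • c) else 0) -
        (if C.small D (z (i + 1)) then C.psi G D ℓ f (z (i + 1)) ((G.x * G.g i) • c) else 0) := by
      intro i
      simp only [ext, he i, if_true, hsm, hps, hpos, hpos', hz]
    have h0 := hstep 0
    have h1' := hstep 1
    have h2 := hstep 2
    simp only [h1, Fin.sum_univ_three, dsum] at h0 h1' h2 ⊢
    have e0 : (0 : Fin 3) + 1 = 1 := rfl
    have e1 : (1 : Fin 3) + 1 = 2 := rfl
    have e2 : (2 : Fin 3) + 1 = 0 := rfl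
    rw [e0] at h0
    rw [e1] at h1'
    rw [e2] at h2
    rw [e0, e1, e2]
    linarith
  rw [hsum]
  by_cases hc : ∀ i, G.g i • c ∈ C.B D
  · rw [hf c hc, zero_mul]
  obtain ⟨j, hj, hju⟩ := exists_sel G hc
  have hκ' : ∀ i, κ i = (if i + 1 = j then (if C.small D (z j) then 1 else 0) else 0) +
      (if i = j then (if C.small D (z (j + 1)) ∧ C.bigStart D (z (j + 1)) (G.g j • c)
        then 1 else 0) else 0) := by
    intro i
    have s1 : C.sel G D c (i + 1) ↔ i + 1 = j := ⟨hju _, fun h => h ▸ hj⟩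
    have s2 : C.sel G D c i ↔ i = j := ⟨hju _, fun h => h ▸ hj⟩
    simp only [hκ, coef, hcell, add_sub_cancel_right, s1, s2]
    by_cases h1 : i + 1 = j <;> by_cases h2 : i = j
    · exfalso
      rw [h2] at h1
      have : ∀ j : Fin 3, j + 1 ≠ j := by decide
      exact this j h1
    · subst h1
      by_cases h3 : C.small D (z (i + 1)) <;> simp [h2, h3]
    · subst h2
      by_cases h3 : C.small D (z (i + 1)) <;> simp [h1, h3]
    · simp [h1, h2]
  have hone : (if C.small D (z j) then (1 : ℝ) else 0) +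
      (if C.small D (z (j + 1)) ∧ C.bigStart D (z (j + 1)) (G.g j • c) then 1 else 0) = 1 := by
    by_cases hs : C.small D (z j)
    · rw [if_pos hs, if_neg, add_zero]
      rintro ⟨hs', e', he', hr', hns⟩
      apply hns
      refine (small_congr (EqvGen.rel _ _ (Or.inr ⟨e j, e', he j, he', ?_, rfl, rfl, ?_, ?_⟩))).mp hs
      · simp only [hz, smul_inv_smul, hpos]
      · exact light_of_small ((hsm j).mpr hs')
      · exact r1_equiv.trans (hr j) hr'
    · have hs' : C.small D (z (j + 1)) := by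
        by_contra hs'
        exact hj.1 ⟨e j, q j, he j, hpos j, hs, fun h => hs' ((hsm j).mp h)⟩
      have hq : (S.pos (e j))⁻¹ • G.g j • c = q j := by rw [← hpos, inv_smul_smul]
      rw [if_neg hs, if_pos, zero_add]
      refine ⟨hs', e j, ?_, ?_, ?_⟩
      · rw [hq]; exact he j
      · rw [hq]; exact r1_equiv.symm (hr j)
      · rw [hq]; exact hs
  have hsumκ : ∑ i, κ i = 1 := by
    simp only [hκ', Finset.sum_add_distrib, Finset.sum_ite_eq', Finset.mem_univ, if_true]
    have : ∀ i : Fin 3, (i + 1 = j) = (i = j - 1) := fun i => propext eq_sub_iff_add_eq.symm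
    simp only [this, Finset.sum_ite_eq', Finset.mem_univ, if_true]
    exact hone
  rw [hsumκ, sub_self, mul_zero]

end Cfg

end Crest.Agent.R191
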