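import Crest.Agent.R191.Dim
import Crest.Agent.R191.CfgMeas
import Crest.Agent.R191.CoreA

/-!
The core inequality.
-/

set_option autoImplicit false

namespace Crest.Agent.R191

open MeasureTheory Relation

namespace Cfg

variable {Γ X IE IV IA : Type} [Group Γ] [Countable Γ] [MulAction Γ X] [MeasurableSpace X]
  [Fintype IE] [Fintype IV] {μ : Measure X} {S : Shape Γ IE IV IA} {C : Cfg S X}
  (G : GData Γ) (D : ℕ) {ℓ : X → ℝ}

theorem meas_Pts (hX : FreePMP Γ X μ) (hC : C.Meas) (v : IV) (u : Γ) :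
    Measurable fun q : X => u • q ∈ C.Pts G (q, v) := by
  have hr := mrel_r1 hX hC
  refine Measurable.exists fun e => Measurable.or (Measurable.and ?_ ?_) (Measurable.and ?_ ?_)
  · exact (measurableSet_setOfPred.mp (hC.act e)).comp
      ((hX.mp _).measurable.comp (hX.mp _).measurable)
  · simp only [← mul_smul]
    exact measurableSet_setOfPred.mp (hr.2 _ _ _)
  · exact (measurableSet_setOfPred.mp (hC.act e)).comp
      ((hX.mp _).measurable.comp (hX.mp _).measurable)
  · simp only [← mul_smul]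
    exact measurableSet_setOfPred.mp (hr.2 _ _ _)

theorem meas_IsRoot (hX : FreePMP Γ X μ) (hC : C.Meas) (hℓ : Measurable ℓ) (v : IV) (u : Γ) :
    Measurable fun q : X => C.IsRoot G ℓ (q, v) (u • q) := by
  refine Measurable.and (meas_Pts G hX hC v u) (Measurable.forall fun h => Measurable.imp ?_ ?_)
  · simp only [← mul_smul]
    exact meas_Pts G hX hC v _
  · exact measurableSet_setOfPred.mp (measurableSet_le (hℓ.comp (hX.mp _).measurable)
      (hℓ.comp ((hX.mp _).measurable.comp (hX.mp _).measurable)))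

theorem meas_sel (hX : FreePMP Γ X μ) (hC : C.Meas) (j : Fin 3) :
    Measurable fun c : X => C.sel G D c j := by
  have hB : Measurable fun y : X => y ∈ C.B D := (measurableSet_B hX hC D).mem
  refine Measurable.and (Measurable.not (hB.comp (hX.mp _).measurable))
    (Measurable.forall fun j' => Measurable.imp measurable_const (hB.comp (hX.mp _).measurable))

theorem meas_bigStart (hX : FreePMP Γ X μ) (hC : C.Meas) (v : IV) (u : Γ) :
    Measurable fun q : X => C.bigStart D (q, v) (u • q) := by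
  have hr := mrel_r1 hX hC
  refine Measurable.exists fun e => Measurable.and ?_ (Measurable.and ?_ (Measurable.not ?_))
  · exact (measurableSet_setOfPred.mp (hC.act e)).comp
      ((hX.mp _).measurable.comp (hX.mp _).measurable)
  · simp only [← mul_smul]
    exact measurableSet_setOfPred.mp (hr.2 _ _ _)
  · exact (measurableSet_setOfPred.mp (measurableSet_small hX hC D (S.out e))).comp
      ((hX.mp _).measurable.comp (hX.mp _).measurable)

theorem meas_coef (hX : FreePMP Γ X μ) (hC : C.Meas) (v : IV) (u : Γ) (i : Fin 3) :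
    Measurable fun q : X => C.coef G D (q, v) (u • q) i := by
  have hc : Measurable fun q : X => cellOf G (u • q) i :=
    (hX.mp _).measurable.comp (hX.mp _).measurable
  refine Measurable.add (Measurable.ite ?_ measurable_const measurable_const)
    (Measurable.ite ?_ measurable_const measurable_const)
  · exact measurableSet_setOfPred.mpr ((meas_sel G D hX hC i).comp hc)
  · refine measurableSet_setOfPred.mpr (Measurable.and ((meas_sel G D hX hC (i - 1)).comp hc) ?_)
    simp only [cellOf, ← mul_smul]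
    exact meas_bigStart D hX hC v _

omit [Countable Γ] [MeasurableSpace X] [Fintype IE] [Fintype IV] in
theorem abs_coef_le (z : X × IV) (q : X) (i : Fin 3) : |-C.coef G D z q i| ≤ 2 := by
  unfold coef
  split_ifs <;> norm_num

omit [Countable Γ] in
theorem _root_.Crest.Agent.R191.isBR_dsum (u : Γ) :
    IsBR Γ (fun (f : X → ℝ) (q : X) => dsum G f (u • q)) := by
  simp only [dsum, ← mul_smul]
  exact IsBR.sum _ fun i _ => IsBR.shift _

theorem isBR_dcor (hX : FreePMP Γ X μ) (hC : C.Meas) (v : IV) (u : Γ) (i : Fin 3) :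
    IsBR Γ (fun (f : X → ℝ) (q : X) => C.dcor G D f (q, v) (u • q) i) := by
  have h1 : IsBR Γ (fun (f : X → ℝ) (q : X) => dsum G f (cellOf G (u • q) i)) := by
    simp only [cellOf, ← mul_smul]
    exact isBR_dsum G _
  exact h1.mul (meas_coef G D hX hC v u i).neg fun q => abs_coef_le G D _ _ _

open Classical in
theorem isBR_psi (hX : FreePMP Γ X μ) (hC : C.Meas) (hℓ : Measurable ℓ) (v : IV) (u : Γ) :
    IsBR Γ (fun (f : X → ℝ) (q : X) =>
      if C.small D (q, v) then C.psi G D ℓ f (q, v) (u • q) else 0) := by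
  obtain ⟨F', hF'⟩ := exists_range_of_encard_le (X := X) (I := IV) S.rng D
  have hrng := hF' C.adj1 (fun w w' ⟨h, h1, h2⟩ => ⟨h, C.mrg_rng _ _ _ _ h2, h1⟩)
  set F₁ : Finset Γ := (Finset.univ ×ˢ F').image (fun z : IE × Γ => u * (S.pos z.1 * z.2)⁻¹) ∪
    (Finset.univ ×ˢ F').image (fun z : IE × Γ => u * (G.x * S.pos z.1 * z.2)⁻¹) with hF₁
  set H₀ : Finset F3 := F₁.preimage G.ι G.ι_inj.injOn with hH₀
  have key : ∀ (f : X → ℝ) (q : X), C.small D (q, v) → C.psi G D ℓ f (q, v) (u • q) =
      ∑ h ∈ H₀, if C.IsRoot G ℓ (q, v) (((G.ι h)⁻¹ * u) • q) then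
        ∑ z ∈ (fox h).support,
          fox h z * C.dcor G D f (q, v) ((G.ι z.1 * ((G.ι h)⁻¹ * u)) • q) z.2 else 0 := by
    intro f q hs
    unfold psi
    rw [finsum_eq_sum_of_support_subset (s := H₀)]
    · simp only [pathSum, mul_smul]
    · intro h hh
      have hroot : C.IsRoot G ℓ (q, v) ((G.ι h)⁻¹ • u • q) := by
        by_contra hn
        exact hh (if_neg hn)
      rw [Finset.mem_coe, hH₀, Finset.mem_preimage, hF₁, Finset.mem_union, Finset.mem_image,
        Finset.mem_image]
      obtain ⟨e, he | he⟩ := hroot.1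
      · obtain ⟨k, hk, hk'⟩ := hrng _ _ (light_of_small hs) he.2
        refine Or.inl ⟨(e, k), by simpa using hk, ?_⟩
        have h1 : (k⁻¹ * ((S.pos e)⁻¹ * ((G.ι h)⁻¹ * u))) • q = q := by
          simp only [mul_smul] at hk' ⊢
          rw [hk', inv_smul_smul]
        have h2 := hX.free _ _ h1
        have h3 : G.ι h = u * (S.pos e * k)⁻¹ := by
          calc G.ι h = u * (k⁻¹ * ((S.pos e)⁻¹ * ((G.ι h)⁻¹ * u)))⁻¹ * (S.pos e * k)⁻¹ := by group
            _ = _ := by rw [h2]; group
        exact h3.symm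
      · obtain ⟨k, hk, hk'⟩ := hrng _ _ (light_of_small hs) he.2
        refine Or.inr ⟨(e, k), by simpa using hk, ?_⟩
        have h1 : (k⁻¹ * ((G.x * S.pos e)⁻¹ * ((G.ι h)⁻¹ * u))) • q = q := by
          simp only [mul_smul] at hk' ⊢
          rw [hk', inv_smul_smul]
        have h2 := hX.free _ _ h1
        have h3 : G.ι h = u * (G.x * S.pos e * k)⁻¹ := by
          calc G.ι h = u * (k⁻¹ * ((G.x * S.pos e)⁻¹ * ((G.ι h)⁻¹ * u)))⁻¹ *
                (G.x * S.pos e * k)⁻¹ := by group
            _ = _ := by rw [h2]; group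
        exact h3.symm
  have h1 : IsBR Γ (fun (f : X → ℝ) (q : X) => if C.small D (q, v) then
      ∑ h ∈ H₀, if C.IsRoot G ℓ (q, v) (((G.ι h)⁻¹ * u) • q) then
        ∑ z ∈ (fox h).support,
          fox h z * C.dcor G D f (q, v) ((G.ι z.1 * ((G.ι h)⁻¹ * u)) • q) z.2 else 0 else 0) := by
    refine IsBR.ite (IsBR.sum _ fun h _ => IsBR.ite (IsBR.sum _ fun z _ => ?_) ?_)
      (measurableSet_small hX hC D v)
    · exact (isBR_dcor G D hX hC v _ _).const_mul _
    · exact measurableSet_setOfPred.mpr (meas_IsRoot G hX hC hℓ v _)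
  convert h1 using 3 with f q
  split_ifs with hs
  · exact key f q hs
  · rfl

theorem isBR_ext (hX : FreePMP Γ X μ) (hC : C.Meas) (hℓ : Measurable ℓ) (e : IE) :
    IsBR Γ (fun (f : X → ℝ) (q : X) => C.ext G D ℓ f (q, e)) :=
  IsBR.ite (((IsBR.shift (S.pos e)).add (isBR_psi G D hX hC hℓ (S.out e) (S.pos e))).sub
    (isBR_psi G D hX hC hℓ (S.inn e) (G.x * S.pos e))) (hC.act e)

theorem isBR_pot (hX : FreePMP Γ X μ) (hC : C.Meas) (hℓ : Measurable ℓ) (v : IV) :
    IsBR Γ (fun (f : X → ℝ) (q : X) => S.pot (C.ext G D ℓ f) (q, v)) :=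
  IsBR.sum _ fun e _ => (isBR_ext G D hX hC hℓ e).const_mul (S.φc v e)

theorem isBR_tot (hX : FreePMP Γ X μ) (hC : C.Meas) (hℓ : Measurable ℓ) (j : IA) :
    IsBR Γ (fun (f : X → ℝ) (q : X) => S.tot (C.ext G D ℓ f) q j) :=
  IsBR.sum _ fun e _ => (isBR_ext G D hX hC hℓ e).const_mul _

omit [Countable Γ] [MeasurableSpace X] [Fintype IV] in
theorem pot_eq_of_r2 (hG : C.Good G) (f : X → ℝ)
    (h1 : ∀ w w', C.adj1 w w' → S.pot (C.ext G D ℓ f) w = S.pot (C.ext G D ℓ f) w')
    {w w' : X × IV} (h : C.r2 D w w') (hw : ¬ C.small D w) :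
    S.pot (C.ext G D ℓ f) w = S.pot (C.ext G D ℓ f) w' := by
  have hr1 : ∀ w w', C.r1 w w' → S.pot (C.ext G D ℓ f) w = S.pot (C.ext G D ℓ f) w' := by
    intro w w' h
    induction h with
    | rel _ _ h => exact h1 _ _ h
    | refl => rfl
    | symm _ _ _ ih => exact ih.symm
    | trans _ _ _ _ _ ih1 ih2 => exact ih1.trans ih2
  induction h with
  | rel w w' h =>
    have hw' : ¬ C.small D w' := fun h' => hw ((small_congr (EqvGen.rel _ _ h)).mpr h')
    rcases h with h | ⟨e, e', he, he', hpos, hv, hv', -, hr⟩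
    · exact h1 _ _ h
    · obtain ⟨q, v⟩ := w
      obtain ⟨q', v'⟩ := w'
      simp only at he he' hpos hv hv' hr
      subst hv hv'
      have d1 := hG.dpot (C.ext G D ℓ f) e q he
      have d2 := hG.dpot (C.ext G D ℓ f) e' q' he'
      have d3 := hr1 _ _ hr
      have hpos' : (G.x * S.pos e) • q = (G.x * S.pos e') • q' := by
        rw [mul_smul, mul_smul, hpos]
      have s2 : C.small D (q', S.inn e') ↔ C.small D (q, S.inn e) :=
        (small_congr (r2_of_r1 hr)).symm
      have d4 : C.ext G D ℓ f (q, e) = C.ext G D ℓ f (q', e') := by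
        simp only [ext, he, he', hw, hw', if_true, if_false, psi_congr G ℓ hr f, hpos, hpos']
        by_cases h2 : C.small D (q, S.inn e) <;> simp [h2, s2]
      linarith
  | refl => rfl
  | symm w w' h ih => exact (ih fun h' => hw ((small_congr h).mp h')).symm
  | trans w w' w'' h h' ih1 ih2 =>
    exact (ih1 hw).trans (ih2 fun h'' => hw ((small_congr h).mpr h''))

end Cfg

theorem eq_zero_of_const_of_summable {X IV : Type} [Finite IV] (g : X × IV → ℝ)
    (hg : ∀ v, Summable fun q => g (q, v) ^ 2) {Q : Set (X × IV)} (hQ : Q.Infinite) {c : ℝ}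
    (hc : ∀ w ∈ Q, g w = c) : c = 0 := by
  by_contra hne
  apply hQ
  have hpos : 0 < c ^ 2 := by positivity
  have hfin : ∀ v, {q | g (q, v) = c}.Finite := by
    intro v
    have h1 := (hg v).tendsto_cofinite_zero
    have h2 := h1.eventually (gt_mem_nhds hpos)
    rw [Filter.eventually_cofinite] at h2
    refine h2.subset fun q hq => ?_
    simp only [Set.mem_ofPred_eq] at hq ⊢
    rw [hq]
    exact lt_irrefl _
  refine (Set.finite_iUnion fun v => (hfin v).image (fun q => (q, v))).subset ?_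
  rintro ⟨q, v⟩ hw
  exact Set.mem_iUnion.2 ⟨v, q, hc _ hw, rfl⟩

theorem core_ineq {Γ X IE IV IA : Type} [Group Γ] [Countable Γ] [MulAction Γ X]
    [MeasurableSpace X] [StandardBorelSpace X] [Fintype IE] [Fintype IV] [Fintype IA]
    {μ : Measure X} [IsProbabilityMeasure μ] (hX : FreePMP Γ X μ) (G : GData Γ)
    {S : Shape Γ IE IV IA} (C : Cfg S X) (hC : C.Meas) (hG : C.Good G) (D : ℕ) (hD : 0 < D) :
    μ (C.B D) ≤ μ {c | ∀ i, G.g i • c ∈ C.B D} + ∑ j, μ {p | C.actA j p} +
      (Fintype.card IV : ENNReal) / D := by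
  classical
  set ℓ : X → ℝ := embeddingReal X with hℓ
  have hℓm : Measurable ℓ := (measurableEmbedding_embeddingReal X).measurable
  have hℓi : Function.Injective ℓ := (measurableEmbedding_embeddingReal X).injective
  obtain ⟨Rep, hRm, hRd, hRep⟩ := (Cfg.mrel_r2 hX hC D).exists_reps hX Cfg.r2_equiv D
  have hBm := Cfg.measurableSet_B hX hC D
  set S' : Unit ⊕ IA ⊕ IV → Set X := Sum.elim (fun _ => {c | ∀ i, G.g i • c ∈ C.B D})
    (Sum.elim (fun j => {p | C.actA j p}) Rep) with hS'
  set T₀ : Unit ⊕ IA ⊕ IV → (X → ℝ) → X → ℝ := Sum.elim (fun _ f c => dsum G f c)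
    (Sum.elim (fun j f p => S.tot (C.ext G D ℓ f) p j)
      (fun v f p => S.pot (C.ext G D ℓ f) (p, v))) with hT₀
  have hS'm : ∀ i, MeasurableSet (S' i) := by
    rintro (_ | j | v)
    · exact measurableSet_setOfPred.mpr
        (Measurable.forall fun i => hBm.mem.comp (hX.mp _).measurable)
    · exact hC.actA j
    · exact hRm v
  have hT₀br : ∀ i, IsBR Γ (T₀ i) := by
    rintro (_ | j | v)
    · have := isBR_dsum (X := X) G 1
      simp only [one_smul] at this
      exact this
    · exact Cfg.isBR_tot G D hX hC hℓm j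
    · exact Cfg.isBR_pot G D hX hC hℓm v
  have hdim := dim_le hX (fun i f p => if p ∈ S' i then T₀ i f p else 0)
    (fun i => (hT₀br i).ite (hS'm i)) (C.B D) hBm S' hS'm (fun i f p hp => if_neg hp) ?_
  · refine hdim.trans ?_
    rw [Fintype.sum_sum_type, Fintype.sum_sum_type, add_assoc]
    simp only [hS', Sum.elim_inl, Sum.elim_inr, Finset.univ_unique, Finset.sum_singleton]
    gcongr
    rw [ENNReal.le_div_iff_mul_le (Or.inl (by exact_mod_cast hD.ne')) (Or.inl (by simp)), mul_comm]
    exact hRd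
  intro f hf hsupp hT
  have hT' : ∀ i p, p ∈ S' i → T₀ i f p = 0 := fun i p hp => by
    have := hT i p
    rwa [if_pos hp] at this
  have hP1 := Cfg.ext_P1 (C := C) (D := D) G ℓ f
  have hP2 := Cfg.ext_P2 (C := C) (D := D) G ℓ hX.free hℓi f
    (fun c hc => hT' (Sum.inl ()) c hc)
  obtain ⟨hadj, hbig⟩ := hG.closed _ hP1 hP2 (fun p j hp => hT' (Sum.inr (Sum.inl j)) p hp)
    (fun p e he => if_neg he)
  have hzero : ∀ w, ¬ C.small D w → S.pot (C.ext G D ℓ f) w = 0 := by
    intro w hw
    have hconst : ∀ w', C.r2 D w w' → S.pot (C.ext G D ℓ f) w' = S.pot (C.ext G D ℓ f) w :=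
      fun w' h => (Cfg.pot_eq_of_r2 G D hG f hadj h hw).symm
    by_cases hb : ∃ w', C.r2 D w w' ∧ S.big w'.2
    · obtain ⟨w', h1, h2⟩ := hb
      rw [← hconst w' h1]
      exact hbig w'.1 w'.2 h2
    have hcard : (D : ℕ∞) < {w' | C.r2 D w w'}.encard := by
      by_contra hle
      exact hw ⟨not_lt.mp hle, fun w' h1 h2 => hb ⟨w', h1, h2⟩⟩
    by_cases hfin : {w' | C.r2 D w w'}.Finite
    · obtain ⟨w', h1, h2⟩ := hRep w hfin hcard
      rw [← hconst w' h1]
      exact hT' (Sum.inr (Sum.inr w'.2)) w'.1 h2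
    · exact eq_zero_of_const_of_summable _
        (fun v => (Cfg.isBR_pot G D hX hC hℓm v).summable_sq hf) hfin hconst
  intro y
  by_cases hy : y ∈ C.B D
  · obtain ⟨e, q, he, rfl, ho, hi⟩ := hy
    have d1 := hG.dpot (C.ext G D ℓ f) e q he
    rw [hzero _ ho, hzero _ hi] at d1
    simp only [Cfg.ext, he, ho, hi, if_true, if_false] at d1
    linarith
  · exact hsupp y hy

end Crest.Agent.R191
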