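import Mathlib
import Crest.Prelude.Def_Cost

/-!
Row 191 (fixed price fails): shared definitions.
-/

set_option autoImplicit false

namespace Crest.Agent.R191

open MeasureTheory Relation

/-- An everywhere free, measure preserving action. -/
structure FreePMP (Γ X : Type) [Group Γ] [MulAction Γ X] [MeasurableSpace X]
    (μ : Measure X) : Prop where
  mp : ∀ g : Γ, MeasurePreserving (fun p : X => g • p) μ μ
  free : ∀ (g : Γ) (p : X), g • p = p → g = 1

/-- Bounded-range operators on real functions on `X`. -/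
def IsBR (Γ : Type) {X : Type} [Group Γ] [MulAction Γ X] [MeasurableSpace X]
    (T : (X → ℝ) → X → ℝ) : Prop :=
  ∃ (F : Finset Γ) (K : Γ → X → ℝ) (C : ℝ), (∀ h, Measurable (K h)) ∧ (∀ h p, |K h p| ≤ C) ∧
    ∀ f p, T f p = ∑ h ∈ F, K h p * f (h • p)

/-- A relation on `X × I` that stays inside orbits and is measurable. -/
def MRel (Γ : Type) {X I : Type} [Group Γ] [MulAction Γ X] [MeasurableSpace X]
    (R : X × I → X × I → Prop) : Prop :=
  (∀ w w', R w w' → ∃ h : Γ, w'.1 = h • w.1) ∧
    ∀ (h : Γ) (i i' : I), MeasurableSet {p : X | R (p, i) (h • p, i')}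

/-- Group data: the letter `x`, the corner elements `a i` (free), and the prefixes `g i` of the
relator, cyclically `g (i+1) = a (i+1) * x * g i`. -/
structure GData (Γ : Type) [Group Γ] where
  x : Γ
  a : Fin 3 → Γ
  g : Fin 3 → Γ
  hg : ∀ i, g (i + 1) = a (i + 1) * x * g i
  inj : Function.Injective (FreeGroup.lift a : FreeGroup (Fin 3) →* Γ)

/-- Words: lists of signed `x`-edges; `(g, true)` is the edge from `g` to `x * g`, and
`(g, false)` is the same edge run backwards. -/
abbrev Word (Γ : Type) := List (Γ × Bool)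

section Words

variable {Γ : Type} [Group Γ]

/-- Starting point of a signed edge. -/
def src (x : Γ) (l : Γ × Bool) : Γ := if l.2 then l.1 else x * l.1

/-- End point of a signed edge. -/
def tgt (x : Γ) (l : Γ × Bool) : Γ := if l.2 then x * l.1 else l.1

/-- `IsPath A x u W v`: the word `W` is a path from the coset `A u` to the coset `A v`. -/
def IsPath (A : Subgroup Γ) (x : Γ) : Γ → Word Γ → Γ → Prop
  | u, [], v => u * v⁻¹ ∈ A
  | u, l :: W, v => u * (src x l)⁻¹ ∈ A ∧ IsPath A x (tgt x l) W v

/-- The boundary word of the cell at `c`. -/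
def cellWord (G : GData Γ) (c : Γ) : Word Γ :=
  [(G.g 0 * c, true), (G.g 1 * c, true), (G.g 2 * c, true)]

/-- Elementary homotopies (long word, short word): delete a backtrack or a cell boundary. -/
inductive Hom0 (G : GData Γ) : Word Γ → Word Γ → Prop
  | back (α β : Word Γ) (g : Γ) (ε : Bool) : Hom0 G (α ++ [(g, ε), (g, !ε)] ++ β) (α ++ β)
  | cell (α β : Word Γ) (c : Γ) : Hom0 G (α ++ cellWord G c ++ β) (α ++ β)

/-- Any two paths with the same end points are homotopic. -/
def SimplyConn (G : GData Γ) (A : Subgroup Γ) : Prop :=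
  ∀ (u v : Γ) (W W' : Word Γ), IsPath A G.x u W v → IsPath A G.x u W' v → EqvGen (Hom0 G) W W'

/-- Every coset is reached by a path. -/
def PathConn (G : GData Γ) (A : Subgroup Γ) : Prop :=
  ∀ h : Γ, ∃ W : Word Γ, IsPath A G.x 1 W h

end Words

/-- One step of the relation generated by `A` and the arcs `D`. -/
def ArcStep {Γ X : Type} [Group Γ] [MulAction Γ X] (A : Subgroup Γ) (D : Γ → Set X)
    (y y' : X) : Prop :=
  (∃ a ∈ A, y' = a • y) ∨ ∃ h : Γ, y ∈ D h ∧ y' = h • y

/-- The static part of a finite-type complex over the action: edge types `IE`, pre-vertex types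
`IV`, arc types `IA`.  The edge `(p, e)` lies over the `x`-edge at `pos e • p` and runs from the
pre-vertex `(p, out e)` to `(p, inn e)`. -/
structure Shape (Γ IE IV IA : Type) where
  pos : IE → Γ
  out : IE → IV
  inn : IE → IV
  big : IV → Prop
  rng : Finset Γ
  φc : IV → IE → ℝ
  Λc : IA → IE → ℝ

/-- The dynamic part: which edges and arcs are active, and which pre-vertices are merged
(`mrg v v' h p` merges `(p, v)` with `(h • p, v')`). -/
structure Cfg {Γ IE IV IA : Type} (S : Shape Γ IE IV IA) (X : Type) where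
  act : IE → X → Prop
  mrg : IV → IV → Γ → X → Prop
  actA : IA → X → Prop
  mrg_rng : ∀ v v' h p, mrg v v' h p → h ∈ S.rng

namespace Cfg

variable {Γ IE IV IA X : Type} [Group Γ] [MulAction Γ X] {S : Shape Γ IE IV IA} (C : Cfg S X)

/-- Direct merges. -/
def adj1 (w w' : X × IV) : Prop := ∃ h : Γ, w'.1 = h • w.1 ∧ C.mrg w.2 w'.2 h w.1

/-- Vertices of the complex: classes of pre-vertices. -/
def r1 : X × IV → X × IV → Prop := EqvGen C.adj1

/-- The vertex has at most `D` pre-vertices. -/
def light (D : ℕ) (w : X × IV) : Prop := {w' | C.r1 w w'}.encard ≤ D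

/-- Merges, and pending folds at light vertices: two active lifts of one edge ending at the same
light vertex link their starting points. -/
def adj2 (D : ℕ) (w w' : X × IV) : Prop :=
  C.adj1 w w' ∨ ∃ (e e' : IE), C.act e w.1 ∧ C.act e' w'.1 ∧ S.pos e • w.1 = S.pos e' • w'.1 ∧
    w.2 = S.out e ∧ w'.2 = S.out e' ∧ C.light D (w.1, S.inn e) ∧
    C.r1 (w.1, S.inn e) (w'.1, S.inn e')

/-- Virtual classes. -/
def r2 (D : ℕ) : X × IV → X × IV → Prop := EqvGen (C.adj2 D)

/-- Small status: the virtual class has at most `D` elements and none is truly big. -/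
def small (D : ℕ) (w : X × IV) : Prop :=
  {w' | C.r2 D w w'}.encard ≤ D ∧ ∀ w', C.r2 D w w' → ¬ S.big w'.2

/-- The `x`-edges having an active lift between two vertices that are not small. -/
def B (D : ℕ) : Set X :=
  {y | ∃ (e : IE) (q : X), C.act e q ∧ S.pos e • q = y ∧ ¬ C.small D (q, S.out e) ∧
    ¬ C.small D (q, S.inn e)}

/-- Measurability of the dynamic data. -/
structure Meas [MeasurableSpace X] : Prop where
  act : ∀ e, MeasurableSet {p | C.act e p}
  mrg : ∀ v v' h, MeasurableSet {p | C.mrg v v' h p}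
  actA : ∀ j, MeasurableSet {p | C.actA j p}

/-- A cochain takes the same value on two parallel lifts of one edge. -/
def P1 (L : X × IE → ℝ) : Prop :=
  ∀ (q : X) (e : IE) (q' : X) (e' : IE), C.act e q → C.act e' q' → S.pos e • q = S.pos e' • q' →
    C.r1 (q, S.out e) (q', S.out e') → C.r1 (q, S.inn e) (q', S.inn e') → L (q, e) = L (q', e')

/-- A cochain sums to zero around every closed lift of a cell boundary. -/
def P2 (G : GData Γ) (L : X × IE → ℝ) : Prop :=
  ∀ (c : X) (q : Fin 3 → X) (e : Fin 3 → IE), (∀ i, C.act (e i) (q i)) →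
    (∀ i, S.pos (e i) • q i = G.g i • c) →
    (∀ i, C.r1 (q i, S.inn (e i)) (q (i + 1), S.out (e (i + 1)))) → ∑ i, L (q i, e i) = 0

end Cfg

/-- The potential of a cochain at a pre-vertex. -/
def Shape.pot {Γ IE IV IA X : Type} [Fintype IE] (S : Shape Γ IE IV IA) (L : X × IE → ℝ)
    (w : X × IV) : ℝ :=
  ∑ e, S.φc w.2 e * L (w.1, e)

/-- The total of a cochain along an arc. -/
def Shape.tot {Γ IE IV IA X : Type} [Fintype IE] (S : Shape Γ IE IV IA) (L : X × IE → ℝ)
    (p : X) (j : IA) : ℝ :=
  ∑ e, S.Λc j e * L (p, e)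

/-- The complex is simply connected relative to its arcs and big vertices. -/
structure Cfg.Good {Γ IE IV IA X : Type} [Group Γ] [MulAction Γ X] [Fintype IE]
    {S : Shape Γ IE IV IA} (C : Cfg S X) (G : GData Γ) : Prop where
  dpot : ∀ (L : X × IE → ℝ) (e : IE) (p : X), C.act e p →
    S.pot L (p, S.inn e) - S.pot L (p, S.out e) = L (p, e)
  closed : ∀ L : X × IE → ℝ, C.P1 L → C.P2 G L → (∀ p j, C.actA j p → S.tot L p j = 0) →
    (∀ p e, ¬ C.act e p → L (p, e) = 0) →
    (∀ w w', C.adj1 w w' → S.pot L w = S.pot L w') ∧ (∀ p v, S.big v → S.pot L (p, v) = 0)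

/-- Small-set expansion for the pair `u, v`. -/
def Expands {Γ X : Type} [Group Γ] [MulAction Γ X] [MeasurableSpace X] (μ : Measure X)
    (u v : Γ) : Prop :=
  ∀ B : Set X, MeasurableSet B →
    μ.real {c | c ∈ B ∧ u • c ∈ B ∧ v • c ∈ B} ≤ μ.real B - μ.real B * (1 - μ.real B) / 1000

end Crest.Agent.R191
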