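import Mathlib

/-!
Abstract Hilbert space part of the dimension inequality.
-/

set_option autoImplicit false

namespace Crest.Agent.R191

open Filter Topology ContinuousLinearMap
open scoped RealInnerProductSpace

section Abs

variable {H : Type*} [NormedAddCommGroup H] [InnerProductSpace ℝ H] [CompleteSpace H]
  {I : Type*} [Fintype I]

/-- `Q = ∑ Tᵢ* Tᵢ`. -/
noncomputable def dimQ (T : I → H →L[ℝ] H) : H →L[ℝ] H := ∑ i, (adjoint (T i)) ∘L (T i)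

/-- `M = 1 - c Q`. -/
noncomputable def dimM (T : I → H →L[ℝ] H) (c : ℝ) : H →L[ℝ] H := 1 - c • dimQ T

/-- `P n = c ∑_{m<n} M^m`. -/
noncomputable def dimP (T : I → H →L[ℝ] H) (c : ℝ) (n : ℕ) : H →L[ℝ] H :=
  c • ∑ m ∈ Finset.range n, dimM T c ^ m

theorem dimQ_inner (T : I → H →L[ℝ] H) (x y : H) :
    ⟪dimQ T x, y⟫ = ∑ i, ⟪T i x, T i y⟫ := by
  simp [dimQ, sum_inner, adjoint_inner_left]

theorem dimQ_inner_self (T : I → H →L[ℝ] H) (x : H) :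
    ⟪dimQ T x, x⟫ = ∑ i, ‖T i x‖ ^ 2 := by
  simp [dimQ_inner]

theorem dimQ_symm (T : I → H →L[ℝ] H) (x y : H) : ⟪dimQ T x, y⟫ = ⟪x, dimQ T y⟫ := by
  rw [dimQ_inner, real_inner_comm, dimQ_inner]
  simp [real_inner_comm]

theorem dimM_apply (T : I → H →L[ℝ] H) (c : ℝ) (x : H) : dimM T c x = x - c • dimQ T x := by
  simp [dimM]

theorem dimM_symm (T : I → H →L[ℝ] H) (c : ℝ) (x y : H) :
    ⟪dimM T c x, y⟫ = ⟪x, dimM T c y⟫ := by
  simp only [dimM_apply, inner_sub_left, inner_sub_right, real_inner_smul_left,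
    real_inner_smul_right, dimQ_symm]

theorem dimM_pow_symm (T : I → H →L[ℝ] H) (c : ℝ) (n : ℕ) (x y : H) :
    ⟪(dimM T c ^ n) x, y⟫ = ⟪x, (dimM T c ^ n) y⟫ := by
  induction n generalizing x y with
  | zero => simp
  | succ n ih =>
    conv_lhs => rw [pow_succ']
    conv_rhs => rw [pow_succ]
    simp only [mul_apply_eq_comp]
    rw [dimM_symm, ih]

omit [CompleteSpace H] in
theorem dim_sum_sq_le (T : I → H →L[ℝ] H) (x : H) :
    ∑ i, ‖T i x‖ ^ 2 ≤ (∑ i, ‖T i‖ ^ 2) * ‖x‖ ^ 2 := by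
  rw [Finset.sum_mul]
  refine Finset.sum_le_sum fun i _ => ?_
  rw [← mul_pow]
  exact pow_le_pow_left₀ (norm_nonneg _) ((T i).le_opNorm x) 2

theorem dimM_nonneg (T : I → H →L[ℝ] H) {c : ℝ} (hc : 0 ≤ c) (hc1 : c * ∑ i, ‖T i‖ ^ 2 ≤ 1)
    (x : H) : 0 ≤ ⟪dimM T c x, x⟫ := by
  rw [dimM_apply, inner_sub_left, real_inner_smul_left, dimQ_inner_self, real_inner_self_eq_norm_sq]
  have h1 := mul_le_mul_of_nonneg_left (dim_sum_sq_le T x) hc
  have h2 := mul_le_mul_of_nonneg_right hc1 (sq_nonneg ‖x‖)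
  nlinarith

theorem dimM_pow_nonneg (T : I → H →L[ℝ] H) {c : ℝ} (hc : 0 ≤ c)
    (hc1 : c * ∑ i, ‖T i‖ ^ 2 ≤ 1) (n : ℕ) (x : H) : 0 ≤ ⟪(dimM T c ^ n) x, x⟫ := by
  rcases Nat.even_or_odd' n with ⟨k, rfl | rfl⟩
  · rw [two_mul, pow_add, mul_apply_eq_comp, dimM_pow_symm]
    exact real_inner_self_nonneg
  · rw [show 2 * k + 1 = k + (1 + k) by ring, pow_add, pow_add, pow_one, mul_apply_eq_comp, mul_apply_eq_comp,
      dimM_pow_symm]
    exact dimM_nonneg T hc hc1 _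

theorem dimQ_norm_sq_le (T : I → H →L[ℝ] H) (x : H) :
    ‖dimQ T x‖ ^ 2 ≤ (∑ i, ‖T i‖ ^ 2) * ∑ i, ‖T i x‖ ^ 2 := by
  have h1 : ‖dimQ T x‖ ≤ ∑ i, ‖T i‖ * ‖T i x‖ := by
    simp only [dimQ, sum_apply]
    refine (norm_sum_le _ _).trans (Finset.sum_le_sum fun i _ => ?_)
    have := (adjoint (T i)).le_opNorm (T i x)
    rwa [LinearIsometryEquiv.norm_map] at this
  exact (pow_le_pow_left₀ (norm_nonneg _) h1 2).trans (Finset.sum_mul_sq_le_sq_mul_sq _ _ _)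

theorem dimM_norm_le (T : I → H →L[ℝ] H) {c : ℝ} (hc : 0 ≤ c)
    (hc1 : c * ∑ i, ‖T i‖ ^ 2 ≤ 1) : ‖dimM T c‖ ≤ 1 := by
  refine opNorm_le_bound _ zero_le_one fun x => ?_
  rw [one_mul]
  refine le_of_pow_le_pow_left₀ two_ne_zero (norm_nonneg _) ?_
  rw [dimM_apply, norm_sub_sq_real, real_inner_smul_right, real_inner_comm, dimQ_inner_self,
    norm_smul, mul_pow, Real.norm_eq_abs, sq_abs]
  have h1 := dimQ_norm_sq_le T x
  have h0 : 0 ≤ ∑ i, ‖T i x‖ ^ 2 := Finset.sum_nonneg fun i _ => sq_nonneg _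
  have h2 : c ^ 2 * ‖dimQ T x‖ ^ 2 ≤ c * ∑ i, ‖T i x‖ ^ 2 := by
    calc c ^ 2 * ‖dimQ T x‖ ^ 2 ≤ c ^ 2 * ((∑ i, ‖T i‖ ^ 2) * ∑ i, ‖T i x‖ ^ 2) :=
          mul_le_mul_of_nonneg_left h1 (sq_nonneg c)
      _ = (c * ∑ i, ‖T i‖ ^ 2) * (c * ∑ i, ‖T i x‖ ^ 2) := by ring
      _ ≤ 1 * (c * ∑ i, ‖T i x‖ ^ 2) := mul_le_mul_of_nonneg_right hc1 (mul_nonneg hc h0)
      _ = _ := one_mul _
  nlinarith [mul_nonneg hc h0]

theorem dimP_mul_Q (T : I → H →L[ℝ] H) (c : ℝ) (n : ℕ) :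
    dimP T c n * dimQ T = 1 - dimM T c ^ n := by
  have h := geom_sum_mul_neg (dimM T c) n
  rw [← h, dimP, smul_mul_assoc, ← mul_smul_comm]
  congr 1
  simp [dimM]

theorem dimQ_mul_P (T : I → H →L[ℝ] H) (c : ℝ) (n : ℕ) :
    dimQ T * dimP T c n = 1 - dimM T c ^ n := by
  have h := mul_neg_geom_sum (dimM T c) n
  rw [← h, dimP, mul_smul_comm, ← smul_mul_assoc]
  congr 1
  simp [dimM]

theorem dim_corner_le (T : I → H →L[ℝ] H) {c : ℝ} (hc : 0 ≤ c)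
    (hc1 : c * ∑ i, ‖T i‖ ^ 2 ≤ 1) (n : ℕ) (i : I) (y : H) :
    ⟪T i (dimP T c n (adjoint (T i) y)), y⟫ ≤ ‖y‖ ^ 2 := by
  set u := adjoint (T i) y with hu
  set v := dimP T c n u with hv
  have ha : ⟪T i v, y⟫ = ⟪u, v⟫ := by
    rw [hu, adjoint_inner_left, real_inner_comm]
  have hQ : dimQ T v = u - (dimM T c ^ n) u := by
    have := congrArg (fun A : H →L[ℝ] H => A u) (dimQ_mul_P T c n)
    simpa using this
  have hpos : 0 ≤ ⟪(dimM T c ^ n) u, v⟫ := by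
    rw [hv, dimP]
    simp only [smul_apply, sum_apply,
      real_inner_smul_right, inner_sum]
    refine mul_nonneg hc (Finset.sum_nonneg fun m _ => ?_)
    rw [← dimM_pow_symm, ← mul_apply_eq_comp, ← pow_add]
    exact dimM_pow_nonneg T hc hc1 _ _
  have h1 : ‖T i v‖ ^ 2 ≤ ⟪T i v, y⟫ := by
    have h2 : ‖T i v‖ ^ 2 ≤ ∑ j, ‖T j v‖ ^ 2 :=
      Finset.single_le_sum (f := fun j => ‖T j v‖ ^ 2) (fun j _ => sq_nonneg _)
        (Finset.mem_univ i)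
    rw [← dimQ_inner_self, hQ, inner_sub_left] at h2
    linarith
  have h3 : ⟪T i v, y⟫ ≤ ‖T i v‖ * ‖y‖ := real_inner_le_norm _ _
  nlinarith [sq_nonneg (‖T i v‖ - ‖y‖), norm_nonneg (T i v), norm_nonneg y]

/-- Cesàro averages of the powers of `M`. -/
noncomputable def dimA (T : I → H →L[ℝ] H) (c : ℝ) (N : ℕ) : H →L[ℝ] H :=
  (N : ℝ)⁻¹ • ∑ n ∈ Finset.range N, dimM T c ^ n

theorem dimA_tendsto (T : I → H →L[ℝ] H) {c : ℝ} (hc : 0 < c)
    (hc1 : c * ∑ i, ‖T i‖ ^ 2 ≤ 1) (x : H) :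
    ∃ y : H, (∀ i, T i y = 0) ∧ Tendsto (fun N => dimA T c N x) atTop (𝓝 y) := by
  have h := (dimM T c).tendsto_birkhoffAverage_orthogonalProjection (dimM_norm_le T hc.le hc1) x
  refine ⟨_, ?_, h.congr fun N => ?_⟩
  · set z := ((dimM T c).eqLocus (1 : H →L[ℝ] H)).orthogonalProjectionOnto x
    have hz : dimM T c z = z := z.2
    rw [dimM_apply, sub_eq_self, smul_eq_zero] at hz
    have hz' := hz.resolve_left hc.ne'
    have h0 : ∑ i, ‖T i z‖ ^ 2 = 0 := by rw [← dimQ_inner_self, hz', inner_zero_left]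
    intro i
    have := (Finset.sum_eq_zero_iff_of_nonneg (fun j _ => sq_nonneg _)).1 h0 i (Finset.mem_univ i)
    simpa using this
  · simp [birkhoffAverage, birkhoffSum, dimA]

theorem dimM_pow_inner_le (T : I → H →L[ℝ] H) {c : ℝ} (hc : 0 ≤ c)
    (hc1 : c * ∑ i, ‖T i‖ ^ 2 ≤ 1) (n : ℕ) (x : H) : ⟪(dimM T c ^ n) x, x⟫ ≤ ‖x‖ ^ 2 := by
  have h1 : ‖(dimM T c ^ n) x‖ ≤ ‖x‖ := by
    induction n with
    | zero => simp
    | succ n ih =>
      rw [pow_succ', mul_apply_eq_comp]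
      refine ((dimM T c).le_opNorm _).trans ?_
      have := dimM_norm_le T hc hc1
      nlinarith [norm_nonneg ((dimM T c ^ n) x), norm_nonneg (dimM T c)]
  have h3 := real_inner_le_norm ((dimM T c ^ n) x) x
  nlinarith [norm_nonneg x]

end Abs

end Crest.Agent.R191
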