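import Crest.Agent.R191.Defs
import Crest.Agent.R191.DimAux

/-!
Bounded-range operators and the dimension inequality.
-/

set_option autoImplicit false

namespace Crest.Agent.R191

open MeasureTheory

variable {Γ X : Type} [Group Γ] [MulAction Γ X] [MeasurableSpace X]

theorem IsBR.zero : IsBR Γ (fun (_ : X → ℝ) (_ : X) => (0 : ℝ)) := by
  exact ⟨∅, fun _ _ => 0, 0, fun _ => measurable_const, by simp, by simp⟩

theorem IsBR.shift (u : Γ) : IsBR Γ (fun (f : X → ℝ) (p : X) => f (u • p)) := by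
  exact ⟨{u}, fun _ _ => 1, 1, fun _ => measurable_const, by simp, by simp⟩

theorem IsBR.add {T T' : (X → ℝ) → X → ℝ} (hT : IsBR Γ T) (hT' : IsBR Γ T') :
    IsBR Γ (fun f p => T f p + T' f p) := by
  classical
  obtain ⟨F, K, C, hK, hC, hT⟩ := hT
  obtain ⟨F', K', C', hK', hC', hT'⟩ := hT'
  refine ⟨F ∪ F', fun h p => (if h ∈ F then K h p else 0) + (if h ∈ F' then K' h p else 0),
    |C| + |C'|, fun h => ?_, fun h p => ?_, fun f p => ?_⟩
  · refine Measurable.add ?_ ?_
    · by_cases hh : h ∈ F <;> simp [hh, hK h]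
    · by_cases hh : h ∈ F' <;> simp [hh, hK' h]
  · refine (abs_add_le _ _).trans (add_le_add ?_ ?_)
    · split_ifs
      · exact (hC h p).trans (le_abs_self _)
      · simp
    · split_ifs
      · exact (hC' h p).trans (le_abs_self _)
      · simp
  · simp only [hT, hT', add_mul, Finset.sum_add_distrib, ite_mul, zero_mul]
    rw [Finset.sum_ite_mem, Finset.sum_ite_mem, Finset.union_inter_cancel_left,
      Finset.union_inter_cancel_right]

theorem IsBR.mul {T : (X → ℝ) → X → ℝ} (hT : IsBR Γ T) {k : X → ℝ} (hk : Measurable k) {c : ℝ}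
    (hc : ∀ p, |k p| ≤ c) : IsBR Γ (fun f p => k p * T f p) := by
  obtain ⟨F, K, C, hK, hC, hT⟩ := hT
  refine ⟨F, fun h p => k p * K h p, c * C, fun h => hk.mul (hK h), fun h p => ?_,
    fun f p => ?_⟩
  · rw [abs_mul]
    exact mul_le_mul (hc p) (hC h p) (abs_nonneg _) ((abs_nonneg _).trans (hc p))
  · simp only [hT, Finset.mul_sum, mul_assoc]

theorem IsBR.const_mul {T : (X → ℝ) → X → ℝ} (hT : IsBR Γ T) (c : ℝ) :
    IsBR Γ (fun f p => c * T f p) := by
  exact hT.mul (k := fun _ => c) measurable_const (c := |c|) (fun _ => le_rfl)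

theorem IsBR.sub {T T' : (X → ℝ) → X → ℝ} (hT : IsBR Γ T) (hT' : IsBR Γ T') :
    IsBR Γ (fun f p => T f p - T' f p) := by
  have := hT.add (hT'.const_mul (-1))
  simpa [sub_eq_add_neg] using this

theorem IsBR.sum {ι : Type} (s : Finset ι) {T : ι → (X → ℝ) → X → ℝ}
    (hT : ∀ i ∈ s, IsBR Γ (T i)) : IsBR Γ (fun f p => ∑ i ∈ s, T i f p) := by
  classical
  induction s using Finset.induction_on with
  | empty => simpa using IsBR.zero
  | insert a s ha ih =>
    simp only [Finset.sum_insert ha]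
    exact (hT a (Finset.mem_insert_self _ _)).add
      (ih fun i hi => hT i (Finset.mem_insert_of_mem hi))

open Classical in
theorem IsBR.ite {T : (X → ℝ) → X → ℝ} (hT : IsBR Γ T) {P : X → Prop}
    (hP : MeasurableSet {p | P p}) : IsBR Γ (fun f p => if P p then T f p else 0) := by
  have := hT.mul (k := fun p => if P p then (1 : ℝ) else 0)
    (Measurable.ite hP measurable_const measurable_const) (c := 1)
    (fun p => by split_ifs <;> simp)
  simpa using this

theorem IsBR.comp (hm : ∀ g : Γ, Measurable (fun p : X => g • p)) {T T' : (X → ℝ) → X → ℝ}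
    (hT : IsBR Γ T) (hT' : IsBR Γ T') : IsBR Γ (fun f => T (T' f)) := by
  obtain ⟨F, K, C, hK, hC, hT⟩ := hT
  obtain ⟨F', K', C', hK', hC', hT'⟩ := hT'
  have : (fun f => T (T' f)) = fun f p => ∑ h ∈ F, ∑ h' ∈ F',
      (K h p * K' h' (h • p)) * f ((h' * h) • p) := by
    funext f p
    simp only [hT, hT', Finset.mul_sum, mul_smul, mul_assoc]
  rw [this]
  refine IsBR.sum F fun h _ => IsBR.sum F' fun h' _ => ?_
  refine (IsBR.shift (h' * h)).mul ((hK h).mul ((hK' h').comp (hm h))) (c := C * C') fun p => ?_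
  rw [abs_mul]
  exact mul_le_mul (hC h p) (hC' h' _) (abs_nonneg _) ((abs_nonneg _).trans (hC h p))

omit [MeasurableSpace X] in
theorem dim_memℓp_iff (f : X → ℝ) : Memℓp f 2 ↔ Summable fun p => f p ^ 2 := by
  rw [memℓp_gen_iff (by norm_num)]
  simp

omit [MeasurableSpace X] in
theorem dim_memℓp_term (k : X → ℝ) (C : ℝ) (hC : ∀ p, |k p| ≤ C) (h : Γ) {f : X → ℝ}
    (hf : Memℓp f 2) : Memℓp (fun p => k p * f (h • p)) 2 := by
  rw [dim_memℓp_iff] at hf ⊢
  have h1 : Summable fun p => f (h • p) ^ 2 :=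
    (MulAction.toPerm h).summable_iff (f := fun p => f p ^ 2) |>.2 hf
  refine (h1.mul_left (C ^ 2)).of_nonneg_of_le (fun p => sq_nonneg _) fun p => ?_
  rw [mul_pow]
  refine mul_le_mul_of_nonneg_right ?_ (sq_nonneg _)
  rw [← sq_abs]
  exact pow_le_pow_left₀ (abs_nonneg _) (hC p) 2

theorem IsBR.summable_sq {T : (X → ℝ) → X → ℝ} (hT : IsBR Γ T) {f : X → ℝ}
    (hf : Summable fun p => f p ^ 2) : Summable fun p => T f p ^ 2 := by
  obtain ⟨F, K, C, hK, hC, hT⟩ := hT
  have h1 : Memℓp (fun p => T f p) 2 := by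
    simp only [hT]
    exact Memℓp.finsetSum F (f := fun h p => K h p * f (h • p)) fun h _ =>
      dim_memℓp_term (K h) C (hC h) h ((dim_memℓp_iff f).2 hf)
  exact (dim_memℓp_iff _).1 h1

section Ops

open Filter Topology ContinuousLinearMap
open scoped RealInnerProductSpace

/-- The Hilbert space of square-summable functions. -/
abbrev DimH (X : Type) : Type := lp (fun _ : X => ℝ) 2

open Classical in
/-- Point masses. -/
noncomputable def dimδ (p : X) : DimH X := lp.single 2 p (1 : ℝ)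

omit [MeasurableSpace X] in
theorem dimδ_inner (p : X) (f : DimH X) : ⟪dimδ p, f⟫ = f p := by
  classical
  rw [dimδ, lp.inner_single_left]
  simp

omit [MeasurableSpace X] in
theorem dim_inner_δ (p : X) (f : DimH X) : ⟪f, dimδ p⟫ = f p := by
  rw [real_inner_comm, dimδ_inner]

omit [MeasurableSpace X] in
theorem dimδ_norm (p : X) : ‖dimδ p‖ = 1 := by
  classical
  rw [dimδ, lp.norm_single (by norm_num)]
  simp

open Classical in
omit [MeasurableSpace X] in
theorem dimδ_apply (p q : X) : dimδ p q = if q = p then 1 else 0 := by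
  rw [dimδ, lp.single_apply, Pi.single_apply]

omit [MeasurableSpace X] in
theorem dim_norm_sq (f : DimH X) : ‖f‖ ^ 2 = ∑' p, f p ^ 2 := by
  rw [← real_inner_self_eq_norm_sq, lp.inner_eq_tsum]
  simp [sq]

/-- A weighted shift as a bounded operator. -/
noncomputable def dimTerm (k : X → ℝ) (C : ℝ) (hC : ∀ p, |k p| ≤ C) (h : Γ) :
    DimH X →L[ℝ] DimH X :=
  LinearMap.mkContinuous
    { toFun := fun f => ⟨fun p => k p * f (h • p), dim_memℓp_term k C hC h (lp.memℓp f)⟩
      map_add' := fun f g => by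
        ext p
        simp [mul_add]
      map_smul' := fun c f => by
        ext p
        simp [mul_left_comm] } |C| (by
    intro f
    refine le_of_pow_le_pow_left₀ two_ne_zero (by positivity) ?_
    rw [mul_pow, dim_norm_sq, dim_norm_sq, sq_abs]
    have hf := (dim_memℓp_iff _).1 (lp.memℓp f)
    have h1 : Summable fun p => f (h • p) ^ 2 :=
      (MulAction.toPerm h).summable_iff (f := fun p => f p ^ 2) |>.2 hf
    rw [← (MulAction.toPerm h).tsum_eq (fun p => f p ^ 2), ← tsum_mul_left]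
    refine Summable.tsum_le_tsum (fun p => ?_)
      ((dim_memℓp_iff _).1 (dim_memℓp_term k C hC h (lp.memℓp f))) (h1.mul_left _)
    change (k p * f (h • p)) ^ 2 ≤ C ^ 2 * f (h • p) ^ 2
    rw [mul_pow]
    refine mul_le_mul_of_nonneg_right ?_ (sq_nonneg _)
    rw [← sq_abs]
    exact pow_le_pow_left₀ (abs_nonneg _) (hC p) 2)

omit [MeasurableSpace X] in
theorem dimTerm_apply (k : X → ℝ) (C : ℝ) (hC : ∀ p, |k p| ≤ C) (h : Γ) (f : DimH X) (p : X) :
    dimTerm k C hC h f p = k p * f (h • p) := rfl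

theorem dim_exists_op {T : (X → ℝ) → X → ℝ} (hT : IsBR Γ T) :
    ∃ A : DimH X →L[ℝ] DimH X, ∀ (f : DimH X) (p : X), A f p = T f p := by
  obtain ⟨F, K, C, hK, hC, hT⟩ := hT
  refine ⟨∑ h ∈ F, dimTerm (K h) C (hC h) h, fun f p => ?_⟩
  rw [hT, sum_apply, lp.coeFn_sum, Finset.sum_apply]
  rfl

/-- Bounded operators induced by a bounded-range operator. -/
def DimOp (Γ : Type) {X : Type} [Group Γ] [MulAction Γ X] [MeasurableSpace X]
    (A : DimH X →L[ℝ] DimH X) : Prop :=
  ∃ T : (X → ℝ) → X → ℝ, IsBR Γ T ∧ ∀ (f : DimH X) (p : X), A f p = T f p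

theorem DimOp.one : DimOp Γ (1 : DimH X →L[ℝ] DimH X) :=
  ⟨_, IsBR.shift (1 : Γ), fun f p => by simp⟩

theorem DimOp.zero : DimOp Γ (0 : DimH X →L[ℝ] DimH X) :=
  ⟨_, IsBR.zero, fun f p => by simp⟩

theorem DimOp.add {A B : DimH X →L[ℝ] DimH X} (hA : DimOp Γ A) (hB : DimOp Γ B) :
    DimOp Γ (A + B) := by
  obtain ⟨T, hT, h⟩ := hA
  obtain ⟨T', hT', h'⟩ := hB
  exact ⟨_, hT.add hT', fun f p => by simp [h, h']⟩

theorem DimOp.smul {A : DimH X →L[ℝ] DimH X} (hA : DimOp Γ A) (c : ℝ) : DimOp Γ (c • A) := by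
  obtain ⟨T, hT, h⟩ := hA
  exact ⟨_, hT.const_mul c, fun f p => by simp [h]⟩

theorem DimOp.sub {A B : DimH X →L[ℝ] DimH X} (hA : DimOp Γ A) (hB : DimOp Γ B) :
    DimOp Γ (A - B) := by
  obtain ⟨T, hT, h⟩ := hA
  obtain ⟨T', hT', h'⟩ := hB
  exact ⟨_, hT.sub hT', fun f p => by simp [h, h']⟩

theorem DimOp.sum {ι : Type} (s : Finset ι) {A : ι → DimH X →L[ℝ] DimH X}
    (hA : ∀ i ∈ s, DimOp Γ (A i)) : DimOp Γ (∑ i ∈ s, A i) :=
  Finset.sum_induction _ (DimOp Γ) (fun _ _ => DimOp.add) DimOp.zero hA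

theorem DimOp.mul (hm : ∀ g : Γ, Measurable (fun p : X => g • p))
    {A B : DimH X →L[ℝ] DimH X} (hA : DimOp Γ A) (hB : DimOp Γ B) : DimOp Γ (A * B) := by
  obtain ⟨T, hT, h⟩ := hA
  obtain ⟨T', hT', h'⟩ := hB
  refine ⟨_, hT.comp hm hT', fun f p => ?_⟩
  rw [mul_apply_eq_comp, h]
  congr 1
  exact funext (h' f)

theorem DimOp.pow (hm : ∀ g : Γ, Measurable (fun p : X => g • p))
    {A : DimH X →L[ℝ] DimH X} (hA : DimOp Γ A) (n : ℕ) : DimOp Γ (A ^ n) := by
  induction n with
  | zero => simpa using DimOp.one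
  | succ n ih => rw [pow_succ]; exact ih.mul hm hA

theorem DimOp.adjoint (hm : ∀ g : Γ, Measurable (fun p : X => g • p))
    {A : DimH X →L[ℝ] DimH X} (hA : DimOp Γ A) : DimOp Γ (adjoint A) := by
  classical
  obtain ⟨T, ⟨F, K, C, hK, hC, hT⟩, h⟩ := hA
  refine ⟨fun f p => ∑ g ∈ F, K g (g⁻¹ • p) * f (g⁻¹ • p), IsBR.sum F fun g _ =>
    (IsBR.shift g⁻¹).mul ((hK g).comp (hm _)) (c := C) fun p => hC _ _, fun f p => ?_⟩
  have hδ : A (dimδ p) = ∑ g ∈ F, K g (g⁻¹ • p) • dimδ (g⁻¹ • p) := by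
    ext q
    rw [h, hT, lp.coeFn_sum, Finset.sum_apply]
    refine Finset.sum_congr rfl fun g _ => ?_
    rw [lp.coeFn_smul, Pi.smul_apply, dimδ_apply, dimδ_apply, smul_eq_mul]
    by_cases hq : q = g⁻¹ • p
    · subst hq; simp
    · have : g • q ≠ p := fun h' => hq (by rw [← h']; simp)
      simp [hq, this]
  rw [← dimδ_inner, adjoint_inner_right, hδ, sum_inner]
  simp only [real_inner_smul_left, dimδ_inner]

/-- Matrix coefficients along the action. -/
noncomputable def dimCoef (A : DimH X →L[ℝ] DimH X) (g : Γ) (p : X) : ℝ := A (dimδ (g • p)) p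

theorem DimOp.coef (hfree : ∀ (g : Γ) (p : X), g • p = p → g = 1)
    {A : DimH X →L[ℝ] DimH X} (hA : DimOp Γ A) :
    ∃ (F : Finset Γ) (C : ℝ), (∀ g : Γ, Measurable (dimCoef A g)) ∧
      (∀ (g : Γ) p, |dimCoef A g p| ≤ C) ∧
      ∀ G : Finset Γ, F ⊆ G → ∀ (f : DimH X) p, A f p = ∑ g ∈ G, dimCoef A g p * f (g • p) := by
  classical
  obtain ⟨T, ⟨F, K, C, hK, hC, hT⟩, h⟩ := hA
  have key : ∀ (g : Γ) p, dimCoef A g p = if g ∈ F then K g p else 0 := by
    intro g p
    rw [dimCoef, h, hT]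
    have : ∀ g' : Γ, (g' • p = g • p) ↔ g' = g := by
      intro g'
      refine ⟨fun hh => ?_, fun hh => by rw [hh]⟩
      have := hfree (g⁻¹ * g') p (by rw [mul_smul, hh, inv_smul_smul])
      exact (inv_mul_eq_one.1 this).symm
    simp only [dimδ_apply, this, mul_ite, mul_one, mul_zero]
    rw [Finset.sum_ite_eq']
  refine ⟨F, |C|, fun g => ?_, fun g p => ?_, fun G hG f p => ?_⟩
  · have : dimCoef A g = fun p => if g ∈ F then K g p else 0 := funext (key g)
    rw [this]
    by_cases hg : g ∈ F <;> simp [hg, hK g]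
  · rw [key]
    split_ifs
    · exact (hC g p).trans (le_abs_self _)
    · simp
  · simp only [key, ite_mul, zero_mul]
    rw [Finset.sum_ite_mem, Finset.inter_eq_right.2 hG, h, hT]

/-- The diagonal of an operator. -/
noncomputable def dimDiag (A : DimH X →L[ℝ] DimH X) (p : X) : ℝ := A (dimδ p) p

theorem DimOp.measurable_diag (hfree : ∀ (g : Γ) (p : X), g • p = p → g = 1)
    {A : DimH X →L[ℝ] DimH X} (hA : DimOp Γ A) : Measurable (dimDiag A) := by
  obtain ⟨F, C, h1, -, -⟩ := hA.coef hfree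
  have : dimDiag A = dimCoef A (1 : Γ) := by
    funext p; simp [dimDiag, dimCoef]
  rw [this]
  exact h1 1

omit [MeasurableSpace X] in
theorem dimDiag_le (A : DimH X →L[ℝ] DimH X) (p : X) : |dimDiag A p| ≤ ‖A‖ := by
  rw [dimDiag, ← dim_inner_δ]
  refine (abs_real_inner_le_norm _ _).trans ?_
  have := A.le_opNorm (dimδ p)
  rw [dimδ_norm, mul_one] at *
  exact this

theorem DimOp.integrable_diag (hfree : ∀ (g : Γ) (p : X), g • p = p → g = 1)
    {A : DimH X →L[ℝ] DimH X} (hA : DimOp Γ A) (μ : Measure X) [IsFiniteMeasure μ] :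
    Integrable (dimDiag A) μ :=
  Integrable.of_bound (hA.measurable_diag hfree).aestronglyMeasurable ‖A‖
    (Eventually.of_forall (dimDiag_le A))

theorem dim_trace {μ : Measure X} [IsProbabilityMeasure μ] (hX : FreePMP Γ X μ)
    {A B : DimH X →L[ℝ] DimH X} (hA : DimOp Γ A) (hB : DimOp Γ B) :
    ∫ p, dimDiag (A * B) p ∂μ = ∫ p, dimDiag (B * A) p ∂μ := by
  classical
  obtain ⟨F, C, hm, hC, hF⟩ := hA.coef hX.free
  obtain ⟨F', C', hm', hC', hF'⟩ := hB.coef hX.free
  set G := F ∪ F'.image (·⁻¹) with hG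
  have hG1 : F ⊆ G := Finset.subset_union_left
  have hG2 : F' ⊆ G.image (·⁻¹) := by
    intro g hg
    exact Finset.mem_image.2 ⟨g⁻¹, Finset.mem_union_right _ (Finset.mem_image_of_mem _ hg),
      inv_inv g⟩
  have hint : ∀ (u v : X → ℝ), Measurable u → Measurable v → (∀ p, |u p| ≤ C) →
      (∀ p, |v p| ≤ C') → Integrable (fun p => u p * v p) μ := by
    intro u v hu hv h1 h2
    refine Integrable.of_bound (hu.mul hv).aestronglyMeasurable (C * C')
      (Eventually.of_forall fun p => ?_)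
    rw [Real.norm_eq_abs, abs_mul]
    exact mul_le_mul (h1 p) (h2 p) (abs_nonneg _) ((abs_nonneg _).trans (h1 p))
  have e1 : ∀ p, dimDiag (A * B) p = ∑ g ∈ G, dimCoef A g p * dimCoef B g⁻¹ (g • p) := by
    intro p
    rw [dimDiag, mul_apply_eq_comp, hF G hG1]
    simp [dimCoef]
  have e2 : ∀ p, dimDiag (B * A) p = ∑ g ∈ G, dimCoef A g (g⁻¹ • p) * dimCoef B g⁻¹ p := by
    intro p
    rw [dimDiag, mul_apply_eq_comp, hF' _ hG2, Finset.sum_image (fun _ _ _ _ h => inv_injective h)]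
    simp [dimCoef, mul_comm]
  simp only [e1, e2]
  rw [integral_finsetSum, integral_finsetSum]
  · refine Finset.sum_congr rfl fun g _ => ?_
    have := (hX.mp g).integral_comp' (f := MeasurableEquiv.mk (MulAction.toPerm g)
      (hX.mp g).measurable (hX.mp g⁻¹).measurable)
      (fun p => dimCoef A g (g⁻¹ • p) * dimCoef B g⁻¹ p)
    rw [← this]
    simp
  · exact fun g _ => hint _ _ ((hm g).comp (hX.mp _).measurable) (hm' _) (fun p => hC _ _)
      (fun p => hC' _ _)
  · exact fun g _ => hint _ _ (hm g) ((hm' _).comp (hX.mp _).measurable) (fun p => hC _ _)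
      (fun p => hC' _ _)

theorem dim_le_aux {μ : Measure X} [IsProbabilityMeasure μ] (hX : FreePMP Γ X μ)
    {I : Type} [Fintype I] (T : I → (X → ℝ) → X → ℝ) (hT : ∀ i, IsBR Γ (T i))
    (S : Set X) (hS : MeasurableSet S) (S' : I → Set X) (hS' : ∀ i, MeasurableSet (S' i))
    (hsupp : ∀ i f p, p ∉ S' i → T i f p = 0)
    (hinj : ∀ f : X → ℝ, (Summable fun p => f p ^ 2) → (∀ p, p ∉ S → f p = 0) →
      (∀ i p, T i f p = 0) → ∀ p, f p = 0) :
    μ S ≤ ∑ i, μ (S' i) := by
  classical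
  have hm : ∀ g : Γ, Measurable (fun p : X => g • p) := fun g => (hX.mp g).measurable
  have hE : IsBR Γ (fun (f : X → ℝ) p => if p ∈ S then f ((1 : Γ) • p) else 0) :=
    (IsBR.shift (1 : Γ)).ite hS
  have hTE := fun i => (hT i).comp hm hE
  choose A hA using fun i => dim_exists_op (hTE i)
  have hAop : ∀ i, DimOp Γ (A i) := fun i => ⟨_, hTE i, hA i⟩
  set c : ℝ := (∑ i, ‖A i‖ ^ 2 + 1)⁻¹ with hc
  have h0 : 0 ≤ ∑ i, ‖A i‖ ^ 2 := Finset.sum_nonneg fun i _ => sq_nonneg _
  have hcpos : 0 < c := by positivity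
  have hc1 : c * ∑ i, ‖A i‖ ^ 2 ≤ 1 := by
    rw [hc, inv_mul_le_iff₀ (by positivity)]
    linarith
  have hQ : DimOp Γ (dimQ A) :=
    DimOp.sum _ fun i _ => ((hAop i).adjoint hm).mul hm (hAop i)
  have hM : DimOp Γ (dimM A c) := DimOp.one.sub (hQ.smul c)
  have hP : ∀ n, DimOp Γ (dimP A c n) := fun n =>
    (DimOp.sum _ fun m _ => hM.pow hm m).smul c
  set R : ℝ := ∑ i, μ.real (S' i) with hR
  have hstep : ∀ n, ∫ p, dimDiag (1 - dimM A c ^ n) p ∂μ ≤ R := by
    intro n
    have e1 : ∀ p, dimDiag (1 - dimM A c ^ n) p =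
        ∑ i, dimDiag ((dimP A c n * adjoint (A i)) * A i) p := by
      intro p
      rw [← dimP_mul_Q, dimQ, Finset.mul_sum]
      simp only [dimDiag, sum_apply, lp.coeFn_sum, Finset.sum_apply]
      rfl
    simp only [e1]
    rw [integral_finsetSum _ fun i _ =>
      (((hP n).mul hm ((hAop i).adjoint hm)).mul hm (hAop i)).integrable_diag hX.free μ]
    refine Finset.sum_le_sum fun i _ => ?_
    rw [dim_trace hX ((hP n).mul hm ((hAop i).adjoint hm)) (hAop i),
      ← integral_indicator_one (hS' i)]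
    refine integral_mono (((hAop i).mul hm ((hP n).mul hm
      ((hAop i).adjoint hm))).integrable_diag hX.free μ)
      ((integrable_const (1 : ℝ)).indicator (hS' i)) fun p => ?_
    by_cases hp : p ∈ S' i
    · rw [Set.indicator_of_mem hp, dimDiag, ← dim_inner_δ]
      have := dim_corner_le A hcpos.le hc1 n i (dimδ p)
      rw [dimδ_norm] at this
      simpa using this
    · rw [Set.indicator_of_notMem hp, dimDiag, mul_apply_eq_comp, hA, hsupp _ _ _ hp]
  have hnn : ∀ n p, 0 ≤ dimDiag (1 - dimM A c ^ n) p := by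
    intro n p
    have := dimM_pow_inner_le A hcpos.le hc1 n (dimδ p)
    rw [dimδ_norm, dim_inner_δ] at this
    simp only [dimDiag, sub_apply, one_apply_eq_self, lp.coeFn_sub, Pi.sub_apply, dimδ_apply,
      if_true]
    linarith
  have hle1 : ∀ n p, dimDiag (1 - dimM A c ^ n) p ≤ 1 := by
    intro n p
    have := dimM_pow_nonneg A hcpos.le hc1 n (dimδ p)
    rw [dim_inner_δ] at this
    simp only [dimDiag, sub_apply, one_apply_eq_self, lp.coeFn_sub, Pi.sub_apply, dimδ_apply,
      if_true]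
    linarith
  have hI : ∀ n, Integrable (dimDiag (1 - dimM A c ^ n)) μ := fun n =>
    (DimOp.one.sub (hM.pow hm n)).integrable_diag hX.free μ
  set g : ℕ → X → ℝ := fun N p =>
    (N : ℝ)⁻¹ * ∑ n ∈ Finset.range N, dimDiag (1 - dimM A c ^ n) p with hg
  have hgI : ∀ N, Integrable (g N) μ := fun N =>
    (integrable_finsetSum _ fun n _ => hI n).const_mul _
  have hg0 : ∀ N p, 0 ≤ g N p := fun N p =>
    mul_nonneg (by positivity) (Finset.sum_nonneg fun n _ => hnn n p)
  have havg : ∀ (N : ℕ) (a : ℕ → ℝ) (b : ℝ), 0 ≤ b → (∀ n, a n ≤ b) →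
      (N : ℝ)⁻¹ * ∑ n ∈ Finset.range N, a n ≤ b := by
    intro N a b hb hab
    rcases Nat.eq_zero_or_pos N with rfl | hN
    · simpa using hb
    · have hN' : (0 : ℝ) < N := by exact_mod_cast hN
      rw [inv_mul_le_iff₀ hN']
      have := Finset.sum_le_card_nsmul (Finset.range N) a b fun n _ => hab n
      simpa using this
  have hR0 : 0 ≤ R := Finset.sum_nonneg fun i _ => measureReal_nonneg
  have hgR : ∀ N, ∫ p in S, g N p ∂μ ≤ R := by
    intro N
    refine (setIntegral_le_integral (hgI N) (Eventually.of_forall (hg0 N))).trans ?_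
    simp only [hg]
    rw [integral_const_mul, integral_finsetSum _ fun n _ => hI n]
    exact havg N _ R hR0 hstep
  have hlim : ∀ p ∈ S, Tendsto (fun N => g N p) atTop (𝓝 1) := by
    intro p hp
    obtain ⟨y, hy, hty⟩ := dimA_tendsto A hcpos hc1 (dimδ p)
    have hy0 : y p = 0 := by
      have := hinj (fun q => if q ∈ S then y ((1 : Γ) • q) else 0)
        (hE.summable_sq ((dim_memℓp_iff _).1 (lp.memℓp y))) (fun q hq => by simp [hq])
        (fun i q => by rw [← hA, hy i]; simp) p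
      simpa [hp] using this
    have h1 : Tendsto (fun N => 1 - ⟪dimA A c N (dimδ p), dimδ p⟫) atTop (𝓝 (1 - 0)) := by
      refine tendsto_const_nhds.sub ?_
      rw [← hy0, ← dim_inner_δ]
      exact hty.inner tendsto_const_nhds
    rw [sub_zero] at h1
    refine h1.congr' ?_
    filter_upwards [eventually_gt_atTop 0] with N hN
    have hN' : (N : ℝ) ≠ 0 := by exact_mod_cast hN.ne'
    simp only [hg, dimA, dimDiag, sub_apply, one_apply_eq_self, lp.coeFn_sub, Pi.sub_apply,
      dimδ_apply, if_true, smul_apply, sum_apply, real_inner_smul_left, sum_inner, dim_inner_δ,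
      Finset.sum_sub_distrib, Finset.sum_const, Finset.card_range, nsmul_eq_mul, mul_one]
    field_simp
  have hconv : Tendsto (fun N => ∫ p in S, g N p ∂μ) atTop (𝓝 (∫ _ in S, (1 : ℝ) ∂μ)) := by
    refine tendsto_integral_of_dominated_convergence (fun _ => (1 : ℝ))
      (fun N => (hgI N).aestronglyMeasurable.restrict) (integrable_const _) (fun N => ?_) ?_
    · refine Eventually.of_forall fun p => ?_
      rw [Real.norm_eq_abs, abs_of_nonneg (hg0 N p)]
      exact havg N _ 1 zero_le_one fun n => hle1 n p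
    · exact (ae_restrict_mem hS).mono hlim
  have hfin : μ.real S ≤ R := by
    have := le_of_tendsto' hconv hgR
    simpa using this
  rw [← ENNReal.toReal_le_toReal (measure_ne_top _ _)
    (ENNReal.sum_ne_top.2 fun i _ => measure_ne_top _ _),
    ENNReal.toReal_sum fun i _ => measure_ne_top _ _]
  exact hfin

end Ops

/-- The dimension inequality: a finite family of bounded-range operators, the `i`-th with values
supported in `S' i`, jointly injective on square-summable functions supported in `S`. -/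
theorem dim_le {μ : Measure X} [IsProbabilityMeasure μ] (hX : FreePMP Γ X μ)
    {I : Type} [Fintype I] (T : I → (X → ℝ) → X → ℝ) (hT : ∀ i, IsBR Γ (T i))
    (S : Set X) (hS : MeasurableSet S) (S' : I → Set X) (hS' : ∀ i, MeasurableSet (S' i))
    (hsupp : ∀ i f p, p ∉ S' i → T i f p = 0)
    (hinj : ∀ f : X → ℝ, (Summable fun p => f p ^ 2) → (∀ p, p ∉ S → f p = 0) →
      (∀ i p, T i f p = 0) → ∀ p, f p = 0) :
    μ S ≤ ∑ i, μ (S' i) := by
  exact dim_le_aux hX T hT S hS S' hS' hsupp hinj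

end Crest.Agent.R191
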