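import Crest.Agent.R191.Defs

/-!
The group `⟨x, t, a 0, a 1, a 2 | a 0 * x * a 2 * x * a 1 * x, [t, a i]⟩`.
-/

set_option autoImplicit false

namespace Crest.Agent.R191

open Relation

namespace Grp

/-- generators: `none = x`, `some none = t`, `some (some i) = a i` -/
abbrev Gen := Option (Option (Fin 3))

/-- the relators -/
def rels : Set (FreeGroup Gen) :=
  insert (.of (some (some 0)) * .of none * (.of (some (some 2)) * .of none *
      (.of (some (some 1)) * .of none)))
    (Set.range fun i : Fin 3 => .of (some none) * .of (some (some i)) * (.of (some none))⁻¹ *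
      (.of (some (some i)))⁻¹)

/-- the group -/
abbrev Gam := PresentedGroup rels

/-- the letter `x` -/
def x : Gam := .of none
/-- the letter `t` -/
def t : Gam := .of (some none)
/-- the letters `a i` -/
def a (i : Fin 3) : Gam := .of (some (some i))

lemma rel1 : a 0 * x * (a 2 * x * (a 1 * x)) = 1 :=
  PresentedGroup.one_of_mem (rels := rels) (Set.mem_insert _ _)

lemma rel2 (i : Fin 3) : Commute t (a i) := by
  have : t * a i * t⁻¹ * (a i)⁻¹ = 1 :=
    PresentedGroup.one_of_mem (rels := rels) (Set.mem_insert_of_mem _ ⟨i, rfl⟩)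
  rw [mul_inv_eq_one, mul_inv_eq_iff_eq_mul] at this
  exact this

lemma exists_hom {H : Type} [Group H] (X T : H) (A : Fin 3 → H)
    (h1 : A 0 * X * (A 2 * X * (A 1 * X)) = 1) (h2 : ∀ i, T * A i = A i * T) :
    ∃ φ : Gam →* H, φ x = X ∧ φ t = T ∧ ∀ i, φ (a i) = A i := by
  let f : Gen → H := fun g => g.elim X fun g => g.elim T A
  have hf : ∀ r ∈ rels, FreeGroup.lift f r = 1 := by
    rintro r (rfl | ⟨i, rfl⟩)
    · simpa [f] using h1
    · simp [f, h2]
  exact ⟨PresentedGroup.toGroup hf, PresentedGroup.toGroup.of hf,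
    PresentedGroup.toGroup.of hf, fun _ => PresentedGroup.toGroup.of hf⟩

lemma closure_top : Subgroup.closure (insert x (insert t (Set.range a))) = ⊤ := by
  rw [eq_top_iff, ← PresentedGroup.closure_range_of rels]
  refine Subgroup.closure_mono ?_
  rintro _ ⟨_ | _ | i, rfl⟩
  · exact Or.inl rfl
  · exact Or.inr (Or.inl rfl)
  · exact Or.inr (Or.inr ⟨i, rfl⟩)

/-- the multipliers of the action on three copies of the free group -/
def al : Fin 3 → Fin 3 → FreeGroup (Fin 3) :=
  ![![.of 0, (.of 2)⁻¹, (.of 1)⁻¹], ![.of 1, 1, 1], ![.of 2, 1, (.of 0)⁻¹]]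

/-- fibrewise left multiplication -/
def fib {K I : Type} [Group K] (β : I → K) : Equiv.Perm (I × K) where
  toFun p := (p.1, β p.1 * p.2)
  invFun p := (p.1, (β p.1)⁻¹ * p.2)
  left_inv p := by simp
  right_inv p := by simp

lemma a_inj : Function.Injective (FreeGroup.lift a : FreeGroup (Fin 3) →* Gam) := by
  obtain ⟨φ, -, -, hφ⟩ := exists_hom (H := Equiv.Perm (Fin 3 × FreeGroup (Fin 3)))
    (Equiv.prodCongr (Equiv.addRight 1) (Equiv.refl _)) 1 (fun i => fib (al i))
    (by
      ext ⟨j, k⟩ : 1
      fin_cases j <;> simp [fib, al])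
    (by simp)
  have key : ∀ w k, φ (FreeGroup.lift a w) (0, k) = (0, w * k) := by
    intro w
    induction w using FreeGroup.induction_on with
    | C1 => simp
    | of i => intro k; fin_cases i <;> simp [hφ, fib, al]
    | inv_of i h =>
      intro k
      rw [map_inv, map_inv, Equiv.Perm.inv_eq_iff_eq, h]; simp
    | mul u v hu hv => intro k; simp [hu, hv, mul_assoc]
  intro w w' h
  have := key w 1
  rw [h, key] at this
  simpa using this.symm

/-- the group data -/
def G : GData Gam where
  x := x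
  a := a
  g := ![1, a 1 * x, a 2 * x * (a 1 * x)]
  hg i := by
    fin_cases i
    · simp
    · simp
    · simpa using rel1.symm
  inj := a_inj

lemma g_inj : Function.Injective (FreeGroup.lift ![G.g 1, G.g 2] : FreeGroup (Fin 2) →* Gam) := by
  obtain ⟨φ, hx, -, hφ⟩ := exists_hom (H := FreeGroup (Fin 2)) 1 1
    ![(.of 1)⁻¹, .of 0, .of 1 * (.of 0)⁻¹] (by simp) (by simp)
  have : φ.comp (FreeGroup.lift ![G.g 1, G.g 2]) = MonoidHom.id _ := by
    ext i; fin_cases i <;> simp [G, hx, hφ]
  exact Function.LeftInverse.injective (g := φ) fun w => DFunLike.congr_fun this w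

lemma t_inf : ¬ IsOfFinOrder t := by
  obtain ⟨φ, -, ht, -⟩ := exists_hom (H := Multiplicative ℤ) 1 (Multiplicative.ofAdd 1)
    (fun _ => 1) (by simp) (by simp)
  intro h
  have := φ.isOfFinOrder h
  rw [ht, isOfFinOrder_ofAdd_iff, isOfFinAddOrder_iff_nsmul_eq_zero] at this
  obtain ⟨n, hn, h⟩ := this
  simp at h
  omega

/-- homotopy classes of words -/
abbrev Q := Quot (Hom0 G)

/-- appending a word to a class -/
def app (L : Word Gam) : Q → Q := Quot.map (· ++ L) fun W W' h => by
  cases h with
  | back α β g ε => simpa using Hom0.back α (β ++ L) g ε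
  | cell α β c => simpa using Hom0.cell α (β ++ L) c

lemma app_mk (L W : Word Gam) : app L (Quot.mk _ W) = Quot.mk _ (W ++ L) := rfl

lemma app_app (L L' : Word Gam) (q : Q) : app L' (app L q) = app (L ++ L') q := by
  induction q using Quot.ind
  simp [app_mk]

lemma app_back (g : Gam) (ε : Bool) (q : Q) : app [(g, ε), (g, !ε)] q = q := by
  induction q using Quot.ind with
  | mk W => exact Quot.sound (by simpa using Hom0.back W [] g ε)

lemma app_cell (c : Gam) (q : Q) : app (cellWord G c) q = q := by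
  induction q using Quot.ind with
  | mk W => exact Quot.sound (by simpa using Hom0.cell W [] c)

/-- the action of `x` -/
def actX : Equiv.Perm (Q × Gam) where
  toFun p := (app [(p.2, true)] p.1, x * p.2)
  invFun p := (app [(x⁻¹ * p.2, false)] p.1, x⁻¹ * p.2)
  left_inv := fun ⟨q, c⟩ => by simpa [app_app] using app_back c true q
  right_inv := fun ⟨q, c⟩ => by simpa [app_app] using app_back (x⁻¹ * c) false q

lemma exists_act : ∃ φ : Gam →* Equiv.Perm (Q × Gam), φ x = actX ∧
    ∀ b ∈ Subgroup.closure (insert t (Set.range a)), φ b = fib (fun _ => b) := by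
  obtain ⟨φ, hx, ht, ha⟩ := exists_hom (H := Equiv.Perm (Q × Gam)) actX (fib fun _ => t)
    (fun i => fib fun _ => a i)
    (by
      ext ⟨q, c⟩ : 1
      have h1 := app_cell c q
      have h2 : a 0 * (x * (a 2 * (x * (a 1 * (x * c))))) = c := by
        simpa [mul_assoc] using congr_arg (· * c) rel1
      simpa [fib, actX, app_app, h2, cellWord, G, mul_assoc] using h1)
    (by
      intro i
      ext ⟨q, c⟩ : 1
      simp [fib, ← mul_assoc, (rel2 i).eq])
  refine ⟨φ, hx, fun b hb => ?_⟩
  induction hb using Subgroup.closure_induction with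
  | mem b hb =>
    rcases hb with rfl | ⟨i, rfl⟩
    · exact ht
    · exact ha i
  | one => ext ⟨q, c⟩ : 1; simp [fib]
  | mul b b' _ _ h h' => ext ⟨q, c⟩ : 1; simp [h, h', fib, mul_assoc]
  | inv b _ h =>
    ext ⟨q, c⟩ : 1
    rw [map_inv, Equiv.Perm.inv_eq_iff_eq, h]; simp [fib]

lemma simplyConn : SimplyConn G (Subgroup.closure (insert t (Set.range a))) := by
  obtain ⟨φ, hx, hA⟩ := exists_act
  have key : ∀ (W : Word Gam) (u v : Gam) (q : Q),
      IsPath (Subgroup.closure (insert t (Set.range a))) x u W v →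
      φ (v * u⁻¹) (q, u) = (app W q, v) := by
    intro W
    induction W with
    | nil =>
      intro u v q h
      rw [hA _ (by simpa using Subgroup.inv_mem _ h)]
      induction q using Quot.ind
      simp [fib, app_mk]
    | cons l W ih =>
      rintro u v q ⟨h1, h2⟩
      have e : v * u⁻¹ = (v * (tgt x l)⁻¹) * (tgt x l * (src x l)⁻¹) * (src x l * u⁻¹) := by group
      have e1 : φ (src x l * u⁻¹) (q, u) = (q, src x l) := by
        rw [hA _ (by simpa using Subgroup.inv_mem _ h1)]; simp [fib]
      have e2 : φ (tgt x l * (src x l)⁻¹) (q, src x l) = (app [l] q, tgt x l) := by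
        obtain ⟨g, _ | _⟩ := l
        · have : tgt x (g, false) * (src x (g, false))⁻¹ = x⁻¹ := by simp [src, tgt]
          rw [this, map_inv, hx]
          simp [actX, src, tgt, Equiv.Perm.inv_def]
        · have : tgt x (g, true) * (src x (g, true))⁻¹ = x := by simp [src, tgt]
          rw [this, hx]
          simp [actX, src, tgt]
      rw [e, map_mul, map_mul, Equiv.Perm.mul_apply, Equiv.Perm.mul_apply, e1, e2, ih _ _ _ h2,
        app_app]
      rfl
  intro u v W W' h h'
  have h1 := key W u v (Quot.mk _ []) h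
  rw [key W' u v _ h'] at h1
  exact Quot.eqvGen_exact (by simpa [app_mk] using (congr_arg Prod.fst h1).symm)

lemma isPath_append {A : Subgroup Gam} {y : Gam} {W W' : Word Gam} {u v w : Gam}
    (h : IsPath A y u W v) (h' : IsPath A y v W' w) : IsPath A y u (W ++ W') w := by
  induction W generalizing u with
  | nil =>
    cases W' with
    | nil => simpa [IsPath, mul_assoc] using A.mul_mem h h'
    | cons l W' => exact ⟨by simpa [mul_assoc] using A.mul_mem h h'.1, h'.2⟩
  | cons l W ih => exact ⟨h.1, ih h.2⟩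

lemma pathConn : PathConn G (Subgroup.closure (insert t (Set.range a))) := by
  set A := Subgroup.closure (insert t (Set.range a)) with hA
  have key : ∀ h ∈ Subgroup.closure (insert x (insert t (Set.range a))),
      (∀ u, ∃ W, IsPath A x u W (h * u)) ∧ ∀ u, ∃ W, IsPath A x u W (h⁻¹ * u) := by
    intro h hh
    induction hh using Subgroup.closure_induction with
    | mem b hb =>
      rcases hb with rfl | hb
      · exact ⟨fun u => ⟨[(u, true)], by simp [IsPath, src, tgt]⟩,
          fun u => ⟨[(x⁻¹ * u, false)], by simp [IsPath, src, tgt]⟩⟩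
      · have : b ∈ A := Subgroup.subset_closure hb
        exact ⟨fun u => ⟨[], by simpa [IsPath] using this⟩,
          fun u => ⟨[], by simpa [IsPath] using this⟩⟩
    | one => exact ⟨fun u => ⟨[], by simp [IsPath]⟩, fun u => ⟨[], by simp [IsPath]⟩⟩
    | mul b b' _ _ h h' =>
      refine ⟨fun u => ?_, fun u => ?_⟩
      · obtain ⟨W, hW⟩ := h'.1 u
        obtain ⟨W', hW'⟩ := h.1 (b' * u)
        exact ⟨W ++ W', by simpa [mul_assoc] using isPath_append hW hW'⟩
      · obtain ⟨W, hW⟩ := h.2 u
        obtain ⟨W', hW'⟩ := h'.2 (b⁻¹ * u)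
        exact ⟨W ++ W', by simpa [mul_assoc] using isPath_append hW hW'⟩
    | inv b _ h => exact ⟨h.2, by simpa using h.1⟩
  intro h
  have := (key h (closure_top ▸ Subgroup.mem_top h)).1 1
  rwa [mul_one] at this

end Grp

theorem exists_group :
    ∃ (Γ : Type) (_ : Group Γ) (_ : Countable Γ) (G : GData Γ) (t : Γ)
      (χ : Γ →* Multiplicative ℤ),
      Group.FG Γ ∧ G.g 0 = 1 ∧
      Function.Injective (FreeGroup.lift ![G.g 1, G.g 2] : FreeGroup (Fin 2) →* Γ) ∧
      ¬ IsOfFinOrder t ∧ (∀ i, Commute t (G.a i)) ∧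
      χ G.x = 1 ∧ χ t = 1 ∧ (∀ i : Fin 3, χ (G.g i) = Multiplicative.ofAdd ((i : ℕ) : ℤ)) ∧
      Subgroup.closure (insert G.x (insert t (Set.range G.a))) = ⊤ ∧
      SimplyConn G (Subgroup.closure (insert t (Set.range G.a))) ∧
      PathConn G (Subgroup.closure (insert t (Set.range G.a))) := by
  obtain ⟨χ, hx, ht, ha⟩ := Grp.exists_hom (H := Multiplicative ℤ) 1 1
    ![Multiplicative.ofAdd (-2), Multiplicative.ofAdd 1, Multiplicative.ofAdd 1]
    (by simp [← ofAdd_add]) (by simp)
  refine ⟨Grp.Gam, inferInstance, (PresentedGroup.mk_surjective Grp.rels).countable, Grp.G, Grp.t,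
    χ, ?_, rfl, Grp.g_inj, Grp.t_inf, Grp.rel2, hx, ht, fun i => ?_, Grp.closure_top,
    Grp.simplyConn, Grp.pathConn⟩
  · exact (Group.fg_iff).mpr ⟨_, Grp.closure_top, by
      exact ((Set.finite_range _).insert _).insert _⟩
  · fin_cases i <;> simp [Grp.G, hx, ha, ← ofAdd_add]

end Crest.Agent.R191
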