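import Crest.Agent.R191.MRel

/-!
From a generating graphing to arcs relative to a subgroup with a small complete section.
-/

set_option autoImplicit false

namespace Crest.Agent.R191

open MeasureTheory Relation

namespace Reduce

variable {Γ X : Type} [Group Γ] [MulAction Γ X] (Φ : ℕ → Γ × Set X) (T : Set X)

/-- The group element of a move. -/
def st (m : ℕ × Bool) : Γ := if m.2 then (Φ m.1).1 else (Φ m.1).1⁻¹

/-- The domain of a move. -/
def Dom (m : ℕ × Bool) (p : X) : Prop :=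
  if m.2 then p ∈ (Φ m.1).2 else (Φ m.1).1⁻¹ • p ∈ (Φ m.1).2

/-- Points within `n` moves of `T`. -/
def Lv : ℕ → X → Prop
  | 0, p => p ∈ T
  | n + 1, p => Lv n p ∨ ∃ m, Dom Φ m p ∧ Lv n (st Φ m • p)

/-- Points of level `n + 1` whose chosen move is `m`. -/
def Ch (n : ℕ) (m : ℕ × Bool) (p : X) : Prop :=
  ¬ Lv Φ T n p ∧ (Dom Φ m p ∧ Lv Φ T n (st Φ m • p)) ∧
    ∀ m', Encodable.encode m' < Encodable.encode m → ¬ (Dom Φ m' p ∧ Lv Φ T n (st Φ m' • p))

/-- Points whose chosen move is `m`. -/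
def Cm (m : ℕ × Bool) : Set X := {p | ∃ n, Ch Φ T n m p}

/-- The root cocycle, in `n` steps. -/
def RN : ℕ → Γ → X → Prop
  | 0, g, p => p ∈ T ∧ g = 1
  | n + 1, g, p => ∃ m, p ∈ Cm Φ T m ∧ RN n (g * (st Φ m)⁻¹) (st Φ m • p)

/-- The root cocycle. -/
def Root (g : Γ) (p : X) : Prop := ∃ n, RN Φ T n g p

/-- The edges of the forest. -/
def Used (i : ℕ) : Set X := Cm Φ T (i, true) ∪ (fun q => (Φ i).1 • q) ⁻¹' Cm Φ T (i, false)

/-- The remaining edges, sorted by the roots of their ends. -/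
def Pc (i : ℕ) (g g' : Γ) : Set X :=
  {q | q ∈ (Φ i).2 \ Used Φ T i ∧ Root Φ T g q ∧ Root Φ T g' ((Φ i).1 • q)}

/-- The arcs. -/
def Arc (h : Γ) : Set X :=
  ⋃ z : ℕ × Γ, (fun y => z.2⁻¹ • y) ⁻¹' Pc Φ T z.1 z.2 (h * z.2 * (Φ z.1).1⁻¹)

variable {Φ T}

theorem Lv_mono {m n : ℕ} (h : m ≤ n) {p : X} (hp : Lv Φ T m p) : Lv Φ T n p := by
  induction h with
  | refl => exact hp
  | step _ ih => exact Or.inl ih

theorem Cm_unique {m m' : ℕ × Bool} {p : X} (h : p ∈ Cm Φ T m) (h' : p ∈ Cm Φ T m') : m = m' := by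
  obtain ⟨n, h1, h2, h3⟩ := h
  obtain ⟨n', h1', h2', h3'⟩ := h'
  have e : n = n' := by
    rcases lt_trichotomy n n' with hlt | he | hlt
    · exact absurd (Lv_mono hlt (Or.inr ⟨m, h2⟩ : Lv Φ T (n + 1) p)) h1'
    · exact he
    · exact absurd (Lv_mono hlt (Or.inr ⟨m', h2'⟩ : Lv Φ T (n' + 1) p)) h1
  subst e
  apply Encodable.encode_injective
  rcases lt_trichotomy (Encodable.encode m) (Encodable.encode m') with hlt | he | hlt
  · exact absurd h2 (h3' m hlt)
  · exact he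
  · exact absurd h2' (h3 m' hlt)

theorem not_mem_of_Cm {m : ℕ × Bool} {p : X} (h : p ∈ Cm Φ T m) : p ∉ T := by
  obtain ⟨n, h1, -⟩ := h
  exact fun hp => h1 (Lv_mono (Nat.zero_le n) hp)

theorem exists_Ch {n : ℕ} {p : X} (h : Lv Φ T (n + 1) p) (h' : ¬ Lv Φ T n p) :
    ∃ m, Ch Φ T n m p := by
  classical
  have hex : ∃ k, ∃ m : ℕ × Bool, Encodable.encode m = k ∧ Dom Φ m p ∧ Lv Φ T n (st Φ m • p) := by
    rcases h with h | ⟨m, hm⟩
    · exact absurd h h'
    · exact ⟨_, m, rfl, hm⟩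
  obtain ⟨m, hm1, hm2⟩ := Nat.find_spec hex
  exact ⟨m, h', hm2, fun m' hlt hm' => Nat.find_min hex (hm1 ▸ hlt) ⟨m', rfl, hm'⟩⟩

theorem mem_or_Cm {n : ℕ} {p : X} (h : Lv Φ T n p) : p ∈ T ∨ ∃ m, p ∈ Cm Φ T m := by
  induction n with
  | zero => exact Or.inl h
  | succ n ih =>
    by_cases h' : Lv Φ T n p
    · exact ih h'
    · obtain ⟨m, hm⟩ := exists_Ch h h'
      exact Or.inr ⟨m, n, hm⟩

theorem Root.step {m : ℕ × Bool} {p : X} (h : p ∈ Cm Φ T m) {g : Γ}
    (hg : Root Φ T g (st Φ m • p)) : Root Φ T (g * st Φ m) p := by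
  obtain ⟨n, hn⟩ := hg
  exact ⟨n + 1, m, h, by rwa [mul_inv_cancel_right]⟩

theorem exists_root {n : ℕ} : ∀ {p : X}, Lv Φ T n p → ∃ g, Root Φ T g p := by
  induction n with
  | zero => intro p h; exact ⟨1, 0, h, rfl⟩
  | succ n ih =>
    intro p h
    by_cases h' : Lv Φ T n p
    · exact ih h'
    · obtain ⟨m, hm⟩ := exists_Ch h h'
      obtain ⟨g, hg⟩ := ih hm.2.1.2
      exact ⟨_, Root.step ⟨n, hm⟩ hg⟩

theorem RN_unique {n : ℕ} : ∀ {n' : ℕ} {g g' : Γ} {p : X}, RN Φ T n g p → RN Φ T n' g' p →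
    g = g' := by
  induction n with
  | zero =>
    rintro (_ | n') g g' p h h'
    · exact h.2.trans h'.2.symm
    · obtain ⟨m, hm, -⟩ := h'
      exact absurd h.1 (not_mem_of_Cm hm)
  | succ n ih =>
    rintro (_ | n') g g' p ⟨m, hm, h⟩ h'
    · exact absurd h'.1 (not_mem_of_Cm hm)
    · obtain ⟨m', hm', h'⟩ := h'
      rw [← Cm_unique hm hm'] at h'
      exact mul_right_cancel (ih h h')

theorem Root.unique {g g' : Γ} {p : X} (h : Root Φ T g p) (h' : Root Φ T g' p) : g = g' := by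
  obtain ⟨n, hn⟩ := h
  obtain ⟨n', hn'⟩ := h'
  exact RN_unique hn hn'

theorem Used_subset (i : ℕ) : Used Φ T i ⊆ (Φ i).2 := by
  rintro q (⟨n, -, h, -⟩ | ⟨n, -, h, -⟩)
  · simpa [Dom] using h.1
  · simpa [Dom] using h.1

theorem Used_disjoint (i : ℕ) :
    Disjoint (Cm Φ T (i, true)) ((fun q => (Φ i).1 • q) ⁻¹' Cm Φ T (i, false)) := by
  refine Set.disjoint_left.mpr ?_
  rintro q ⟨n, h1, h2, -⟩ ⟨n', h1', h2', -⟩
  have a1 : Lv Φ T n ((Φ i).1 • q) := by simpa [st] using h2.2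
  have a2 : Lv Φ T n' q := by simpa [st] using h2'.2
  rcases le_total n n' with h | h
  · exact h1' (Lv_mono h a1)
  · exact h1 (Lv_mono h a2)

theorem step_roots (A : Subgroup Γ) {y y' : X} (h : Crest.Dynamics.GraphingStep Φ y y')
    {g g' : Γ} (hg : Root Φ T g y) (hg' : Root Φ T g' y') :
    EqvGen (ArcStep A (Arc Φ T)) (g • y) (g' • y') := by
  obtain ⟨i, hi, rfl⟩ := h
  by_cases hu : y ∈ Used Φ T i
  · rcases hu with hu | hu
    · have := hg.unique (Root.step hu (g := g') (by simpa [st] using hg'))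
      rw [this, mul_smul]
      exact EqvGen.refl _
    · have := hg'.unique (Root.step hu (g := g) (by simpa [st] using hg))
      rw [this]
      simp only [st, mul_smul, Bool.false_eq_true, if_false, inv_smul_smul]
      exact EqvGen.refl _
  · refine EqvGen.rel _ _ (Or.inr ⟨g' * (Φ i).1 * g⁻¹, ?_, by simp [mul_smul]⟩)
    refine Set.mem_iUnion.mpr ⟨(i, g), ?_⟩
    simp only [Set.mem_preimage, inv_smul_smul, inv_mul_cancel_right, mul_inv_cancel_right]
    exact ⟨⟨hi, hu⟩, hg, hg'⟩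

theorem Lv_step {y y' : X} (h : Crest.Dynamics.GraphingStep Φ y y' ∨
    Crest.Dynamics.GraphingStep Φ y' y) {n : ℕ} (hy : Lv Φ T n y) : Lv Φ T (n + 1) y' := by
  rcases h with ⟨i, hi, rfl⟩ | ⟨i, hi, rfl⟩
  · exact Or.inr ⟨(i, false), by simpa [Dom] using hi, by simpa [st] using hy⟩
  · exact Or.inr ⟨(i, true), by simpa [Dom] using hi, by simpa [st] using hy⟩

theorem conn (A : Subgroup Γ) {u y : X} (hu : u ∈ T)
    (h : EqvGen (Crest.Dynamics.GraphingStep Φ) u y) :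
    (∃ n, Lv Φ T n y) ∧ ∀ g, Root Φ T g y → EqvGen (ArcStep A (Arc Φ T)) u (g • y) := by
  refine (eqvGen_closed (P := fun y => (∃ n, Lv Φ T n y) ∧
    ∀ g, Root Φ T g y → EqvGen (ArcStep A (Arc Φ T)) u (g • y)) ?_ h).mp ⟨⟨0, hu⟩, ?_⟩
  · rintro b c ⟨⟨n, hn⟩, hb⟩ hbc
    refine ⟨⟨n + 1, Lv_step hbc hn⟩, fun g' hg' => ?_⟩
    obtain ⟨g, hg⟩ := exists_root hn
    rcases hbc with h1 | h1
    · exact EqvGen.trans _ _ _ (hb g hg) (step_roots A h1 hg hg')
    · exact EqvGen.trans _ _ _ (hb g hg) (EqvGen.symm _ _ (step_roots A h1 hg' hg))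
  · intro g hg
    rw [hg.unique ⟨0, hu, rfl⟩, one_smul]
    exact EqvGen.refl _

section Meas

variable [MeasurableSpace X] (hm : ∀ g : Γ, Measurable fun p : X => g • p)
  (hΦ : ∀ i, MeasurableSet (Φ i).2) (hT : MeasurableSet T)

include hm hΦ

theorem meas_Dom (m : ℕ × Bool) : Measurable (Dom Φ m) := by
  unfold Dom
  split_ifs
  · exact (hΦ _).mem
  · exact (hΦ _).mem.comp (hm _)

include hT

theorem meas_Lv (n : ℕ) : Measurable (Lv Φ T n) := by
  induction n with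
  | zero => exact hT.mem
  | succ n ih => exact ih.or (Measurable.exists fun m => (meas_Dom hm hΦ m).and (ih.comp (hm _)))

theorem meas_Cm (m : ℕ × Bool) : MeasurableSet (Cm Φ T m) :=
  measurableSet_setOfPred.mpr (Measurable.exists fun n => (meas_Lv hm hΦ hT n).not.and
    (((meas_Dom hm hΦ m).and ((meas_Lv hm hΦ hT n).comp (hm _))).and
    (Measurable.forall fun m' => measurable_const.imp
      ((meas_Dom hm hΦ m').and ((meas_Lv hm hΦ hT n).comp (hm _))).not)))

theorem meas_RN (n : ℕ) : ∀ g : Γ, Measurable (RN Φ T n g) := by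
  induction n with
  | zero => intro g; exact hT.mem.and measurable_const
  | succ n ih =>
    intro g
    exact Measurable.exists fun m => (meas_Cm hm hΦ hT m).mem.and ((ih _).comp (hm _))

theorem meas_Used (i : ℕ) : MeasurableSet (Used Φ T i) :=
  (meas_Cm hm hΦ hT _).union (hm _ (meas_Cm hm hΦ hT _))

theorem meas_Pc (i : ℕ) (g g' : Γ) : MeasurableSet (Pc Φ T i g g') :=
  measurableSet_setOfPred.mpr (((hΦ i).diff (meas_Used hm hΦ hT i)).mem.and
    ((Measurable.exists fun n => meas_RN hm hΦ hT n g).and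
    ((Measurable.exists fun n => meas_RN hm hΦ hT n g').comp (hm _))))

end Meas

end Reduce

open Reduce in
theorem exists_arcs {Γ X : Type} [Group Γ] [Countable Γ] [MulAction Γ X] [MeasurableSpace X]
    {μ : Measure X} [IsProbabilityMeasure μ] (hX : FreePMP Γ X μ) (A : Subgroup Γ)
    (T : Set X) (hT : MeasurableSet T) (hTA : ∀ p, ∃ a ∈ A, a • p ∈ T)
    (Φ : ℕ → Γ × Set X) (hΦ : Crest.Dynamics.Generates μ Φ) :
    ∃ D : Γ → Set X, (∀ h, MeasurableSet (D h)) ∧
      ∑' h, μ (D h) + 1 ≤ Crest.Dynamics.graphingCost μ Φ + μ T ∧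
      ∀ᵐ p ∂μ, ∀ g : Γ, EqvGen (ArcStep A D) p (g • p) := by
  obtain ⟨hΦm, N, hN, hgen⟩ := hΦ
  have hm : ∀ g : Γ, Measurable fun p : X => g • p := fun g => (hX.mp g).measurable
  have hPc := meas_Pc hm hΦm hT
  have hCm := meas_Cm hm hΦm hT
  refine ⟨Arc Φ T, fun h => MeasurableSet.iUnion fun z => hm _ (hPc _ _ _), ?_, ?_⟩
  · have h1 : ∑' h, μ (Arc Φ T h) ≤ ∑' i, μ ((Φ i).2 \ Used Φ T i) := by
      calc ∑' h, μ (Arc Φ T h)
          ≤ ∑' h, ∑' z : ℕ × Γ, μ (Pc Φ T z.1 z.2 (h * z.2 * (Φ z.1).1⁻¹)) := by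
            refine ENNReal.tsum_le_tsum fun h => (measure_iUnion_le _).trans (le_of_eq ?_)
            exact tsum_congr fun z =>
              (hX.mp z.2⁻¹).measure_preimage (hPc _ _ _).nullMeasurableSet
        _ = ∑' i, ∑' z : Γ × Γ, μ (Pc Φ T i z.2 (z.1 * z.2 * (Φ i).1⁻¹)) := by
            simp only [ENNReal.tsum_prod']
            exact ENNReal.tsum_comm
        _ ≤ _ := by
            refine ENNReal.tsum_le_tsum fun i => ?_
            rw [← measure_iUnion ?_ fun z : Γ × Γ => hPc i z.2 (z.1 * z.2 * (Φ i).1⁻¹)]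
            · exact measure_mono (Set.iUnion_subset fun z q hq => hq.1)
            · rintro ⟨h, g⟩ ⟨h', g'⟩ hne
              refine Set.disjoint_left.mpr fun q hq hq' => hne ?_
              have e1 : g = g' := hq.2.1.unique hq'.2.1
              have e2 := hq.2.2.unique hq'.2.2
              subst e1
              simpa using e2
    have h2 : 1 ≤ ∑' i, μ (Used Φ T i) + μ T := by
      have e1 : ∑' i, μ (Used Φ T i) = μ (⋃ m, Cm Φ T m) := by
        rw [measure_iUnion (fun m m' hne => Set.disjoint_left.mpr fun p h h' =>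
          hne (Cm_unique h h')) hCm, ENNReal.tsum_prod']
        refine tsum_congr fun i => ?_
        rw [Used, measure_union (Used_disjoint i) (hm _ (hCm _)), tsum_bool,
          (hX.mp _).measure_preimage (hCm _).nullMeasurableSet, add_comm]
      have e2 : (Set.univ : Set X) ⊆ (⋃ m, Cm Φ T m) ∪ T ∪ N := by
        intro p _
        by_cases hp : p ∈ N
        · exact Or.inr hp
        obtain ⟨a, -, ha⟩ := hTA p
        obtain ⟨n, hn⟩ := (conn A ha (EqvGen.symm _ _ (hgen p hp a))).1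
        rcases mem_or_Cm hn with h | h
        · exact Or.inl (Or.inr h)
        · exact Or.inl (Or.inl (Set.mem_iUnion.mpr h))
      calc (1 : ENNReal) = μ Set.univ := measure_univ.symm
        _ ≤ μ ((⋃ m, Cm Φ T m) ∪ T) + μ N := (measure_mono e2).trans (measure_union_le _ _)
        _ ≤ _ := by
            rw [hN, add_zero, e1]
            exact measure_union_le _ _
    calc ∑' h, μ (Arc Φ T h) + 1
        ≤ ∑' i, μ ((Φ i).2 \ Used Φ T i) + (∑' i, μ (Used Φ T i) + μ T) := add_le_add h1 h2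
      _ = _ := by
          rw [← add_assoc, ← ENNReal.tsum_add]
          congr 1
          refine tsum_congr fun i => ?_
          rw [← measure_union Set.disjoint_sdiff_left (meas_Used hm hΦm hT i),
            Set.sdiff_union_of_subset (Used_subset i)]
  · have : ∀ᵐ p ∂μ, p ∉ N := measure_eq_zero_iff_ae_notMem.mp hN
    filter_upwards [this] with p hp g
    obtain ⟨a, haA, ha⟩ := hTA p
    obtain ⟨a', haA', ha'⟩ := hTA (g • p)
    have h1 : EqvGen (Crest.Dynamics.GraphingStep Φ) (a • p) (a' • g • p) :=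
      EqvGen.trans _ _ _ (EqvGen.symm _ _ (hgen p hp a)) (mul_smul a' g p ▸ hgen p hp (a' * g))
    have h2 := (conn A ha h1).2 1 ⟨0, ha', rfl⟩
    rw [one_smul] at h2
    exact EqvGen.trans _ _ _ (EqvGen.rel _ _ (Or.inl ⟨a, haA, rfl⟩)) (EqvGen.trans _ _ _ h2
      (EqvGen.symm _ _ (EqvGen.rel _ _ (Or.inl ⟨a', haA', rfl⟩))))

end Crest.Agent.R191
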