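import Crest.Agent.R191.Defs

/-!
Small complete sections, absence of atoms.
-/

set_option autoImplicit false

namespace Crest.Agent.R191

open MeasureTheory

variable {Γ X : Type} [Group Γ] [MulAction Γ X] [MeasurableSpace X]

lemma Section_null {μ : Measure X} [IsProbabilityMeasure μ] (hX : FreePMP Γ X μ) {Z : Set X}
    (hZ : MeasurableSet Z) {ι : Type} [Countable ι] [Infinite ι] (g : ι → Γ)
    (hd : ∀ i j p, g i • p ∈ Z → g j • p ∈ Z → i = j) : μ Z = 0 := by
  by_contra h
  have h1 : μ (⋃ i, (fun p => g i • p) ⁻¹' Z) = ∑' i, μ ((fun p => g i • p) ⁻¹' Z) :=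
    measure_iUnion (fun i j hij => Set.disjoint_left.mpr fun p h1 h2 => hij (hd i j p h1 h2))
      fun i => (hX.mp (g i)).measurable hZ
  simp only [fun i => (hX.mp (g i)).measure_preimage hZ.nullMeasurableSet] at h1
  rw [ENNReal.tsum_const_eq_top_of_ne_zero h] at h1
  exact measure_ne_top _ _ h1

theorem FreePMP.measure_singleton {μ : Measure X} [IsProbabilityMeasure μ]
    [MeasurableSingletonClass X] [Infinite Γ] (hX : FreePMP Γ X μ) (p : X) : μ {p} = 0 := by
  refine Section_null hX (measurableSet_singleton p) (Infinite.natEmbedding Γ) fun i j q h1 h2 => ?_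
  apply (Infinite.natEmbedding Γ).injective
  rw [Set.mem_singleton_iff] at h1 h2
  have := hX.free ((Infinite.natEmbedding Γ j)⁻¹ * Infinite.natEmbedding Γ i) q
    (by rw [mul_smul, h1, ← h2, inv_smul_smul])
  exact (inv_mul_eq_one.mp this).symm

theorem FreePMP.exists_small_section {μ : Measure X} [IsProbabilityMeasure μ]
    [StandardBorelSpace X] (hX : FreePMP Γ X μ) {t : Γ} (ht : ¬ IsOfFinOrder t)
    {δ : ENNReal} (hδ : 0 < δ) :
    ∃ T : Set X, MeasurableSet T ∧ μ T ≤ δ ∧ ∀ p, ∃ n : ℤ, t ^ n • p ∈ T := by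
  let l : X → ENNReal := fun p => ENNReal.ofReal (Real.exp (embeddingReal X p))
  have hl : Measurable l :=
    (Real.measurable_exp.comp (measurableEmbedding_embeddingReal X).measurable).ennreal_ofReal
  have hli : Function.Injective l := fun p q h => by
    apply (measurableEmbedding_embeddingReal X).injective
    apply Real.exp_injective
    exact (ENNReal.ofReal_eq_ofReal_iff (Real.exp_pos _).le (Real.exp_pos _).le).mp h
  let s : X → ENNReal := fun p => ⨅ n : ℤ, l (t ^ n • p)
  have hs : Measurable s := Measurable.iInf fun n => hl.comp (hX.mp _).measurable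
  have hsle : ∀ p (n : ℤ), s p ≤ l (t ^ n • p) := fun p n => iInf_le (fun n : ℤ => l (t ^ n • p)) n
  have hst : ∀ p (n : ℤ), s (t ^ n • p) = s p := fun p n => by
    refine le_antisymm (le_iInf fun m => ?_) (le_iInf fun m => ?_)
    · have := hsle (t ^ n • p) (m - n)
      rwa [← mul_smul, ← zpow_add, sub_add_cancel] at this
    · rw [← mul_smul, ← zpow_add]; exact hsle _ _
  have hsf : ∀ p, s p ≠ ⊤ := fun p => ne_top_of_le_ne_top ENNReal.ofReal_ne_top (hsle p 0)
  let T : ℕ → Set X := fun k => {p | l p < s p + ((k + 1 : ℕ) : ENNReal)⁻¹}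
  have hT : ∀ k, MeasurableSet (T k) := fun k => measurableSet_lt hl (hs.add_const _)
  have hanti : Antitone T := fun k k' h p hp => by
    refine lt_of_lt_of_le (show l p < _ from hp) ?_
    gcongr
  have hZ : μ (⋂ k, T k) = 0 := by
    have key : ∀ p ∈ ⋂ k, T k, l p ≤ s p := fun p hp => by
      refine ENNReal.le_of_forall_pos_le_add fun ε hε _ => ?_
      obtain ⟨k, hk⟩ := ENNReal.exists_inv_nat_lt (a := ε) (by simpa using hε.ne')
      refine (le_of_lt (Set.mem_iInter.mp hp k)).trans ?_
      gcongr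
      refine le_trans ?_ hk.le
      gcongr; omega
    refine Section_null hX (MeasurableSet.iInter hT) (fun n : ℤ => t ^ n) fun i j p h1 h2 => ?_
    have e1 := key _ h1
    have e2 := key _ h2
    rw [hst] at e1 e2
    have e3 := hli (le_antisymm (e1.trans (hsle p j)) (e2.trans (hsle p i)))
    have := hX.free ((t ^ j)⁻¹ * t ^ i) p (by rw [mul_smul, e3, inv_smul_smul])
    exact (injective_zpow_iff_not_isOfFinOrder.mpr ht (inv_mul_eq_one.mp this)).symm
  have hlim := tendsto_measure_iInter_atTop (μ := μ) (fun k => (hT k).nullMeasurableSet) hanti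
    ⟨0, measure_ne_top _ _⟩
  rw [hZ] at hlim
  obtain ⟨k, hk⟩ := (hlim.eventually (Iio_mem_nhds hδ)).exists
  refine ⟨T k, hT k, le_of_lt hk, fun p => ?_⟩
  have : s p < s p + ((k + 1 : ℕ) : ENNReal)⁻¹ :=
    ENNReal.lt_add_right (hsf p) (by simp)
  obtain ⟨n, hn⟩ := iInf_lt_iff.mp this
  exact ⟨n, by simpa only [T, Set.mem_ofPred_eq, hst] using hn⟩

end Crest.Agent.R191
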