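import Crest.Agent.R191.Core
import Crest.Agent.R191.Build
import Crest.Agent.R191.Reduce
import Crest.Agent.R191.Section

/-!
The lower bound for the cost of an expanding action.
-/

set_option autoImplicit false

namespace Crest.Agent.R191

open MeasureTheory Relation Filter Topology

theorem arcs_lower {Γ X : Type} [Group Γ] [Countable Γ] [Infinite Γ] [MulAction Γ X]
    [MeasurableSpace X] [StandardBorelSpace X] {μ : Measure X} [IsProbabilityMeasure μ]
    (hX : FreePMP Γ X μ) (G : GData Γ) (A : Subgroup Γ) (hsc : SimplyConn G A)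
    (hpc : PathConn G A) (hg0 : G.g 0 = 1) (hexp : Expands μ (G.g 1) (G.g 2))
    (D : Γ → Set X) (hD : ∀ h, MeasurableSet (D h))
    (hconn : ∀ᵐ p ∂μ, EqvGen (ArcStep A D) p (G.x • p)) :
    ENNReal.ofReal (1 / 5000) ≤ ∑' h, μ (D h) := by
  classical
  obtain ⟨IE, IV, IA, _, _, _, S, C, hmeas, hgood, harc, h0, h1, F, hloc⟩ :=
    exists_family hX G A hsc hpc D hD hconn (δ := ENNReal.ofReal (1 / 100000)) (by simp)
  -- the labelling
  set ℓ : X → ℝ := fun p => (Real.sigmoid (embeddingReal X p) : ℝ) with hℓ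
  have hℓm : Measurable ℓ :=
    continuous_sigmoid.measurable.comp (measurableEmbedding_embeddingReal X).measurable
  have hℓi : Function.Injective ℓ :=
    Real.sigmoid_injective.comp (measurableEmbedding_embeddingReal X).injective
  have hℓ0 : ∀ p, 0 < ℓ p := fun p => Real.sigmoid_pos _
  have hℓ1 : ∀ p, ℓ p < 1 := fun p => Real.sigmoid_lt_one _
  set U : ℝ → Set X := fun s => {p | ℓ p ≤ s} with hU
  have hUm : ∀ s, MeasurableSet (U s) := fun s => measurableSet_le hℓm measurable_const
  have hU0 : U 0 = ∅ := by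
    ext p; simp [hU, hℓ0 p]
  have hU1 : U 1 = Set.univ := by
    ext p; simp [hU, (hℓ1 p).le]
  set N : ℕ := 100000 * Fintype.card IV + 1 with hN
  have hNpos : 0 < N := by omega
  -- continuity
  have hcont : Continuous (fun s => μ.real ((C (U s)).B N)) := by
    rw [continuous_iff_continuousAt]
    intro s₀
    have hae : ∀ᵐ p ∂μ, ∀ h : Γ, ℓ (h • p) ≠ s₀ := by
      rw [ae_all_iff]
      intro h
      have h1 : μ {q | ℓ q = s₀} = 0 := by
        by_cases hne : ∃ q, ℓ q = s₀
        · obtain ⟨q, hq⟩ := hne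
          have : {q' | ℓ q' = s₀} = {q} := by
            ext q'
            simp only [Set.mem_ofPred_eq, Set.mem_singleton_iff]
            constructor
            · intro h'; exact hℓi (h'.trans hq.symm)
            · rintro rfl; exact hq
          rw [this]
          exact hX.measure_singleton q
        · have : {q' | ℓ q' = s₀} = ∅ := by
            ext q'
            simp only [Set.mem_ofPred_eq, Set.mem_empty_iff_false, iff_false]
            exact fun h' => hne ⟨q', h'⟩
          rw [this]; simp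
      have h2 : ∀ᵐ q ∂μ, ℓ q ≠ s₀ := by
        rw [ae_iff]; simpa using h1
      exact (hX.mp h).quasiMeasurePreserving.ae h2
    have hev : ∀ᵐ p ∂μ, ∀ᶠ s in 𝓝 s₀, ∀ h ∈ F, h • p ∈ U s ↔ h • p ∈ U s₀ := by
      filter_upwards [hae] with p hp
      rw [Filter.eventually_all_finset]
      intro h _
      rcases lt_or_gt_of_ne (hp h) with hlt | hgt
      · filter_upwards [lt_mem_nhds hlt] with s hs
        simp [hU, hs.le, hlt.le]
      · filter_upwards [gt_mem_nhds hgt] with s hs
        simp [hU, not_le.mpr hs, not_le.mpr hgt]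
    refine Cfg.continuousAt_measure_B hX (fun s => C (U s)) (fun s => hmeas _ (hUm s)) N s₀ ?_ ?_
    · filter_upwards [hev] with p hp e
      filter_upwards [hp] with s hs
      exact (hloc _ _ p hs).1 e
    · filter_upwards [hev] with p hp v v' h
      filter_upwards [hp] with s hs
      exact (hloc _ _ p hs).2 v v' h
  have hb0 : μ.real ((C (U 0)).B N) = 0 := by
    have : (C (U 0)).B N = ∅ := by
      ext y
      simp only [Cfg.B, Set.mem_ofPred_eq, Set.mem_empty_iff_false, iff_false]
      rintro ⟨e, q, hq, -⟩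
      rw [hU0] at hq
      exact h0 e q hq
    rw [this]; simp
  have hb1 : μ.real ((C (U 1)).B N) = 1 := by
    have : (C (U 1)).B N = Set.univ := by
      ext y
      simp only [Cfg.B, Set.mem_ofPred_eq, Set.mem_univ, iff_true]
      obtain ⟨e, he, hpos, hbo, hbi⟩ := h1 y
      refine ⟨e, y, by rw [hU1]; exact he, by rw [hpos, one_smul], ?_, ?_⟩
      · intro hs; exact hs.2 _ (EqvGen.refl _) hbo
      · intro hs; exact hs.2 _ (EqvGen.refl _) hbi
    rw [this]; simp
  obtain ⟨s, -, hs⟩ : ∃ s ∈ Set.Icc (0 : ℝ) 1, μ.real ((C (U s)).B N) = 1 / 2 := by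
    have := intermediate_value_Icc (a := (0 : ℝ)) (b := 1) zero_le_one hcont.continuousOn
    rw [hb0, hb1] at this
    exact this ⟨by norm_num, by norm_num⟩
  set B := (C (U s)).B N with hB
  have hBm : MeasurableSet B := Cfg.measurableSet_B hX (hmeas _ (hUm s)) N
  have hcore := core_ineq hX G (C (U s)) (hmeas _ (hUm s)) (hgood _) N hNpos
  have hexp' := hexp B hBm
  rw [hs] at hexp'
  have hset : {c | ∀ i, G.g i • c ∈ B} = {c | c ∈ B ∧ G.g 1 • c ∈ B ∧ G.g 2 • c ∈ B} := by
    ext c
    simp only [Set.mem_ofPred_eq, Fin.forall_fin_succ, hg0, one_smul]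
    simp
  rw [← hB, hset] at hcore
  by_contra hlt
  push Not at hlt
  have hfin : ∑' h, μ (D h) ≠ ⊤ := ne_top_of_lt hlt
  have hB' : μ B = ENNReal.ofReal (1 / 2) := by
    rw [← hs, ofReal_measureReal]
  have hC' : μ {c | c ∈ B ∧ G.g 1 • c ∈ B ∧ G.g 2 • c ∈ B} ≤
      ENNReal.ofReal (1 / 2 - 1 / 2 * (1 - 1 / 2) / 1000) := by
    rw [← ofReal_measureReal]
    exact ENNReal.ofReal_le_ofReal hexp'
  have hcard : (Fintype.card IV : ENNReal) / N ≤ ENNReal.ofReal (1 / 100000) := by
    rw [ENNReal.div_le_iff (by exact_mod_cast hNpos.ne') (by simp)]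
    rw [← ENNReal.ofReal_natCast N, ← ENNReal.ofReal_mul (by norm_num),
      ← ENNReal.ofReal_natCast]
    apply ENNReal.ofReal_le_ofReal
    rw [hN]; push_cast
    have : (0 : ℝ) ≤ Fintype.card IV := Nat.cast_nonneg _
    linarith
  have hfinal : ENNReal.ofReal (1 / 2) ≤ ENNReal.ofReal (1 / 2 - 1 / 2 * (1 - 1 / 2) / 1000) +
      (ENNReal.ofReal (1 / 5000) + ENNReal.ofReal (1 / 100000)) + ENNReal.ofReal (1 / 100000) := by
    rw [← hB']
    refine hcore.trans ?_
    gcongr
    exact (harc _).trans (by gcongr)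
  rw [← ENNReal.ofReal_add (by norm_num) (by norm_num),
    ← ENNReal.ofReal_add (by norm_num) (by norm_num),
    ← ENNReal.ofReal_add (by norm_num) (by norm_num),
    ENNReal.ofReal_le_ofReal_iff (by norm_num)] at hfinal
  norm_num at hfinal

theorem cost_lower {Γ X : Type} [Group Γ] [Countable Γ] [MulAction Γ X]
    [MeasurableSpace X] [StandardBorelSpace X] {μ : Measure X} [IsProbabilityMeasure μ]
    (hX : FreePMP Γ X μ) (G : GData Γ) (A : Subgroup Γ) (hsc : SimplyConn G A)
    (hpc : PathConn G A) (hg0 : G.g 0 = 1) (hexp : Expands μ (G.g 1) (G.g 2))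
    {t : Γ} (ht : ¬ IsOfFinOrder t) (htA : t ∈ A) :
    1 + ENNReal.ofReal (1 / 10000) ≤ Crest.Dynamics.actionCost Γ X μ := by
  have : Infinite Γ := by
    by_contra hfin
    rw [not_infinite_iff_finite] at hfin
    exact ht (isOfFinOrder_of_finite t)
  refine le_sInf ?_
  rintro c ⟨Φ, hΦ, rfl⟩
  obtain ⟨T, hTm, hTδ, hT⟩ :=
    hX.exists_small_section ht (δ := ENNReal.ofReal (1 / 10000)) (by simp)
  obtain ⟨D, hD, hcost, hconn⟩ := exists_arcs hX A T hTm
    (fun p => by
      obtain ⟨n, hn⟩ := hT p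
      exact ⟨t ^ n, A.zpow_mem htA n, hn⟩) Φ hΦ
  have hlow := arcs_lower hX G A hsc hpc hg0 hexp D hD
    (by filter_upwards [hconn] with p hp using hp G.x)
  have h1 : ENNReal.ofReal (1 / 5000) + 1 ≤
      Crest.Dynamics.graphingCost μ Φ + ENNReal.ofReal (1 / 10000) :=
    (add_le_add_left hlow 1).trans (hcost.trans (add_le_add_right hTδ _))
  have h2 : ENNReal.ofReal (1 / 5000) + 1 =
      (1 + ENNReal.ofReal (1 / 10000)) + ENNReal.ofReal (1 / 10000) := by
    rw [add_assoc, ← ENNReal.ofReal_add (by norm_num) (by norm_num), add_comm]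
    norm_num
  rw [h2] at h1
  exact (ENNReal.add_le_add_iff_right ENNReal.ofReal_ne_top).mp h1

end Crest.Agent.R191
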