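import Crest.Agent.R191.Defs

/-!
Measurable relations inside orbits: generated equivalence, class sizes, representatives.
-/

set_option autoImplicit false

namespace Crest.Agent.R191

open MeasureTheory Relation

/-- Reachability in at most `n` steps of the symmetrised relation. -/
def Within {α : Type} (R : α → α → Prop) (a : α) : ℕ → α → Prop
  | 0, b => b = a
  | n + 1, b => Within R a n b ∨ ∃ c, Within R a n c ∧ (R c b ∨ R b c)

theorem Within.mono {α : Type} {R : α → α → Prop} {a b : α} {m n : ℕ} (h : Within R a m b)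
    (hmn : m ≤ n) : Within R a n b := by
  induction hmn with
  | refl => exact h
  | step _ ih => exact Or.inl ih

theorem Within.eqvGen {α : Type} {R : α → α → Prop} {a : α} {n : ℕ} :
    ∀ {b : α}, Within R a n b → EqvGen R a b := by
  induction n with
  | zero => intro b h; rw [show b = a from h]; exact EqvGen.refl _
  | succ n ih =>
    rintro b (h | ⟨c, hc, h | h⟩)
    · exact ih h
    · exact EqvGen.trans _ _ _ (ih hc) (EqvGen.rel _ _ h)
    · exact EqvGen.trans _ _ _ (ih hc) (EqvGen.symm _ _ (EqvGen.rel _ _ h))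

theorem eqvGen_closed {α : Type} {R : α → α → Prop} {P : α → Prop}
    (hP : ∀ b c, P b → (R b c ∨ R c b) → P c) {a b : α} (h : EqvGen R a b) : P a ↔ P b := by
  induction h with
  | rel a b h => exact ⟨fun ha => hP _ _ ha (Or.inl h), fun hb => hP _ _ hb (Or.inr h)⟩
  | refl => rfl
  | symm _ _ _ ih => exact ih.symm
  | trans _ _ _ _ _ ih1 ih2 => exact ih1.trans ih2

theorem eqvGen_iff_within {α : Type} {R : α → α → Prop} {a b : α} :
    EqvGen R a b ↔ ∃ n, Within R a n b :=
  ⟨fun h => (eqvGen_closed (P := fun b => ∃ n, Within R a n b)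
    (fun _ _ ⟨n, hn⟩ h => ⟨n + 1, Or.inr ⟨_, hn, h⟩⟩) h).mp ⟨0, rfl⟩, fun ⟨_, h⟩ => h.eqvGen⟩

theorem within_of_encard_le {α : Type} {R : α → α → Prop} {a b : α} {D : ℕ}
    (hD : {c | EqvGen R a c}.encard ≤ D) (h : EqvGen R a b) : Within R a D b := by
  by_contra hn
  have key : ∀ n, n ≤ D → ((n + 1 : ℕ) : ℕ∞) ≤ {c | Within R a n c}.encard := by
    intro n hnD
    induction n with
    | zero =>
      have : {c | Within R a 0 c} = {a} := rfl
      rw [this]; simp
    | succ n ih =>
      have h1 : ∃ c, Within R a (n + 1) c ∧ ¬ Within R a n c := by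
        by_contra hc
        push Not at hc
        have := (eqvGen_closed (P := fun c => Within R a n c)
          (fun c c' h1 h2 => hc c' (Or.inr ⟨c, h1, h2⟩)) h).mp
          (Within.mono (m := 0) rfl (Nat.zero_le _))
        exact hn (this.mono (by omega))
      obtain ⟨c, hc1, hc2⟩ := h1
      have h2 : insert c {c | Within R a n c} ⊆ {c | Within R a (n + 1) c} :=
        Set.insert_subset hc1 fun _ h => Or.inl h
      refine le_trans ?_ (Set.encard_le_encard h2)
      rw [Set.encard_insert_of_notMem (s := {c | Within R a n c}) hc2, Nat.cast_succ]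
      exact add_le_add_left (ih (by omega)) 1
  have h1 := (key D le_rfl).trans ((Set.encard_le_encard fun c hc => Within.eqvGen hc).trans hD)
  norm_cast at h1
  omega

variable {Γ X I : Type} [Group Γ] [Countable Γ] [MulAction Γ X] [MeasurableSpace X] [Fintype I]
  {μ : Measure X}

omit [Countable Γ] [Fintype I] in
theorem MRel.measurableSet_shift (hX : FreePMP Γ X μ) {R : X × I → X × I → Prop}
    (hR : MRel Γ R) (u u' : Γ) (i i' : I) :
    MeasurableSet {p : X | R (u • p, i) (u' • p, i')} := by
  have := (hX.mp u).measurable (hR.2 (u' * u⁻¹) i i')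
  convert this using 1
  ext p
  simp [mul_smul]

omit [Countable Γ] [Fintype I] in
theorem MRel.eqvGen_orbit {R : X × I → X × I → Prop} (hR : MRel Γ R) {w w' : X × I}
    (h : EqvGen R w w') : ∃ h : Γ, w'.1 = h • w.1 := by
  refine (eqvGen_closed (P := fun w' : X × I => ∃ h : Γ, w'.1 = h • w.1) ?_ h).mp
    ⟨1, (one_smul _ _).symm⟩
  rintro b c ⟨g, hg⟩ (h | h)
  · obtain ⟨k, hk⟩ := hR.1 _ _ h
    exact ⟨k * g, by rw [hk, hg, mul_smul]⟩
  · obtain ⟨k, hk⟩ := hR.1 _ _ h
    exact ⟨k⁻¹ * g, by rw [mul_smul, ← hg, hk, inv_smul_smul]⟩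

theorem MRel.eqvGen (hX : FreePMP Γ X μ) {R : X × I → X × I → Prop} (hR : MRel Γ R) :
    MRel Γ (EqvGen R) := by
  refine ⟨fun w w' h => hR.eqvGen_orbit h, fun h i i' => ?_⟩
  have key : ∀ n (h : Γ) (i' : I), Measurable fun p : X => Within R (p, i) n (h • p, i') := by
    intro n
    induction n with
    | zero =>
      intro h i'
      have : (fun p : X => Within R (p, i) 0 (h • p, i')) = fun _ => h = 1 ∧ i' = i := by
        funext p
        simp only [Within, Prod.mk.injEq, eq_iff_iff]
        exact and_congr ⟨hX.free h p, fun h1 => by rw [h1, one_smul]⟩ Iff.rfl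
      rw [this]
      exact measurable_const
    | succ n ih =>
      intro h i'
      have : (fun p : X => Within R (p, i) (n + 1) (h • p, i')) = fun p =>
          Within R (p, i) n (h • p, i') ∨ ∃ (k : Γ) (j : I), Within R (p, i) n (k • p, j) ∧
            (R (k • p, j) (h • p, i') ∨ R (h • p, i') (k • p, j)) := by
        funext p
        simp only [Within, eq_iff_iff]
        refine or_congr Iff.rfl ⟨?_, fun ⟨k, j, h⟩ => ⟨_, h⟩⟩
        rintro ⟨⟨q, j⟩, h1, h2⟩
        obtain ⟨k, hk⟩ := hR.eqvGen_orbit h1.eqvGen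
        simp only at hk
        subst hk
        exact ⟨k, j, h1, h2⟩
      rw [this]
      exact (ih h i').or (Measurable.exists fun k => Measurable.exists fun j => (ih k j).and
        ((measurableSet_setOfPred.mp (hR.measurableSet_shift hX _ _ _ _)).or
          (measurableSet_setOfPred.mp (hR.measurableSet_shift hX _ _ _ _))))
  simp only [eqvGen_iff_within]
  exact measurableSet_setOfPred.mpr (Measurable.exists fun n => key n h i')

omit [Countable Γ] [Fintype I] in
theorem MRel.encard_eq (hX : FreePMP Γ X μ) {R : X × I → X × I → Prop} (hR : MRel Γ R) (p : X)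
    (i : I) : {w' | R (p, i) w'}.encard = {z : Γ × I | R (p, i) (z.1 • p, z.2)}.encard := by
  have hinj : Function.Injective fun z : Γ × I => ((z.1 • p, z.2) : X × I) := by
    rintro ⟨g, j⟩ ⟨g', j'⟩ h
    simp only [Prod.mk.injEq] at h ⊢
    refine ⟨?_, h.2⟩
    have := hX.free (g'⁻¹ * g) p (by rw [mul_smul, h.1, inv_smul_smul])
    exact (inv_mul_eq_one.mp this).symm
  rw [← hinj.encard_image]
  congr 1
  ext ⟨q, j⟩
  constructor
  · intro h
    obtain ⟨k, hk⟩ := hR.1 _ _ h
    simp only at hk
    subst hk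
    exact ⟨(k, j), h, rfl⟩
  · rintro ⟨z, h1, h2⟩
    rw [Set.mem_ofPred_eq, ← h2]
    exact h1

theorem MRel.measurableSet_encard_le (hX : FreePMP Γ X μ) {R : X × I → X × I → Prop}
    (hR : MRel Γ R) (D : ℕ) (i : I) :
    MeasurableSet {p : X | {w' | R (p, i) w'}.encard ≤ D} := by
  have : {p : X | {w' | R (p, i) w'}.encard ≤ D} = {p : X | ∃ T : Finset (Γ × I), T.card ≤ D ∧
      ∀ z : Γ × I, R (p, i) (z.1 • p, z.2) → z ∈ T} := by
    ext p
    simp only [Set.mem_ofPred_eq, hR.encard_eq hX]
    constructor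
    · intro h
      have hf := Set.finite_of_encard_le_coe h
      refine ⟨hf.toFinset, ?_, fun z hz => hf.mem_toFinset.mpr hz⟩
      rw [hf.encard_eq_coe_toFinset_card] at h
      exact_mod_cast h
    · rintro ⟨T, h1, h2⟩
      refine (Set.encard_le_encard (t := (T : Set (Γ × I))) fun z hz => h2 z hz).trans ?_
      rw [Set.encard_coe_eq_coe_finsetCard]
      exact_mod_cast h1
  rw [this]
  exact measurableSet_setOfPred.mpr (Measurable.exists fun T => Measurable.and measurable_const
    (Measurable.forall fun z => Measurable.imp (measurableSet_setOfPred.mp (hR.2 _ _ _))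
      measurable_const))

/-- Representatives of the finite classes with more than `D` elements have density at most
`card I / D`. -/
theorem MRel.exists_reps [StandardBorelSpace X] [IsProbabilityMeasure μ] (hX : FreePMP Γ X μ)
    {R : X × I → X × I → Prop} (hR : MRel Γ R) (hE : Equivalence R) (D : ℕ) :
    ∃ Rep : I → Set X, (∀ i, MeasurableSet (Rep i)) ∧
      (D : ENNReal) * ∑ i, μ (Rep i) ≤ Fintype.card I ∧
      ∀ w, {w' | R w w'}.Finite → (D : ℕ∞) < {w' | R w w'}.encard →
        ∃ w', R w w' ∧ w'.1 ∈ Rep w'.2 := by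
  classical
  let _ : MeasurableSpace I := ⊤
  set key : X × I → ℝ := embeddingReal (X × I) with hkey
  have hkm : Measurable key := (measurableEmbedding_embeddingReal _).measurable
  have hki : Function.Injective key := (measurableEmbedding_embeddingReal _).injective
  set Rep : I → Set X := fun i => {p | ¬ {w' | R (p, i) w'}.encard ≤ D ∧
    ∀ z : Γ × I, R (p, i) (z.1 • p, z.2) → key (p, i) ≤ key (z.1 • p, z.2)} with hRep
  have hRm : ∀ i, MeasurableSet (Rep i) := fun i =>
    measurableSet_setOfPred.mpr (Measurable.and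
      (measurableSet_setOfPred.mp (hR.measurableSet_encard_le hX D i)).not
      (Measurable.forall fun z => Measurable.imp (measurableSet_setOfPred.mp (hR.2 _ _ _))
        (measurableSet_setOfPred.mp (measurableSet_le (hkm.comp measurable_prodMk_right)
          (hkm.comp (measurable_prodMk_right.comp (hX.mp _).measurable))))))
  have hmin : ∀ p i, p ∈ Rep i → ∀ w, R (p, i) w → key (p, i) ≤ key w := by
    rintro p i hp ⟨q, j⟩ hw
    obtain ⟨k, hk⟩ := hR.1 _ _ hw
    simp only at hk
    subst hk
    exact hp.2 (k, j) hw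
  refine ⟨Rep, hRm, ?_, ?_⟩
  · -- mass transport
    set E : I → Γ → I → Set X := fun i h j => {p | p ∈ Rep i ∧ R (p, i) (h • p, j)} with hEdef
    have hEm : ∀ i h j, MeasurableSet (E i h j) := fun i h j => (hRm i).inter (hR.2 h i j)
    have h1 : ∀ i, (D : ENNReal) * μ (Rep i) ≤ ∑' z : Γ × I, μ (E i z.1 z.2) := by
      intro i
      have e1 : ∑' z : Γ × I, μ (E i z.1 z.2) =
          ∫⁻ p, ∑' z : Γ × I, (E i z.1 z.2).indicator 1 p ∂μ := by
        rw [lintegral_tsum fun z : Γ × I =>
          (measurable_one.indicator (hEm i z.1 z.2)).aemeasurable]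
        simp only [lintegral_indicator_one (hEm i _ _)]
      rw [e1, ← lintegral_indicator_const (hRm i)]
      refine lintegral_mono fun p => ?_
      by_cases hp : p ∈ Rep i
      · rw [Set.indicator_of_mem hp]
        have h2 := hp.1
        rw [hR.encard_eq hX, not_le] at h2
        have h3 : ∑' z : Γ × I, (E i z.1 z.2).indicator (1 : X → ENNReal) p =
            ∑' z : Γ × I, {z : Γ × I | R (p, i) (z.1 • p, z.2)}.indicator 1 z := by
          refine tsum_congr fun z => ?_
          by_cases hz : R (p, i) (z.1 • p, z.2)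
          · rw [Set.indicator_of_mem (show p ∈ E i z.1 z.2 from ⟨hp, hz⟩),
              Set.indicator_of_mem (show z ∈ {z : Γ × I | R (p, i) (z.1 • p, z.2)} from hz)]
            rfl
          · rw [Set.indicator_of_notMem (fun h : p ∈ E i z.1 z.2 => hz h.2),
              Set.indicator_of_notMem (show z ∉ {z : Γ × I | R (p, i) (z.1 • p, z.2)} from hz)]
        rw [h3, ← tsum_subtype]
        simp only [Pi.one_apply, ENNReal.tsum_set_one]
        exact_mod_cast h2.le
      · rw [Set.indicator_of_notMem hp]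
        exact zero_le
    have h2 : ∀ j, ∑' z : I × Γ, μ (E z.1 z.2 j) ≤ 1 := by
      intro j
      have e1 : ∀ z : I × Γ, μ (E z.1 z.2 j) = μ ((fun q => z.2⁻¹ • q) ⁻¹' E z.1 z.2 j) :=
        fun z => ((hX.mp z.2⁻¹).measure_preimage (hEm _ _ _).nullMeasurableSet).symm
      simp only [e1]
      rw [← measure_iUnion ?_ fun z : I × Γ => (hX.mp z.2⁻¹).measurable (hEm z.1 z.2 j)]
      · exact prob_le_one
      · rintro ⟨i, h⟩ ⟨i', h'⟩ hne
        refine Set.disjoint_left.mpr fun q hq hq' => hne ?_
        simp only [hEdef, Set.mem_preimage, Set.mem_ofPred_eq, smul_inv_smul] at hq hq'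
        have l1 := hmin _ _ hq.1 _ (hE.trans hq.2 (hE.symm hq'.2))
        have l2 := hmin _ _ hq'.1 _ (hE.trans hq'.2 (hE.symm hq.2))
        have e2 := hki (le_antisymm l1 l2)
        simp only [Prod.mk.injEq] at e2 ⊢
        refine ⟨e2.2, ?_⟩
        have := hX.free (h' * h⁻¹) q (by rw [mul_smul, e2.1, smul_inv_smul])
        exact (mul_inv_eq_one.mp this).symm
    calc (D : ENNReal) * ∑ i, μ (Rep i) = ∑ i, (D : ENNReal) * μ (Rep i) := Finset.mul_sum _ _ _
      _ ≤ ∑ i, ∑' z : Γ × I, μ (E i z.1 z.2) := Finset.sum_le_sum fun i _ => h1 i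
      _ = ∑ j, ∑' z : I × Γ, μ (E z.1 z.2 j) := by
          simp only [ENNReal.tsum_prod', ← tsum_fintype (L := SummationFilter.unconditional I)]
          simp only [fun i => ENNReal.tsum_comm (f := fun h j => μ (E i h j))]
          exact ENNReal.tsum_comm
      _ ≤ ∑ _j : I, 1 := Finset.sum_le_sum fun j _ => h2 j
      _ = _ := by simp
  · intro w hfin hcard
    obtain ⟨w', hw', hmin'⟩ := Set.exists_min_image _ key hfin ⟨w, hE.refl w⟩
    have hcl : {z | R w' z} = {z | R w z} := by
      ext z
      exact ⟨fun h => hE.trans hw' h, fun h => hE.trans (hE.symm hw') h⟩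
    refine ⟨w', hw', ?_, fun z hz => hmin' _ (hE.trans hw' hz)⟩
    rw [hcl]
    exact not_le.mpr hcard

omit [Countable Γ] [MeasurableSpace X] [Fintype I] in
/-- Classes with at most `D` elements of a relation of bounded range have bounded range. -/
theorem exists_range_of_encard_le (F : Finset Γ) (D : ℕ) :
    ∃ F' : Finset Γ, ∀ R : X × I → X × I → Prop,
      (∀ w w', R w w' → ∃ h ∈ F, w'.1 = h • w.1) →
      ∀ w w', {w'' | EqvGen R w w''}.encard ≤ D → EqvGen R w w' → ∃ h ∈ F', w'.1 = h • w.1 := by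
  classical
  have key : ∀ n : ℕ, ∃ F' : Finset Γ, ∀ R : X × I → X × I → Prop,
      (∀ w w', R w w' → ∃ h ∈ F, w'.1 = h • w.1) →
      ∀ w w', Within R w n w' → ∃ h ∈ F', w'.1 = h • w.1 := by
    intro n
    induction n with
    | zero =>
      refine ⟨{1}, fun R _ w w' h => ⟨1, by simp, ?_⟩⟩
      rw [show w' = w from h, one_smul]
    | succ n ih =>
      obtain ⟨F', hF'⟩ := ih
      refine ⟨F' ∪ (F ×ˢ F').image (fun z => z.1 * z.2) ∪ (F ×ˢ F').image (fun z => z.1⁻¹ * z.2),
        fun R hR w w' h => ?_⟩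
      rcases h with h | ⟨c, hc, h | h⟩
      · obtain ⟨g, h1, h2⟩ := hF' R hR w w' h
        exact ⟨g, by simp [h1], h2⟩
      · obtain ⟨g, h1, h2⟩ := hF' R hR w c hc
        obtain ⟨k, h3, h4⟩ := hR _ _ h
        refine ⟨k * g, Finset.mem_union_left _ (Finset.mem_union_right _
          (Finset.mem_image.mpr ⟨(k, g), by simp [h1, h3], rfl⟩)), ?_⟩
        rw [h4, h2, mul_smul]
      · obtain ⟨g, h1, h2⟩ := hF' R hR w c hc
        obtain ⟨k, h3, h4⟩ := hR _ _ h
        refine ⟨k⁻¹ * g, Finset.mem_union_right _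
          (Finset.mem_image.mpr ⟨(k, g), by simp [h1, h3], rfl⟩), ?_⟩
        rw [mul_smul, ← h2, h4, inv_smul_smul]
  obtain ⟨F', hF'⟩ := key D
  exact ⟨F', fun R hR w w' h1 h2 => hF' R hR w w' (within_of_encard_le h1 h2)⟩

end Crest.Agent.R191
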